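import Crest.Agent.R163.Q3.D.b4G.S10

set_option autoImplicit false
set_option maxRecDepth 100000
set_option linter.all false

namespace Crest.Agent.R163.b4G

theorem c292_0 : stepsOK par ⟨358,11,6,1,7⟩ b292_0 s292_0 a292_0 = true := by decide +kernel
theorem c293_0 : stepsOK par ⟨353,11,6,1,7⟩ b293_0 s293_0 a293_0 = true := by decide +kernel
theorem c294_0 : stepsOK par ⟨353,11,6,1,7⟩ b294_0 s294_0 a294_0 = true := by decide +kernel
theorem c295_0 : stepsOK par ⟨355,11,6,1,7⟩ b295_0 s295_0 a295_0 = true := by decide +kernel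
theorem c296_0 : stepsOK par ⟨358,11,6,1,7⟩ b296_0 s296_0 a296_0 = true := by decide +kernel
theorem c297_0 : stepsOK par ⟨360,11,6,1,7⟩ b297_0 s297_0 a297_0 = true := by decide +kernel
theorem c298_0 : stepsOK par ⟨355,11,6,1,7⟩ b298_0 s298_0 a298_0 = true := by decide +kernel
theorem c299_0 : stepsOK par ⟨358,11,6,1,7⟩ b299_0 s299_0 a299_0 = true := by decide +kernel
theorem c299_1 : stepsOK par ⟨8,11,6,1,7⟩ b299_1 s299_1 a299_1 = true := by decide +kernel
theorem c300_0 : stepsOK par ⟨359,11,6,1,7⟩ b300_0 s300_0 a300_0 = true := by decide +kernel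
theorem c300_1 : stepsOK par ⟨358,11,6,1,7⟩ b300_1 s300_1 a300_1 = true := by decide +kernel
theorem c301_0 : stepsOK par ⟨355,11,6,1,7⟩ b301_0 s301_0 a301_0 = true := by decide +kernel
theorem c302_0 : stepsOK par ⟨359,11,6,1,7⟩ b302_0 s302_0 a302_0 = true := by decide +kernel
theorem c303_0 : stepsOK par ⟨357,11,6,1,7⟩ b303_0 s303_0 a303_0 = true := by decide +kernel
theorem c304_0 : stepsOK par ⟨359,11,6,1,7⟩ b304_0 s304_0 a304_0 = true := by decide +kernel
theorem c305_0 : stepsOK par ⟨359,11,6,1,7⟩ b305_0 s305_0 a305_0 = true := by decide +kernel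
theorem c306_0 : stepsOK par ⟨353,11,6,1,7⟩ b306_0 s306_0 a306_0 = true := by decide +kernel
theorem c307_0 : stepsOK par ⟨353,11,6,1,7⟩ b307_0 s307_0 a307_0 = true := by decide +kernel
theorem c308_0 : stepsOK par ⟨355,11,6,1,7⟩ b308_0 s308_0 a308_0 = true := by decide +kernel
theorem c309_0 : stepsOK par ⟨357,11,6,1,7⟩ b309_0 s309_0 a309_0 = true := by decide +kernel
theorem c310_0 : stepsOK par ⟨359,11,6,1,7⟩ b310_0 s310_0 a310_0 = true := by decide +kernel
theorem c311_0 : stepsOK par ⟨359,11,6,1,7⟩ b311_0 s311_0 a311_0 = true := by decide +kernel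
theorem c312_0 : stepsOK par ⟨356,11,6,1,7⟩ b312_0 s312_0 a312_0 = true := by decide +kernel
theorem c313_0 : stepsOK par ⟨352,11,6,1,7⟩ b313_0 s313_0 a313_0 = true := by decide +kernel
theorem c314_0 : stepsOK par ⟨359,11,6,1,7⟩ b314_0 s314_0 a314_0 = true := by decide +kernel
theorem c315_0 : stepsOK par ⟨352,11,6,1,7⟩ b315_0 s315_0 a315_0 = true := by decide +kernel
theorem c316_0 : stepsOK par ⟨359,11,6,1,7⟩ b316_0 s316_0 a316_0 = true := by decide +kernel
theorem c317_0 : stepsOK par ⟨359,11,6,1,7⟩ b317_0 s317_0 a317_0 = true := by decide +kernel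
theorem c318_0 : stepsOK par ⟨359,11,6,1,7⟩ b318_0 s318_0 a318_0 = true := by decide +kernel
theorem c318_1 : stepsOK par ⟨350,11,6,1,7⟩ b318_1 s318_1 a318_1 = true := by decide +kernel
theorem c319_0 : stepsOK par ⟨355,11,6,1,7⟩ b319_0 s319_0 a319_0 = true := by decide +kernel
theorem c320_0 : stepsOK par ⟨352,11,6,1,7⟩ b320_0 s320_0 a320_0 = true := by decide +kernel
theorem c321_0 : stepsOK par ⟨359,11,6,1,7⟩ b321_0 s321_0 a321_0 = true := by decide +kernel

end Crest.Agent.R163.b4G
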