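import Crest.Agent.R163.Q3.D.b4G.T0_0
import Crest.Agent.R163.Q3.D.b4G.M0
import Crest.Agent.R163.Q3.D.b4G.T1_0
import Crest.Agent.R163.Q3.D.b4G.M1
import Crest.Agent.R163.Q3.D.b4G.T2_0
import Crest.Agent.R163.Q3.D.b4G.M2
import Crest.Agent.R163.Q3.D.b4G.T3_0
import Crest.Agent.R163.Q3.D.b4G.M3
import Crest.Agent.R163.Q3.D.b4G.T4_0
import Crest.Agent.R163.Q3.D.b4G.M4
import Crest.Agent.R163.Q3.D.b4G.T5_0
import Crest.Agent.R163.Q3.D.b4G.M5
import Crest.Agent.R163.Q3.D.b4G.T6_0
import Crest.Agent.R163.Q3.D.b4G.M6
import Crest.Agent.R163.Q3.D.b4G.T7_0
import Crest.Agent.R163.Q3.D.b4G.M7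
import Crest.Agent.R163.Q3.D.b4G.T8_0
import Crest.Agent.R163.Q3.D.b4G.M8
import Crest.Agent.R163.Q3.D.b4G.T9_0
import Crest.Agent.R163.Q3.D.b4G.M9
import Crest.Agent.R163.Q3.D.b4G.T10_0
import Crest.Agent.R163.Q3.D.b4G.M10
import Crest.Agent.R163.Q3.D.b4G.T11_0
import Crest.Agent.R163.Q3.D.b4G.M11
import Crest.Agent.R163.Q3.D.b4G.T12_0
import Crest.Agent.R163.Q3.D.b4G.M12
import Crest.Agent.R163.Q3.D.b4G.T13_0
import Crest.Agent.R163.Q3.D.b4G.M13
import Crest.Agent.R163.Q3.D.b4G.T14_0
import Crest.Agent.R163.Q3.D.b4G.M14
import Crest.Agent.R163.Q3.D.b4G.T15_0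
import Crest.Agent.R163.Q3.D.b4G.M15
import Crest.Agent.R163.Q3.D.b4G.T16_0
import Crest.Agent.R163.Q3.D.b4G.M16

set_option autoImplicit false
set_option maxRecDepth 100000
set_option linter.all false

namespace Crest.Agent.R163.b4G

theorem Inf.cast {a b : Box} (h : Inf par a) (e : Box.beq a b = true) : Inf par b :=
  Box.eq_of_beq e ▸ h

theorem n464 : Inf par b464_0 :=
  Inf.empty (by decide +kernel)
theorem n464_0 : Inf par a464_0 :=
  Inf.steps hw _ b464_0 s464_0 c464_0 pt16.right.right n464
theorem n463 : Inf par b463_0 :=
  Inf.empty (by decide +kernel)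
theorem n463_0 : Inf par a463_0 :=
  Inf.steps hw _ b463_0 s463_0 c463_0 pt16.right.left n463
theorem n462 : Inf par b462_0 :=
  Inf.empty (by decide +kernel)
theorem n462_0 : Inf par a462_0 :=
  Inf.steps hw _ b462_0 s462_0 c462_0 pt16.left n462
theorem n461 : Inf par b461_0 :=
  Inf.spG 7 ⟨1227499245,0,0⟩ (Inf.cast n462_0 (by decide +kernel)) (Inf.cast n463_0 (by decide +kernel))
theorem n461_0 : Inf par a461_0 :=
  Inf.steps hw _ b461_0 s461_0 c461_0 pt15.right.right.right.right.right.right.right.right.right.right.right.right.right.right.right.right.right.right.right.right.right.right.right.right.right n461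
theorem n460 : Inf par b460_0 :=
  Inf.empty (by decide +kernel)
theorem n460_0 : Inf par a460_0 :=
  Inf.steps hw _ b460_0 s460_0 c460_0 pt15.right.right.right.right.right.right.right.right.right.right.right.right.right.right.right.right.right.right.right.right.right.right.right.right.left n460
theorem n459 : Inf par b459_0 :=
  Inf.empty (by decide +kernel)
theorem n459_0 : Inf par a459_0 :=
  Inf.steps hw _ b459_0 s459_0 c459_0 pt15.right.right.right.right.right.right.right.right.right.right.right.right.right.right.right.right.right.right.right.right.right.right.right.left n459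
theorem n458 : Inf par b458_0 :=
  Inf.spG 7 ⟨1110965815,0,0⟩ (Inf.cast n459_0 (by decide +kernel)) (Inf.cast n460_0 (by decide +kernel))
theorem n458_0 : Inf par a458_0 :=
  Inf.steps hw _ b458_0 s458_0 c458_0 pt15.right.right.right.right.right.right.right.right.right.right.right.right.right.right.right.right.right.right.right.right.right.right.left n458
theorem n457 : Inf par b457_0 :=
  Inf.empty (by decide +kernel)
theorem n457_0 : Inf par a457_0 :=
  Inf.steps hw _ b457_0 s457_0 c457_0 pt15.right.right.right.right.right.right.right.right.right.right.right.right.right.right.right.right.right.right.right.right.right.left n457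
theorem n456 : Inf par b456_0 :=
  Inf.empty (by decide +kernel)
theorem n456_0 : Inf par a456_0 :=
  Inf.steps hw _ b456_0 s456_0 c456_0 pt15.right.right.right.right.right.right.right.right.right.right.right.right.right.right.right.right.right.right.right.right.left n456
theorem n455 : Inf par b455_0 :=
  Inf.spG 7 ⟨1052699099,0,0⟩ (Inf.cast n456_0 (by decide +kernel)) (Inf.cast n457_0 (by decide +kernel))
theorem n455_0 : Inf par a455_0 :=
  Inf.steps hw _ b455_0 s455_0 c455_0 pt15.right.right.right.right.right.right.right.right.right.right.right.right.right.right.right.right.right.right.right.left n455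
theorem n454 : Inf par b454_1 :=
  Inf.empty (by decide +kernel)
theorem n454_1 : Inf par a454_1 :=
  Inf.steps hw _ b454_1 s454_1 c454_1 pt15.right.right.right.right.right.right.right.right.right.right.right.right.right.right.right.right.right.right.left n454
theorem n454_0 : Inf par a454_0 :=
  Inf.steps hw _ b454_0 s454_0 c454_0 pt15.right.right.right.right.right.right.right.right.right.right.right.right.right.right.right.right.right.left (Inf.cast n454_1 (by decide +kernel))
theorem n453 : Inf par b453_0 :=
  Inf.empty (by decide +kernel)
theorem n453_0 : Inf par a453_0 :=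
  Inf.steps hw _ b453_0 s453_0 c453_0 pt15.right.right.right.right.right.right.right.right.right.right.right.right.right.right.right.right.left n453
theorem n452 : Inf par b452_0 :=
  Inf.empty (by decide +kernel)
theorem n452_0 : Inf par a452_0 :=
  Inf.steps hw _ b452_0 s452_0 c452_0 pt15.right.right.right.right.right.right.right.right.right.right.right.right.right.right.right.left n452
theorem n451 : Inf par b451_0 :=
  Inf.spG 3 ⟨650346321,0,0⟩ (Inf.cast n452_0 (by decide +kernel)) (Inf.cast n453_0 (by decide +kernel))
theorem n451_0 : Inf par a451_0 :=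
  Inf.steps hw _ b451_0 s451_0 c451_0 pt15.right.right.right.right.right.right.right.right.right.right.right.right.right.right.left n451
theorem n450 : Inf par b450_0 :=
  Inf.spG 7 ⟨1013854623,0,0⟩ (Inf.cast n451_0 (by decide +kernel)) (Inf.cast n454_0 (by decide +kernel))
theorem n450_0 : Inf par a450_0 :=
  Inf.steps hw _ b450_0 s450_0 c450_0 pt15.right.right.right.right.right.right.right.right.right.right.right.right.right.left n450
theorem n449 : Inf par b449_0 :=
  Inf.spG 7 ⟨1033276861,0,0⟩ (Inf.cast n450_0 (by decide +kernel)) (Inf.cast n455_0 (by decide +kernel))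
theorem n449_0 : Inf par a449_0 :=
  Inf.steps hw _ b449_0 s449_0 c449_0 pt15.right.right.right.right.right.right.right.right.right.right.right.right.left n449
theorem n448 : Inf par b448_0 :=
  Inf.spG 7 ⟨1072121338,0,0⟩ (Inf.cast n449_0 (by decide +kernel)) (Inf.cast n458_0 (by decide +kernel))
theorem n448_0 : Inf par a448_0 :=
  Inf.steps hw _ b448_0 s448_0 c448_0 pt15.right.right.right.right.right.right.right.right.right.right.right.left n448
theorem n447 : Inf par b447_0 :=
  Inf.spG 7 ⟨1149810292,0,0⟩ (Inf.cast n448_0 (by decide +kernel)) (Inf.cast n461_0 (by decide +kernel))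
theorem n447_0 : Inf par a447_0 :=
  Inf.steps hw _ b447_0 s447_0 c447_0 pt15.right.right.right.right.right.right.right.right.right.right.left n447
theorem n446 : Inf par b446_0 :=
  Inf.spG 7 ⟨1305188199,0,0⟩ (Inf.cast n447_0 (by decide +kernel)) (Inf.cast n464_0 (by decide +kernel))
theorem n446_0 : Inf par a446_0 :=
  Inf.steps hw _ b446_0 s446_0 c446_0 pt15.right.right.right.right.right.right.right.right.right.left n446
theorem n445 : Inf par b445_0 :=
  Inf.empty (by decide +kernel)
theorem n445_0 : Inf par a445_0 :=
  Inf.steps hw _ b445_0 s445_0 c445_0 pt15.right.right.right.right.right.right.right.right.left n445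
theorem n444 : Inf par b444_0 :=
  Inf.empty (by decide +kernel)
theorem n444_0 : Inf par a444_0 :=
  Inf.steps hw _ b444_0 s444_0 c444_0 pt15.right.right.right.right.right.right.right.left n444
theorem n443 : Inf par b443_0 :=
  Inf.spG 3 ⟨639201954,0,0⟩ (Inf.cast n444_0 (by decide +kernel)) (Inf.cast n445_0 (by decide +kernel))
theorem n443_0 : Inf par a443_0 :=
  Inf.steps hw _ b443_0 s443_0 c443_0 pt15.right.right.right.right.right.right.left n443
theorem n442 : Inf par b442_0 :=
  Inf.empty (by decide +kernel)
theorem n442_0 : Inf par a442_0 :=
  Inf.steps hw _ b442_0 s442_0 c442_0 pt15.right.right.right.right.right.left n442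
theorem n441 : Inf par b441_0 :=
  Inf.empty (by decide +kernel)
theorem n441_0 : Inf par a441_0 :=
  Inf.steps hw _ b441_0 s441_0 c441_0 pt15.right.right.right.right.left n441
theorem n440 : Inf par b440_0 :=
  Inf.spG 3 ⟨632830413,0,0⟩ (Inf.cast n441_0 (by decide +kernel)) (Inf.cast n442_0 (by decide +kernel))
theorem n440_0 : Inf par a440_0 :=
  Inf.steps hw _ b440_0 s440_0 c440_0 pt15.right.right.right.left n440
theorem n439 : Inf par b439_0 :=
  Inf.spG 7 ⟨979455175,0,0⟩ (Inf.cast n440_0 (by decide +kernel)) (Inf.cast n443_0 (by decide +kernel))
theorem n439_0 : Inf par a439_0 :=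
  Inf.steps hw _ b439_0 s439_0 c439_0 pt15.right.right.left n439
theorem n438 : Inf par b438_0 :=
  Inf.empty (by decide +kernel)
theorem n438_0 : Inf par a438_0 :=
  Inf.steps hw _ b438_0 s438_0 c438_0 pt15.right.left n438
theorem n437 : Inf par b437_0 :=
  Inf.empty (by decide +kernel)
theorem n437_0 : Inf par a437_0 :=
  Inf.steps hw _ b437_0 s437_0 c437_0 pt15.left n437
theorem n436 : Inf par b436_0 :=
  Inf.spG 3 ⟨625347226,0,0⟩ (Inf.cast n437_0 (by decide +kernel)) (Inf.cast n438_0 (by decide +kernel))
theorem n436_0 : Inf par a436_0 :=
  Inf.steps hw _ b436_0 s436_0 c436_0 pt14.right.right.right.right.right.right.right.right.right.right.right.right.right.right.right.right.right.right.right.right.right.right.right.right.right.right.right.right n436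
theorem n435 : Inf par b435_0 :=
  Inf.empty (by decide +kernel)
theorem n435_0 : Inf par a435_0 :=
  Inf.steps hw _ b435_0 s435_0 c435_0 pt14.right.right.right.right.right.right.right.right.right.right.right.right.right.right.right.right.right.right.right.right.right.right.right.right.right.right.right.left n435
theorem n434 : Inf par b434_0 :=
  Inf.spG 7 ⟨949500755,0,0⟩ (Inf.cast n435_0 (by decide +kernel)) (Inf.cast n436_0 (by decide +kernel))
theorem n434_0 : Inf par a434_0 :=
  Inf.steps hw _ b434_0 s434_0 c434_0 pt14.right.right.right.right.right.right.right.right.right.right.right.right.right.right.right.right.right.right.right.right.right.right.right.right.right.right.left n434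
theorem n433 : Inf par b433_0 :=
  Inf.spG 7 ⟨964477965,0,0⟩ (Inf.cast n434_0 (by decide +kernel)) (Inf.cast n439_0 (by decide +kernel))
theorem n433_0 : Inf par a433_0 :=
  Inf.steps hw _ b433_0 s433_0 c433_0 pt14.right.right.right.right.right.right.right.right.right.right.right.right.right.right.right.right.right.right.right.right.right.right.right.right.right.left n433
theorem n432 : Inf par b432_1 :=
  Inf.empty (by decide +kernel)
theorem n432_1 : Inf par a432_1 :=
  Inf.steps hw _ b432_1 s432_1 c432_1 pt14.right.right.right.right.right.right.right.right.right.right.right.right.right.right.right.right.right.right.right.right.right.right.right.right.left n432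
theorem n432_0 : Inf par a432_0 :=
  Inf.steps hw _ b432_0 s432_0 c432_0 pt14.right.right.right.right.right.right.right.right.right.right.right.right.right.right.right.right.right.right.right.right.right.right.right.left (Inf.cast n432_1 (by decide +kernel))
theorem n431 : Inf par b431_0 :=
  Inf.empty (by decide +kernel)
theorem n431_0 : Inf par a431_0 :=
  Inf.steps hw _ b431_0 s431_0 c431_0 pt14.right.right.right.right.right.right.right.right.right.right.right.right.right.right.right.right.right.right.right.right.right.right.left n431
theorem n430 : Inf par b430_0 :=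
  Inf.empty (by decide +kernel)
theorem n430_0 : Inf par a430_0 :=
  Inf.steps hw _ b430_0 s430_0 c430_0 pt14.right.right.right.right.right.right.right.right.right.right.right.right.right.right.right.right.right.right.right.right.right.left n430
theorem n429 : Inf par b429_0 :=
  Inf.spG 5 ⟨831057857,0,0⟩ (Inf.cast n430_0 (by decide +kernel)) (Inf.cast n431_0 (by decide +kernel))
theorem n429_0 : Inf par a429_0 :=
  Inf.steps hw _ b429_0 s429_0 c429_0 pt14.right.right.right.right.right.right.right.right.right.right.right.right.right.right.right.right.right.right.right.right.left n429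
theorem n428 : Inf par b428_0 :=
  Inf.empty (by decide +kernel)
theorem n428_0 : Inf par a428_0 :=
  Inf.steps hw _ b428_0 s428_0 c428_0 pt14.right.right.right.right.right.right.right.right.right.right.right.right.right.right.right.right.right.right.right.left n428
theorem n427 : Inf par b427_0 :=
  Inf.spG 3 ⟨605981932,0,0⟩ (Inf.cast n428_0 (by decide +kernel)) (Inf.cast n429_0 (by decide +kernel))
theorem n427_0 : Inf par a427_0 :=
  Inf.steps hw _ b427_0 s427_0 c427_0 pt14.right.right.right.right.right.right.right.right.right.right.right.right.right.right.right.right.right.right.left n427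
theorem n426 : Inf par b426_0 :=
  Inf.empty (by decide +kernel)
theorem n426_0 : Inf par a426_0 :=
  Inf.steps hw _ b426_0 s426_0 c426_0 pt14.right.right.right.right.right.right.right.right.right.right.right.right.right.right.right.right.right.left n426
theorem n425 : Inf par b425_0 :=
  Inf.empty (by decide +kernel)
theorem n425_0 : Inf par a425_0 :=
  Inf.steps hw _ b425_0 s425_0 c425_0 pt14.right.right.right.right.right.right.right.right.right.right.right.right.right.right.right.right.left n425
theorem n424 : Inf par b424_0 :=
  Inf.spG 3 ⟨603093885,0,0⟩ (Inf.cast n425_0 (by decide +kernel)) (Inf.cast n426_0 (by decide +kernel))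
theorem n424_0 : Inf par a424_0 :=
  Inf.steps hw _ b424_0 s424_0 c424_0 pt14.right.right.right.right.right.right.right.right.right.right.right.right.right.right.right.left n424
theorem n423 : Inf par b423_0 :=
  Inf.spG 5 ⟨825240637,0,0⟩ (Inf.cast n424_0 (by decide +kernel)) (Inf.cast n427_0 (by decide +kernel))
theorem n423_0 : Inf par a423_0 :=
  Inf.steps hw _ b423_0 s423_0 c423_0 pt14.right.right.right.right.right.right.right.right.right.right.right.right.right.right.left n423
theorem n422 : Inf par b422_0 :=
  Inf.empty (by decide +kernel)
theorem n422_0 : Inf par a422_0 :=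
  Inf.steps hw _ b422_0 s422_0 c422_0 pt14.right.right.right.right.right.right.right.right.right.right.right.right.right.left n422
theorem n421 : Inf par b421_0 :=
  Inf.spG 3 ⟨595569782,0,0⟩ (Inf.cast n422_0 (by decide +kernel)) (Inf.cast n423_0 (by decide +kernel))
theorem n421_0 : Inf par a421_0 :=
  Inf.steps hw _ b421_0 s421_0 c421_0 pt14.right.right.right.right.right.right.right.right.right.right.right.right.left n421
theorem n420 : Inf par b420_0 :=
  Inf.empty (by decide +kernel)
theorem n420_0 : Inf par a420_0 :=
  Inf.steps hw _ b420_0 s420_0 c420_0 pt14.right.right.right.right.right.right.right.right.right.right.right.left n420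
theorem n419 : Inf par b419_0 :=
  Inf.empty (by decide +kernel)
theorem n419_0 : Inf par a419_0 :=
  Inf.steps hw _ b419_0 s419_0 c419_0 pt14.right.right.right.right.right.right.right.right.right.right.left n419
theorem n418 : Inf par b418_0 :=
  Inf.spG 3 ⟨596992480,0,0⟩ (Inf.cast n419_0 (by decide +kernel)) (Inf.cast n420_0 (by decide +kernel))
theorem n418_0 : Inf par a418_0 :=
  Inf.steps hw _ b418_0 s418_0 c418_0 pt14.right.right.right.right.right.right.right.right.right.left n418
theorem n417 : Inf par b417_0 :=
  Inf.empty (by decide +kernel)
theorem n417_0 : Inf par a417_0 :=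
  Inf.steps hw _ b417_0 s417_0 c417_0 pt14.right.right.right.right.right.right.right.right.left n417
theorem n416 : Inf par b416_0 :=
  Inf.spG 5 ⟨811534678,0,0⟩ (Inf.cast n417_0 (by decide +kernel)) (Inf.cast n418_0 (by decide +kernel))
theorem n416_0 : Inf par a416_0 :=
  Inf.steps hw _ b416_0 s416_0 c416_0 pt14.right.right.right.right.right.right.right.left n416
theorem n415 : Inf par b415_0 :=
  Inf.empty (by decide +kernel)
theorem n415_0 : Inf par a415_0 :=
  Inf.steps hw _ b415_0 s415_0 c415_0 pt14.right.right.right.right.right.right.left n415
theorem n414 : Inf par b414_0 :=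
  Inf.spG 3 ⟨589544382,0,0⟩ (Inf.cast n415_0 (by decide +kernel)) (Inf.cast n416_0 (by decide +kernel))
theorem n414_0 : Inf par a414_0 :=
  Inf.steps hw _ b414_0 s414_0 c414_0 pt14.right.right.right.right.right.left n414
theorem n413 : Inf par b413_0 :=
  Inf.empty (by decide +kernel)
theorem n413_0 : Inf par a413_0 :=
  Inf.steps hw _ b413_0 s413_0 c413_0 pt14.right.right.right.right.left n413
theorem n412 : Inf par b412_0 :=
  Inf.empty (by decide +kernel)
theorem n412_0 : Inf par a412_0 :=
  Inf.steps hw _ b412_0 s412_0 c412_0 pt14.right.right.right.left n412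
theorem n411 : Inf par b411_0 :=
  Inf.spG 3 ⟨588162546,0,0⟩ (Inf.cast n412_0 (by decide +kernel)) (Inf.cast n413_0 (by decide +kernel))
theorem n411_0 : Inf par a411_0 :=
  Inf.steps hw _ b411_0 s411_0 c411_0 pt14.right.right.left n411
theorem n410 : Inf par b410_0 :=
  Inf.spG 7 ⟨913404143,0,0⟩ (Inf.cast n411_0 (by decide +kernel)) (Inf.cast n414_0 (by decide +kernel))
theorem n410_0 : Inf par a410_0 :=
  Inf.steps hw _ b410_0 s410_0 c410_0 pt14.right.left n410
theorem n409 : Inf par b409_0 :=
  Inf.empty (by decide +kernel)
theorem n409_0 : Inf par a409_0 :=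
  Inf.steps hw _ b409_0 s409_0 c409_0 pt14.left n409
theorem n408 : Inf par b408_0 :=
  Inf.empty (by decide +kernel)
theorem n408_0 : Inf par a408_0 :=
  Inf.steps hw _ b408_0 s408_0 c408_0 pt13.right.right.right.right.right.right.right.right.right.right.right.right.right.right.right.right.right.right.right.right.right.right.right.right.right.right.right.right.right n408
theorem n407 : Inf par b407_0 :=
  Inf.spG 3 ⟨582882754,0,0⟩ (Inf.cast n408_0 (by decide +kernel)) (Inf.cast n409_0 (by decide +kernel))
theorem n407_0 : Inf par a407_0 :=
  Inf.steps hw _ b407_0 s407_0 c407_0 pt13.right.right.right.right.right.right.right.right.right.right.right.right.right.right.right.right.right.right.right.right.right.right.right.right.right.right.right.right.left n407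
theorem n406 : Inf par b406_0 :=
  Inf.empty (by decide +kernel)
theorem n406_0 : Inf par a406_0 :=
  Inf.steps hw _ b406_0 s406_0 c406_0 pt13.right.right.right.right.right.right.right.right.right.right.right.right.right.right.right.right.right.right.right.right.right.right.right.right.right.right.right.left n406
theorem n405 : Inf par b405_0 :=
  Inf.spG 3 ⟨576082345,0,0⟩ (Inf.cast n406_0 (by decide +kernel)) (Inf.cast n407_0 (by decide +kernel))
theorem n405_0 : Inf par a405_0 :=
  Inf.steps hw _ b405_0 s405_0 c405_0 pt13.right.right.right.right.right.right.right.right.right.right.right.right.right.right.right.right.right.right.right.right.right.right.right.right.right.right.left n405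
theorem n404 : Inf par b404_0 :=
  Inf.spG 4 ⟨735590214,0,0⟩ (Inf.cast n405_0 (by decide +kernel)) (Inf.cast n410_0 (by decide +kernel))
theorem n404_0 : Inf par a404_0 :=
  Inf.steps hw _ b404_0 s404_0 c404_0 pt13.right.right.right.right.right.right.right.right.right.right.right.right.right.right.right.right.right.right.right.right.right.right.right.right.right.left n404
theorem n403 : Inf par b403_0 :=
  Inf.spG 7 ⟨924979606,0,0⟩ (Inf.cast n404_0 (by decide +kernel)) (Inf.cast n421_0 (by decide +kernel))
theorem n403_0 : Inf par a403_0 :=
  Inf.steps hw _ b403_0 s403_0 c403_0 pt13.right.right.right.right.right.right.right.right.right.right.right.right.right.right.right.right.right.right.right.right.right.right.right.right.left n403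
theorem n402 : Inf par b402_0 :=
  Inf.spG 7 ⟨948130532,0,0⟩ (Inf.cast n403_0 (by decide +kernel)) (Inf.cast n432_0 (by decide +kernel))
theorem n402_0 : Inf par a402_0 :=
  Inf.steps hw _ b402_0 s402_0 c402_0 pt13.right.right.right.right.right.right.right.right.right.right.right.right.right.right.right.right.right.right.right.right.right.right.right.left n402
theorem n401 : Inf par b401_0 :=
  Inf.spG 3 ⟨616394083,0,0⟩ (Inf.cast n402_0 (by decide +kernel)) (Inf.cast n433_0 (by decide +kernel))
theorem n401_0 : Inf par a401_0 :=
  Inf.steps hw _ b401_0 s401_0 c401_0 pt13.right.right.right.right.right.right.right.right.right.right.right.right.right.right.right.right.right.right.right.right.right.right.left n401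
theorem n400 : Inf par b400_0 :=
  Inf.empty (by decide +kernel)
theorem n400_0 : Inf par a400_0 :=
  Inf.steps hw _ b400_0 s400_0 c400_0 pt13.right.right.right.right.right.right.right.right.right.right.right.right.right.right.right.right.right.right.right.right.right.left n400
theorem n399 : Inf par b399_0 :=
  Inf.empty (by decide +kernel)
theorem n399_0 : Inf par a399_0 :=
  Inf.steps hw _ b399_0 s399_0 c399_0 pt13.right.right.right.right.right.right.right.right.right.right.right.right.right.right.right.right.right.right.right.right.left n399
theorem n398 : Inf par b398_0 :=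
  Inf.spG 5 ⟨792751517,0,0⟩ (Inf.cast n399_0 (by decide +kernel)) (Inf.cast n400_0 (by decide +kernel))
theorem n398_0 : Inf par a398_0 :=
  Inf.steps hw _ b398_0 s398_0 c398_0 pt13.right.right.right.right.right.right.right.right.right.right.right.right.right.right.right.right.right.right.right.left n398
theorem n397 : Inf par b397_0 :=
  Inf.empty (by decide +kernel)
theorem n397_0 : Inf par a397_0 :=
  Inf.steps hw _ b397_0 s397_0 c397_0 pt13.right.right.right.right.right.right.right.right.right.right.right.right.right.right.right.right.right.right.left n397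
theorem n396 : Inf par b396_0 :=
  Inf.spG 3 ⟨575453586,0,0⟩ (Inf.cast n397_0 (by decide +kernel)) (Inf.cast n398_0 (by decide +kernel))
theorem n396_0 : Inf par a396_0 :=
  Inf.steps hw _ b396_0 s396_0 c396_0 pt13.right.right.right.right.right.right.right.right.right.right.right.right.right.right.right.right.right.left n396
theorem n395 : Inf par b395_0 :=
  Inf.empty (by decide +kernel)
theorem n395_0 : Inf par a395_0 :=
  Inf.steps hw _ b395_0 s395_0 c395_0 pt13.right.right.right.right.right.right.right.right.right.right.right.right.right.right.right.right.left n395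
theorem n394 : Inf par b394_0 :=
  Inf.empty (by decide +kernel)
theorem n394_0 : Inf par a394_0 :=
  Inf.steps hw _ b394_0 s394_0 c394_0 pt13.right.right.right.right.right.right.right.right.right.right.right.right.right.right.right.left n394
theorem n393 : Inf par b393_0 :=
  Inf.spG 5 ⟨785002287,0,0⟩ (Inf.cast n394_0 (by decide +kernel)) (Inf.cast n395_0 (by decide +kernel))
theorem n393_0 : Inf par a393_0 :=
  Inf.steps hw _ b393_0 s393_0 c393_0 pt13.right.right.right.right.right.right.right.right.right.right.right.right.right.right.left n393
theorem n392 : Inf par b392_0 :=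
  Inf.empty (by decide +kernel)
theorem n392_0 : Inf par a392_0 :=
  Inf.steps hw _ b392_0 s392_0 c392_0 pt13.right.right.right.right.right.right.right.right.right.right.right.right.right.left n392
theorem n391 : Inf par b391_0 :=
  Inf.empty (by decide +kernel)
theorem n391_0 : Inf par a391_0 :=
  Inf.steps hw _ b391_0 s391_0 c391_0 pt13.right.right.right.right.right.right.right.right.right.right.right.right.left n391
theorem n390 : Inf par b390_0 :=
  Inf.spG 5 ⟨783223249,0,0⟩ (Inf.cast n391_0 (by decide +kernel)) (Inf.cast n392_0 (by decide +kernel))
theorem n390_0 : Inf par a390_0 :=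
  Inf.steps hw _ b390_0 s390_0 c390_0 pt13.right.right.right.right.right.right.right.right.right.right.right.left n390
theorem n389 : Inf par b389_0 :=
  Inf.spG 3 ⟨570943578,0,0⟩ (Inf.cast n390_0 (by decide +kernel)) (Inf.cast n393_0 (by decide +kernel))
theorem n389_0 : Inf par a389_0 :=
  Inf.steps hw _ b389_0 s389_0 c389_0 pt13.right.right.right.right.right.right.right.right.right.right.left n389
theorem n388 : Inf par b388_0 :=
  Inf.spG 7 ⟨892895955,0,0⟩ (Inf.cast n389_0 (by decide +kernel)) (Inf.cast n396_0 (by decide +kernel))
theorem n388_0 : Inf par a388_0 :=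
  Inf.steps hw _ b388_0 s388_0 c388_0 pt13.right.right.right.right.right.right.right.right.right.left n388
theorem n387 : Inf par b387_0 :=
  Inf.empty (by decide +kernel)
theorem n387_0 : Inf par a387_0 :=
  Inf.steps hw _ b387_0 s387_0 c387_0 pt13.right.right.right.right.right.right.right.right.left n387
theorem n386 : Inf par b386_0 :=
  Inf.empty (by decide +kernel)
theorem n386_0 : Inf par a386_0 :=
  Inf.steps hw _ b386_0 s386_0 c386_0 pt13.right.right.right.right.right.right.right.left n386
theorem n385 : Inf par b385_0 :=
  Inf.empty (by decide +kernel)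
theorem n385_0 : Inf par a385_0 :=
  Inf.steps hw _ b385_0 s385_0 c385_0 pt13.right.right.right.right.right.right.left n385
theorem n384 : Inf par b384_0 :=
  Inf.spG 5 ⟨776313177,0,0⟩ (Inf.cast n385_0 (by decide +kernel)) (Inf.cast n386_0 (by decide +kernel))
theorem n384_0 : Inf par a384_0 :=
  Inf.steps hw _ b384_0 s384_0 c384_0 pt13.right.right.right.right.right.left n384
theorem n383 : Inf par b383_0 :=
  Inf.spG 3 ⟨568127408,0,0⟩ (Inf.cast n384_0 (by decide +kernel)) (Inf.cast n387_0 (by decide +kernel))
theorem n383_0 : Inf par a383_0 :=
  Inf.steps hw _ b383_0 s383_0 c383_0 pt13.right.right.right.right.left n383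
theorem n382 : Inf par b382_0 :=
  Inf.empty (by decide +kernel)
theorem n382_0 : Inf par a382_0 :=
  Inf.steps hw _ b382_0 s382_0 c382_0 pt13.right.right.right.left n382
theorem n381 : Inf par b381_0 :=
  Inf.spG 7 ⟨875030505,0,0⟩ (Inf.cast n382_0 (by decide +kernel)) (Inf.cast n383_0 (by decide +kernel))
theorem n381_0 : Inf par a381_0 :=
  Inf.steps hw _ b381_0 s381_0 c381_0 pt13.right.right.left n381
theorem n380 : Inf par b380_0 :=
  Inf.spG 7 ⟨883963230,0,0⟩ (Inf.cast n381_0 (by decide +kernel)) (Inf.cast n388_0 (by decide +kernel))
theorem n380_0 : Inf par a380_0 :=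
  Inf.steps hw _ b380_0 s380_0 c380_0 pt13.right.left n380
theorem n379 : Inf par b379_0 :=
  Inf.empty (by decide +kernel)
theorem n379_0 : Inf par a379_0 :=
  Inf.steps hw _ b379_0 s379_0 c379_0 pt13.left n379
theorem n378 : Inf par b378_0 :=
  Inf.empty (by decide +kernel)
theorem n378_0 : Inf par a378_0 :=
  Inf.steps hw _ b378_0 s378_0 c378_0 pt12.right.right.right.right.right.right.right.right.right.right.right.right.right.right.right.right.right.right.right.right.right.right.right.right.right.right.right.right n378
theorem n377 : Inf par b377_0 :=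
  Inf.empty (by decide +kernel)
theorem n377_0 : Inf par a377_0 :=
  Inf.steps hw _ b377_0 s377_0 c377_0 pt12.right.right.right.right.right.right.right.right.right.right.right.right.right.right.right.right.right.right.right.right.right.right.right.right.right.right.right.left n377
theorem n376 : Inf par b376_0 :=
  Inf.empty (by decide +kernel)
theorem n376_0 : Inf par a376_0 :=
  Inf.steps hw _ b376_0 s376_0 c376_0 pt12.right.right.right.right.right.right.right.right.right.right.right.right.right.right.right.right.right.right.right.right.right.right.right.right.right.right.left n376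
theorem n375 : Inf par b375_0 :=
  Inf.spG 3 ⟨554967318,0,0⟩ (Inf.cast n376_0 (by decide +kernel)) (Inf.cast n377_0 (by decide +kernel))
theorem n375_0 : Inf par a375_0 :=
  Inf.steps hw _ b375_0 s375_0 c375_0 pt12.right.right.right.right.right.right.right.right.right.right.right.right.right.right.right.right.right.right.right.right.right.right.right.right.right.left n375
theorem n374 : Inf par b374_0 :=
  Inf.spG 6 ⟨837490954,0,0⟩ (Inf.cast n375_0 (by decide +kernel)) (Inf.cast n378_0 (by decide +kernel))
theorem n374_0 : Inf par a374_0 :=
  Inf.steps hw _ b374_0 s374_0 c374_0 pt12.right.right.right.right.right.right.right.right.right.right.right.right.right.right.right.right.right.right.right.right.right.right.right.right.left n374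
theorem n373 : Inf par b373_0 :=
  Inf.empty (by decide +kernel)
theorem n373_0 : Inf par a373_0 :=
  Inf.steps hw _ b373_0 s373_0 c373_0 pt12.right.right.right.right.right.right.right.right.right.right.right.right.right.right.right.right.right.right.right.right.right.right.right.left n373
theorem n372 : Inf par b372_0 :=
  Inf.empty (by decide +kernel)
theorem n372_0 : Inf par a372_0 :=
  Inf.steps hw _ b372_0 s372_0 c372_0 pt12.right.right.right.right.right.right.right.right.right.right.right.right.right.right.right.right.right.right.right.right.right.right.left n372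
theorem n371 : Inf par b371_0 :=
  Inf.spG 6 ⟨827390739,0,0⟩ (Inf.cast n372_0 (by decide +kernel)) (Inf.cast n373_0 (by decide +kernel))
theorem n371_0 : Inf par a371_0 :=
  Inf.steps hw _ b371_0 s371_0 c371_0 pt12.right.right.right.right.right.right.right.right.right.right.right.right.right.right.right.right.right.right.right.right.right.left n371
theorem n370 : Inf par b370_0 :=
  Inf.empty (by decide +kernel)
theorem n370_0 : Inf par a370_0 :=
  Inf.steps hw _ b370_0 s370_0 c370_0 pt12.right.right.right.right.right.right.right.right.right.right.right.right.right.right.right.right.right.right.right.right.left n370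
theorem n369 : Inf par b369_0 :=
  Inf.spG 3 ⟨549020634,0,0⟩ (Inf.cast n370_0 (by decide +kernel)) (Inf.cast n371_0 (by decide +kernel))
theorem n369_0 : Inf par a369_0 :=
  Inf.steps hw _ b369_0 s369_0 c369_0 pt12.right.right.right.right.right.right.right.right.right.right.right.right.right.right.right.right.right.right.right.left n369
theorem n368 : Inf par b368_0 :=
  Inf.empty (by decide +kernel)
theorem n368_0 : Inf par a368_0 :=
  Inf.steps hw _ b368_0 s368_0 c368_0 pt12.right.right.right.right.right.right.right.right.right.right.right.right.right.right.right.right.right.right.left n368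
theorem n367 : Inf par b367_0 :=
  Inf.empty (by decide +kernel)
theorem n367_0 : Inf par a367_0 :=
  Inf.steps hw _ b367_0 s367_0 c367_0 pt12.right.right.right.right.right.right.right.right.right.right.right.right.right.right.right.right.right.left n367
theorem n366 : Inf par b366_0 :=
  Inf.spG 3 ⟨552952782,0,0⟩ (Inf.cast n367_0 (by decide +kernel)) (Inf.cast n368_0 (by decide +kernel))
theorem n366_0 : Inf par a366_0 :=
  Inf.steps hw _ b366_0 s366_0 c366_0 pt12.right.right.right.right.right.right.right.right.right.right.right.right.right.right.right.right.left n366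
theorem n365 : Inf par b365_0 :=
  Inf.empty (by decide +kernel)
theorem n365_0 : Inf par a365_0 :=
  Inf.steps hw _ b365_0 s365_0 c365_0 pt12.right.right.right.right.right.right.right.right.right.right.right.right.right.right.right.left n365
theorem n364 : Inf par b364_0 :=
  Inf.empty (by decide +kernel)
theorem n364_0 : Inf par a364_0 :=
  Inf.steps hw _ b364_0 s364_0 c364_0 pt12.right.right.right.right.right.right.right.right.right.right.right.right.right.right.left n364
theorem n363 : Inf par b363_0 :=
  Inf.spG 3 ⟨551076628,0,0⟩ (Inf.cast n364_0 (by decide +kernel)) (Inf.cast n365_0 (by decide +kernel))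
theorem n363_0 : Inf par a363_0 :=
  Inf.steps hw _ b363_0 s363_0 c363_0 pt12.right.right.right.right.right.right.right.right.right.right.right.right.right.left n363
theorem n362 : Inf par b362_0 :=
  Inf.spG 7 ⟨863308481,0,0⟩ (Inf.cast n363_0 (by decide +kernel)) (Inf.cast n366_0 (by decide +kernel))
theorem n362_0 : Inf par a362_0 :=
  Inf.steps hw _ b362_0 s362_0 c362_0 pt12.right.right.right.right.right.right.right.right.right.right.right.right.left n362
theorem n361 : Inf par b361_0 :=
  Inf.empty (by decide +kernel)
theorem n361_0 : Inf par a361_0 :=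
  Inf.steps hw _ b361_0 s361_0 c361_0 pt12.right.right.right.right.right.right.right.right.right.right.right.left n361
theorem n360 : Inf par b360_0 :=
  Inf.spG 3 ⟨544780930,0,0⟩ (Inf.cast n361_0 (by decide +kernel)) (Inf.cast n362_0 (by decide +kernel))
theorem n360_0 : Inf par a360_0 :=
  Inf.steps hw _ b360_0 s360_0 c360_0 pt12.right.right.right.right.right.right.right.right.right.right.left n360
theorem n359 : Inf par b359_0 :=
  Inf.spG 2 ⟨440572568,0,0⟩ (Inf.cast n360_0 (by decide +kernel)) (Inf.cast n369_0 (by decide +kernel))
theorem n359_0 : Inf par a359_0 :=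
  Inf.steps hw _ b359_0 s359_0 c359_0 pt12.right.right.right.right.right.right.right.right.right.left n359
theorem n358 : Inf par b358_0 :=
  Inf.spG 7 ⟨871090136,0,0⟩ (Inf.cast n359_0 (by decide +kernel)) (Inf.cast n374_0 (by decide +kernel))
theorem n358_0 : Inf par a358_0 :=
  Inf.steps hw _ b358_0 s358_0 c358_0 pt12.right.right.right.right.right.right.right.right.left n358
theorem n357 : Inf par b357_0 :=
  Inf.spG 5 ⟨777531602,0,0⟩ (Inf.cast n358_0 (by decide +kernel)) (Inf.cast n379_0 (by decide +kernel))
theorem n357_0 : Inf par a357_0 :=
  Inf.steps hw _ b357_0 s357_0 c357_0 pt12.right.right.right.right.right.right.right.left n357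
theorem n356 : Inf par b356_0 :=
  Inf.spG 3 ⟨561124635,0,0⟩ (Inf.cast n357_0 (by decide +kernel)) (Inf.cast n380_0 (by decide +kernel))
theorem n356_0 : Inf par a356_0 :=
  Inf.steps hw _ b356_0 s356_0 c356_0 pt12.right.right.right.right.right.right.left n356
theorem n355 : Inf par b355_0 :=
  Inf.empty (by decide +kernel)
theorem n355_0 : Inf par a355_0 :=
  Inf.steps hw _ b355_0 s355_0 c355_0 pt12.right.right.right.right.right.left n355
theorem n354 : Inf par b354_0 :=
  Inf.empty (by decide +kernel)
theorem n354_0 : Inf par a354_0 :=
  Inf.steps hw _ b354_0 s354_0 c354_0 pt12.right.right.right.right.left n354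
theorem n353 : Inf par b353_0 :=
  Inf.spG 5 ⟨752492915,0,0⟩ (Inf.cast n354_0 (by decide +kernel)) (Inf.cast n355_0 (by decide +kernel))
theorem n353_0 : Inf par a353_0 :=
  Inf.steps hw _ b353_0 s353_0 c353_0 pt12.right.right.right.left n353
theorem n352 : Inf par b352_0 :=
  Inf.empty (by decide +kernel)
theorem n352_0 : Inf par a352_0 :=
  Inf.steps hw _ b352_0 s352_0 c352_0 pt12.right.right.left n352
theorem n351 : Inf par b351_0 :=
  Inf.empty (by decide +kernel)
theorem n351_0 : Inf par a351_0 :=
  Inf.steps hw _ b351_0 s351_0 c351_0 pt12.right.left n351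
theorem n350 : Inf par b350_0 :=
  Inf.empty (by decide +kernel)
theorem n350_0 : Inf par a350_0 :=
  Inf.steps hw _ b350_0 s350_0 c350_0 pt12.left n350
theorem n349 : Inf par b349_0 :=
  Inf.spG 6 ⟨807419708,0,0⟩ (Inf.cast n350_0 (by decide +kernel)) (Inf.cast n351_0 (by decide +kernel))
theorem n349_0 : Inf par a349_0 :=
  Inf.steps hw _ b349_0 s349_0 c349_0 pt11.right.right.right.right.right.right.right.right.right.right.right.right.right.right.right.right.right.right.right.right.right.right.right.right.right.right.right.right.right.right n349
theorem n348 : Inf par b348_0 :=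
  Inf.spG 5 ⟨748955281,0,0⟩ (Inf.cast n349_0 (by decide +kernel)) (Inf.cast n352_0 (by decide +kernel))
theorem n348_0 : Inf par a348_0 :=
  Inf.steps hw _ b348_0 s348_0 c348_0 pt11.right.right.right.right.right.right.right.right.right.right.right.right.right.right.right.right.right.right.right.right.right.right.right.right.right.right.right.right.right.left n348
theorem n347 : Inf par b347_0 :=
  Inf.spG 3 ⟨544427014,0,0⟩ (Inf.cast n348_0 (by decide +kernel)) (Inf.cast n353_0 (by decide +kernel))
theorem n347_0 : Inf par a347_0 :=
  Inf.steps hw _ b347_0 s347_0 c347_0 pt11.right.right.right.right.right.right.right.right.right.right.right.right.right.right.right.right.right.right.right.right.right.right.right.right.right.right.right.right.left n347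
theorem n346 : Inf par b346_1 :=
  Inf.empty (by decide +kernel)
theorem n346_1 : Inf par a346_1 :=
  Inf.steps hw _ b346_1 s346_1 c346_1 pt11.right.right.right.right.right.right.right.right.right.right.right.right.right.right.right.right.right.right.right.right.right.right.right.right.right.right.right.left n346
theorem n346_0 : Inf par a346_0 :=
  Inf.steps hw _ b346_0 s346_0 c346_0 pt11.right.right.right.right.right.right.right.right.right.right.right.right.right.right.right.right.right.right.right.right.right.right.right.right.right.right.left (Inf.cast n346_1 (by decide +kernel))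
theorem n345 : Inf par b345_0 :=
  Inf.spG 3 ⟨535877869,0,0⟩ (Inf.cast n346_0 (by decide +kernel)) (Inf.cast n347_0 (by decide +kernel))
theorem n345_0 : Inf par a345_0 :=
  Inf.steps hw _ b345_0 s345_0 c345_0 pt11.right.right.right.right.right.right.right.right.right.right.right.right.right.right.right.right.right.right.right.right.right.right.right.right.right.left n345
theorem n344 : Inf par b344_0 :=
  Inf.empty (by decide +kernel)
theorem n344_0 : Inf par a344_0 :=
  Inf.steps hw _ b344_0 s344_0 c344_0 pt11.right.right.right.right.right.right.right.right.right.right.right.right.right.right.right.right.right.right.right.right.right.right.right.right.left n344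
theorem n343 : Inf par b343_0 :=
  Inf.empty (by decide +kernel)
theorem n343_0 : Inf par a343_0 :=
  Inf.steps hw _ b343_0 s343_0 c343_0 pt11.right.right.right.right.right.right.right.right.right.right.right.right.right.right.right.right.right.right.right.right.right.right.right.left n343
theorem n342 : Inf par b342_0 :=
  Inf.spG 5 ⟨740962446,0,0⟩ (Inf.cast n343_0 (by decide +kernel)) (Inf.cast n344_0 (by decide +kernel))
theorem n342_0 : Inf par a342_0 :=
  Inf.steps hw _ b342_0 s342_0 c342_0 pt11.right.right.right.right.right.right.right.right.right.right.right.right.right.right.right.right.right.right.right.right.right.right.left n342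
theorem n341 : Inf par b341_0 :=
  Inf.empty (by decide +kernel)
theorem n341_0 : Inf par a341_0 :=
  Inf.steps hw _ b341_0 s341_0 c341_0 pt11.right.right.right.right.right.right.right.right.right.right.right.right.right.right.right.right.right.right.right.right.right.left n341
theorem n340 : Inf par b340_0 :=
  Inf.spG 3 ⟨535502663,0,0⟩ (Inf.cast n341_0 (by decide +kernel)) (Inf.cast n342_0 (by decide +kernel))
theorem n340_0 : Inf par a340_0 :=
  Inf.steps hw _ b340_0 s340_0 c340_0 pt11.right.right.right.right.right.right.right.right.right.right.right.right.right.right.right.right.right.right.right.right.left n340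
theorem n339 : Inf par b339_0 :=
  Inf.spG 7 ⟨842846275,0,0⟩ (Inf.cast n340_0 (by decide +kernel)) (Inf.cast n345_0 (by decide +kernel))
theorem n339_0 : Inf par a339_0 :=
  Inf.steps hw _ b339_0 s339_0 c339_0 pt11.right.right.right.right.right.right.right.right.right.right.right.right.right.right.right.right.right.right.right.left n339
theorem n338 : Inf par b338_0 :=
  Inf.spG 7 ⟨855526827,0,0⟩ (Inf.cast n339_0 (by decide +kernel)) (Inf.cast n356_0 (by decide +kernel))
theorem n338_0 : Inf par a338_0 :=
  Inf.steps hw _ b338_0 s338_0 c338_0 pt11.right.right.right.right.right.right.right.right.right.right.right.right.right.right.right.right.right.right.left n338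
theorem n337 : Inf par b337_0 :=
  Inf.spG 7 ⟨901828680,0,0⟩ (Inf.cast n338_0 (by decide +kernel)) (Inf.cast n401_0 (by decide +kernel))
theorem n337_0 : Inf par a337_0 :=
  Inf.steps hw _ b337_0 s337_0 c337_0 pt11.right.right.right.right.right.right.right.right.right.right.right.right.right.right.right.right.right.left n337
theorem n336 : Inf par b336_1 :=
  Inf.empty (by decide +kernel)
theorem n336_1 : Inf par a336_1 :=
  Inf.steps hw _ b336_1 s336_1 c336_1 pt11.right.right.right.right.right.right.right.right.right.right.right.right.right.right.right.right.left n336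
theorem n336_0 : Inf par a336_0 :=
  Inf.steps hw _ b336_0 s336_0 c336_0 pt11.right.right.right.right.right.right.right.right.right.right.right.right.right.right.right.left (Inf.cast n336_1 (by decide +kernel))
theorem n335 : Inf par b335_0 :=
  Inf.empty (by decide +kernel)
theorem n335_0 : Inf par a335_0 :=
  Inf.steps hw _ b335_0 s335_0 c335_0 pt11.right.right.right.right.right.right.right.right.right.right.right.right.right.right.left n335
theorem n334 : Inf par b334_0 :=
  Inf.empty (by decide +kernel)
theorem n334_0 : Inf par a334_0 :=
  Inf.steps hw _ b334_0 s334_0 c334_0 pt11.right.right.right.right.right.right.right.right.right.right.right.right.right.left n334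
theorem n333 : Inf par b333_0 :=
  Inf.spG 3 ⟨532124276,0,0⟩ (Inf.cast n334_0 (by decide +kernel)) (Inf.cast n335_0 (by decide +kernel))
theorem n333_0 : Inf par a333_0 :=
  Inf.steps hw _ b333_0 s333_0 c333_0 pt11.right.right.right.right.right.right.right.right.right.right.right.right.left n333
theorem n332 : Inf par b332_0 :=
  Inf.empty (by decide +kernel)
theorem n332_0 : Inf par a332_0 :=
  Inf.steps hw _ b332_0 s332_0 c332_0 pt11.right.right.right.right.right.right.right.right.right.right.right.left n332
theorem n331 : Inf par b331_0 :=
  Inf.spG 3 ⟨525993686,0,0⟩ (Inf.cast n332_0 (by decide +kernel)) (Inf.cast n333_0 (by decide +kernel))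
theorem n331_0 : Inf par a331_0 :=
  Inf.steps hw _ b331_0 s331_0 c331_0 pt11.right.right.right.right.right.right.right.right.right.right.left n331
theorem n330 : Inf par b330_0 :=
  Inf.spG 6 ⟨798692400,0,0⟩ (Inf.cast n331_0 (by decide +kernel)) (Inf.cast n336_0 (by decide +kernel))
theorem n330_0 : Inf par a330_0 :=
  Inf.steps hw _ b330_0 s330_0 c330_0 pt11.right.right.right.right.right.right.right.right.right.left n330
theorem n329 : Inf par b329_0 :=
  Inf.empty (by decide +kernel)
theorem n329_0 : Inf par a329_0 :=
  Inf.steps hw _ b329_0 s329_0 c329_0 pt11.right.right.right.right.right.right.right.right.left n329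
theorem n328 : Inf par b328_0 :=
  Inf.empty (by decide +kernel)
theorem n328_0 : Inf par a328_0 :=
  Inf.steps hw _ b328_0 s328_0 c328_0 pt11.right.right.right.right.right.right.right.left n328
theorem n327 : Inf par b327_0 :=
  Inf.spG 6 ⟨787928928,0,0⟩ (Inf.cast n328_0 (by decide +kernel)) (Inf.cast n329_0 (by decide +kernel))
theorem n327_0 : Inf par a327_0 :=
  Inf.steps hw _ b327_0 s327_0 c327_0 pt11.right.right.right.right.right.right.left n327
theorem n326 : Inf par b326_0 :=
  Inf.empty (by decide +kernel)
theorem n326_0 : Inf par a326_0 :=
  Inf.steps hw _ b326_0 s326_0 c326_0 pt11.right.right.right.right.right.left n326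
theorem n325 : Inf par b325_0 :=
  Inf.empty (by decide +kernel)
theorem n325_0 : Inf par a325_0 :=
  Inf.steps hw _ b325_0 s325_0 c325_0 pt11.right.right.right.right.left n325
theorem n324 : Inf par b324_0 :=
  Inf.spG 5 ⟨726779558,0,0⟩ (Inf.cast n325_0 (by decide +kernel)) (Inf.cast n326_0 (by decide +kernel))
theorem n324_0 : Inf par a324_0 :=
  Inf.steps hw _ b324_0 s324_0 c324_0 pt11.right.right.right.left n324
theorem n323 : Inf par b323_0 :=
  Inf.spG 2 ⟨420736077,0,0⟩ (Inf.cast n324_0 (by decide +kernel)) (Inf.cast n327_0 (by decide +kernel))
theorem n323_0 : Inf par a323_0 :=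
  Inf.steps hw _ b323_0 s323_0 c323_0 pt11.right.right.left n323
theorem n322 : Inf par b322_0 :=
  Inf.empty (by decide +kernel)
theorem n322_0 : Inf par a322_0 :=
  Inf.steps hw _ b322_0 s322_0 c322_0 pt11.right.left n322
theorem n321 : Inf par b321_1 :=
  Inf.empty (by decide +kernel)
theorem n321_1 : Inf par a321_1 :=
  Inf.steps hw _ b321_1 s321_1 c321_1 pt11.left n321
theorem n321_0 : Inf par a321_0 :=
  Inf.steps hw _ b321_0 s321_0 c321_0 pt10.right.right.right.right.right.right.right.right.right.right.right.right.right.right.right.right.right.right.right.right.right.right.right.right.right.right.right.right.right.right.right.right (Inf.cast n321_1 (by decide +kernel))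
theorem n320 : Inf par b320_0 :=
  Inf.spG 6 ⟨787928928,0,0⟩ (Inf.cast n321_0 (by decide +kernel)) (Inf.cast n322_0 (by decide +kernel))
theorem n320_0 : Inf par a320_0 :=
  Inf.steps hw _ b320_0 s320_0 c320_0 pt10.right.right.right.right.right.right.right.right.right.right.right.right.right.right.right.right.right.right.right.right.right.right.right.right.right.right.right.right.right.right.right.left n320
theorem n319 : Inf par b319_0 :=
  Inf.spG 3 ⟨521678391,0,0⟩ (Inf.cast n320_0 (by decide +kernel)) (Inf.cast n323_0 (by decide +kernel))
theorem n319_0 : Inf par a319_0 :=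
  Inf.steps hw _ b319_0 s319_0 c319_0 pt10.right.right.right.right.right.right.right.right.right.right.right.right.right.right.right.right.right.right.right.right.right.right.right.right.right.right.right.right.right.right.left n319
theorem n318 : Inf par b318_1 :=
  Inf.empty (by decide +kernel)
theorem n318_1 : Inf par a318_1 :=
  Inf.steps hw _ b318_1 s318_1 c318_1 pt10.right.right.right.right.right.right.right.right.right.right.right.right.right.right.right.right.right.right.right.right.right.right.right.right.right.right.right.right.right.left n318
theorem n318_0 : Inf par a318_0 :=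
  Inf.steps hw _ b318_0 s318_0 c318_0 pt10.right.right.right.right.right.right.right.right.right.right.right.right.right.right.right.right.right.right.right.right.right.right.right.right.right.right.right.right.left (Inf.cast n318_1 (by decide +kernel))
theorem n317 : Inf par b317_0 :=
  Inf.empty (by decide +kernel)
theorem n317_0 : Inf par a317_0 :=
  Inf.steps hw _ b317_0 s317_0 c317_0 pt10.right.right.right.right.right.right.right.right.right.right.right.right.right.right.right.right.right.right.right.right.right.right.right.right.right.right.right.left n317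
theorem n316 : Inf par b316_0 :=
  Inf.empty (by decide +kernel)
theorem n316_0 : Inf par a316_0 :=
  Inf.steps hw _ b316_0 s316_0 c316_0 pt10.right.right.right.right.right.right.right.right.right.right.right.right.right.right.right.right.right.right.right.right.right.right.right.right.right.right.left n316
theorem n315 : Inf par b315_0 :=
  Inf.spG 5 ⟨718874274,0,0⟩ (Inf.cast n316_0 (by decide +kernel)) (Inf.cast n317_0 (by decide +kernel))
theorem n315_0 : Inf par a315_0 :=
  Inf.steps hw _ b315_0 s315_0 c315_0 pt10.right.right.right.right.right.right.right.right.right.right.right.right.right.right.right.right.right.right.right.right.right.right.right.right.right.left n315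
theorem n314 : Inf par b314_0 :=
  Inf.empty (by decide +kernel)
theorem n314_0 : Inf par a314_0 :=
  Inf.steps hw _ b314_0 s314_0 c314_0 pt10.right.right.right.right.right.right.right.right.right.right.right.right.right.right.right.right.right.right.right.right.right.right.right.right.left n314
theorem n313 : Inf par b313_0 :=
  Inf.spG 6 ⟨775237777,0,0⟩ (Inf.cast n314_0 (by decide +kernel)) (Inf.cast n315_0 (by decide +kernel))
theorem n313_0 : Inf par a313_0 :=
  Inf.steps hw _ b313_0 s313_0 c313_0 pt10.right.right.right.right.right.right.right.right.right.right.right.right.right.right.right.right.right.right.right.right.right.right.right.left n313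
theorem n312 : Inf par b312_0 :=
  Inf.spG 3 ⟨519442516,0,0⟩ (Inf.cast n313_0 (by decide +kernel)) (Inf.cast n318_0 (by decide +kernel))
theorem n312_0 : Inf par a312_0 :=
  Inf.steps hw _ b312_0 s312_0 c312_0 pt10.right.right.right.right.right.right.right.right.right.right.right.right.right.right.right.right.right.right.right.right.right.right.left n312
theorem n311 : Inf par b311_0 :=
  Inf.empty (by decide +kernel)
theorem n311_0 : Inf par a311_0 :=
  Inf.steps hw _ b311_0 s311_0 c311_0 pt10.right.right.right.right.right.right.right.right.right.right.right.right.right.right.right.right.right.right.right.right.right.left n311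
theorem n310 : Inf par b310_0 :=
  Inf.empty (by decide +kernel)
theorem n310_0 : Inf par a310_0 :=
  Inf.steps hw _ b310_0 s310_0 c310_0 pt10.right.right.right.right.right.right.right.right.right.right.right.right.right.right.right.right.right.right.right.right.left n310
theorem n309 : Inf par b309_0 :=
  Inf.spG 6 ⟨773290511,0,0⟩ (Inf.cast n310_0 (by decide +kernel)) (Inf.cast n311_0 (by decide +kernel))
theorem n309_0 : Inf par a309_0 :=
  Inf.steps hw _ b309_0 s309_0 c309_0 pt10.right.right.right.right.right.right.right.right.right.right.right.right.right.right.right.right.right.right.right.left n309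
theorem n308 : Inf par b308_0 :=
  Inf.spG 3 ⟨511999627,0,0⟩ (Inf.cast n309_0 (by decide +kernel)) (Inf.cast n312_0 (by decide +kernel))
theorem n308_0 : Inf par a308_0 :=
  Inf.steps hw _ b308_0 s308_0 c308_0 pt10.right.right.right.right.right.right.right.right.right.right.right.right.right.right.right.right.right.right.left n308
theorem n307 : Inf par b307_0 :=
  Inf.spG 7 ⟨819312223,0,0⟩ (Inf.cast n308_0 (by decide +kernel)) (Inf.cast n319_0 (by decide +kernel))
theorem n307_0 : Inf par a307_0 :=
  Inf.steps hw _ b307_0 s307_0 c307_0 pt10.right.right.right.right.right.right.right.right.right.right.right.right.right.right.right.right.right.left n307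
theorem n306 : Inf par b306_0 :=
  Inf.spG 5 ⟨731768786,0,0⟩ (Inf.cast n307_0 (by decide +kernel)) (Inf.cast n330_0 (by decide +kernel))
theorem n306_0 : Inf par a306_0 :=
  Inf.steps hw _ b306_0 s306_0 c306_0 pt10.right.right.right.right.right.right.right.right.right.right.right.right.right.right.right.right.left n306
theorem n305 : Inf par b305_0 :=
  Inf.empty (by decide +kernel)
theorem n305_0 : Inf par a305_0 :=
  Inf.steps hw _ b305_0 s305_0 c305_0 pt10.right.right.right.right.right.right.right.right.right.right.right.right.right.right.right.left n305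
theorem n304 : Inf par b304_0 :=
  Inf.empty (by decide +kernel)
theorem n304_0 : Inf par a304_0 :=
  Inf.steps hw _ b304_0 s304_0 c304_0 pt10.right.right.right.right.right.right.right.right.right.right.right.right.right.right.left n304
theorem n303 : Inf par b303_0 :=
  Inf.spG 6 ⟨768161576,0,0⟩ (Inf.cast n304_0 (by decide +kernel)) (Inf.cast n305_0 (by decide +kernel))
theorem n303_0 : Inf par a303_0 :=
  Inf.steps hw _ b303_0 s303_0 c303_0 pt10.right.right.right.right.right.right.right.right.right.right.right.right.right.left n303
theorem n302 : Inf par b302_0 :=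
  Inf.empty (by decide +kernel)
theorem n302_0 : Inf par a302_0 :=
  Inf.steps hw _ b302_0 s302_0 c302_0 pt10.right.right.right.right.right.right.right.right.right.right.right.right.left n302
theorem n301 : Inf par b301_0 :=
  Inf.spG 3 ⟨507674737,0,0⟩ (Inf.cast n302_0 (by decide +kernel)) (Inf.cast n303_0 (by decide +kernel))
theorem n301_0 : Inf par a301_0 :=
  Inf.steps hw _ b301_0 s301_0 c301_0 pt10.right.right.right.right.right.right.right.right.right.right.right.left n301
theorem n300 : Inf par b300_1 :=
  Inf.empty (by decide +kernel)
theorem n300_1 : Inf par a300_1 :=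
  Inf.steps hw _ b300_1 s300_1 c300_1 pt10.right.right.right.right.right.right.right.right.right.right.left n300
theorem n300_0 : Inf par a300_0 :=
  Inf.steps hw _ b300_0 s300_0 c300_0 pt10.right.right.right.right.right.right.right.right.right.left (Inf.cast n300_1 (by decide +kernel))
theorem n299 : Inf par b299_1 :=
  Inf.empty (by decide +kernel)
theorem n299_1 : Inf par a299_1 :=
  Inf.steps hw _ b299_1 s299_1 c299_1 pt10.right.right.right.right.right.right.right.right.left n299
theorem n299_0 : Inf par a299_0 :=
  Inf.steps hw _ b299_0 s299_0 c299_0 pt10.right.right.right.right.right.right.right.left (Inf.cast n299_1 (by decide +kernel))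
theorem n298 : Inf par b298_0 :=
  Inf.spG 5 ⟨703682690,0,0⟩ (Inf.cast n299_0 (by decide +kernel)) (Inf.cast n300_0 (by decide +kernel))
theorem n298_0 : Inf par a298_0 :=
  Inf.steps hw _ b298_0 s298_0 c298_0 pt10.right.right.right.right.right.right.left n298
theorem n297 : Inf par b297_0 :=
  Inf.empty (by decide +kernel)
theorem n297_0 : Inf par a297_0 :=
  Inf.steps hw _ b297_0 s297_0 c297_0 pt10.right.right.right.right.right.left n297
theorem n296 : Inf par b296_0 :=
  Inf.empty (by decide +kernel)
theorem n296_0 : Inf par a296_0 :=
  Inf.steps hw _ b296_0 s296_0 c296_0 pt10.right.right.right.right.left n296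
theorem n295 : Inf par b295_0 :=
  Inf.spG 6 ⟨759435787,0,0⟩ (Inf.cast n296_0 (by decide +kernel)) (Inf.cast n297_0 (by decide +kernel))
theorem n295_0 : Inf par a295_0 :=
  Inf.steps hw _ b295_0 s295_0 c295_0 pt10.right.right.right.left n295
theorem n294 : Inf par b294_0 :=
  Inf.spG 3 ⟨502725229,0,0⟩ (Inf.cast n295_0 (by decide +kernel)) (Inf.cast n298_0 (by decide +kernel))
theorem n294_0 : Inf par a294_0 :=
  Inf.steps hw _ b294_0 s294_0 c294_0 pt10.right.right.left n294
theorem n293 : Inf par b293_0 :=
  Inf.spG 7 ⟨802180768,0,0⟩ (Inf.cast n294_0 (by decide +kernel)) (Inf.cast n301_0 (by decide +kernel))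
theorem n293_0 : Inf par a293_0 :=
  Inf.steps hw _ b293_0 s293_0 c293_0 pt10.right.left n293
theorem n292 : Inf par b292_0 :=
  Inf.empty (by decide +kernel)
theorem n292_0 : Inf par a292_0 :=
  Inf.steps hw _ b292_0 s292_0 c292_0 pt10.left n292
theorem n291 : Inf par b291_0 :=
  Inf.empty (by decide +kernel)
theorem n291_0 : Inf par a291_0 :=
  Inf.steps hw _ b291_0 s291_0 c291_0 pt9.right.right.right.right.right.right.right.right.right.right.right.right.right.right.right.right.right.right.right.right.right.right.right.right.right.right.right.right.right.right.right n291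
theorem n290 : Inf par b290_0 :=
  Inf.spG 3 ⟨499063562,0,0⟩ (Inf.cast n291_0 (by decide +kernel)) (Inf.cast n292_0 (by decide +kernel))
theorem n290_0 : Inf par a290_0 :=
  Inf.steps hw _ b290_0 s290_0 c290_0 pt9.right.right.right.right.right.right.right.right.right.right.right.right.right.right.right.right.right.right.right.right.right.right.right.right.right.right.right.right.right.right.left n290
theorem n289 : Inf par b289_0 :=
  Inf.empty (by decide +kernel)
theorem n289_0 : Inf par a289_0 :=
  Inf.steps hw _ b289_0 s289_0 c289_0 pt9.right.right.right.right.right.right.right.right.right.right.right.right.right.right.right.right.right.right.right.right.right.right.right.right.right.right.right.right.right.left n289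
theorem n288 : Inf par b288_0 :=
  Inf.spG 5 ⟨692921160,0,0⟩ (Inf.cast n289_0 (by decide +kernel)) (Inf.cast n290_0 (by decide +kernel))
theorem n288_0 : Inf par a288_0 :=
  Inf.steps hw _ b288_0 s288_0 c288_0 pt9.right.right.right.right.right.right.right.right.right.right.right.right.right.right.right.right.right.right.right.right.right.right.right.right.right.right.right.right.left n288
theorem n287 : Inf par b287_0 :=
  Inf.empty (by decide +kernel)
theorem n287_0 : Inf par a287_0 :=
  Inf.steps hw _ b287_0 s287_0 c287_0 pt9.right.right.right.right.right.right.right.right.right.right.right.right.right.right.right.right.right.right.right.right.right.right.right.right.right.right.right.left n287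
theorem n286 : Inf par b286_0 :=
  Inf.empty (by decide +kernel)
theorem n286_0 : Inf par a286_0 :=
  Inf.steps hw _ b286_0 s286_0 c286_0 pt9.right.right.right.right.right.right.right.right.right.right.right.right.right.right.right.right.right.right.right.right.right.right.right.right.right.right.left n286
theorem n285 : Inf par b285_0 :=
  Inf.spG 5 ⟨692921160,0,0⟩ (Inf.cast n286_0 (by decide +kernel)) (Inf.cast n287_0 (by decide +kernel))
theorem n285_0 : Inf par a285_0 :=
  Inf.steps hw _ b285_0 s285_0 c285_0 pt9.right.right.right.right.right.right.right.right.right.right.right.right.right.right.right.right.right.right.right.right.right.right.right.right.right.left n285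
theorem n284 : Inf par b284_0 :=
  Inf.spG 3 ⟨493019849,0,0⟩ (Inf.cast n285_0 (by decide +kernel)) (Inf.cast n288_0 (by decide +kernel))
theorem n284_0 : Inf par a284_0 :=
  Inf.steps hw _ b284_0 s284_0 c284_0 pt9.right.right.right.right.right.right.right.right.right.right.right.right.right.right.right.right.right.right.right.right.right.right.right.right.left n284
theorem n283 : Inf par b283_0 :=
  Inf.empty (by decide +kernel)
theorem n283_0 : Inf par a283_0 :=
  Inf.steps hw _ b283_0 s283_0 c283_0 pt9.right.right.right.right.right.right.right.right.right.right.right.right.right.right.right.right.right.right.right.right.right.right.right.left n283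
theorem n282 : Inf par b282_0 :=
  Inf.empty (by decide +kernel)
theorem n282_0 : Inf par a282_0 :=
  Inf.steps hw _ b282_0 s282_0 c282_0 pt9.right.right.right.right.right.right.right.right.right.right.right.right.right.right.right.right.right.right.right.right.right.right.left n282
theorem n281 : Inf par b281_0 :=
  Inf.spG 3 ⟨491809638,0,0⟩ (Inf.cast n282_0 (by decide +kernel)) (Inf.cast n283_0 (by decide +kernel))
theorem n281_0 : Inf par a281_0 :=
  Inf.steps hw _ b281_0 s281_0 c281_0 pt9.right.right.right.right.right.right.right.right.right.right.right.right.right.right.right.right.right.right.right.right.right.left n281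
theorem n280 : Inf par b280_0 :=
  Inf.empty (by decide +kernel)
theorem n280_0 : Inf par a280_0 :=
  Inf.steps hw _ b280_0 s280_0 c280_0 pt9.right.right.right.right.right.right.right.right.right.right.right.right.right.right.right.right.right.right.right.right.left n280
theorem n279 : Inf par b279_0 :=
  Inf.spG 5 ⟨682896155,0,0⟩ (Inf.cast n280_0 (by decide +kernel)) (Inf.cast n281_0 (by decide +kernel))
theorem n279_0 : Inf par a279_0 :=
  Inf.steps hw _ b279_0 s279_0 c279_0 pt9.right.right.right.right.right.right.right.right.right.right.right.right.right.right.right.right.right.right.right.left n279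
theorem n278 : Inf par b278_0 :=
  Inf.empty (by decide +kernel)
theorem n278_0 : Inf par a278_0 :=
  Inf.steps hw _ b278_0 s278_0 c278_0 pt9.right.right.right.right.right.right.right.right.right.right.right.right.right.right.right.right.right.right.left n278
theorem n277 : Inf par b277_0 :=
  Inf.empty (by decide +kernel)
theorem n277_0 : Inf par a277_0 :=
  Inf.steps hw _ b277_0 s277_0 c277_0 pt9.right.right.right.right.right.right.right.right.right.right.right.right.right.right.right.right.right.left n277
theorem n276 : Inf par b276_0 :=
  Inf.spG 5 ⟨682896155,0,0⟩ (Inf.cast n277_0 (by decide +kernel)) (Inf.cast n278_0 (by decide +kernel))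
theorem n276_0 : Inf par a276_0 :=
  Inf.steps hw _ b276_0 s276_0 c276_0 pt9.right.right.right.right.right.right.right.right.right.right.right.right.right.right.right.right.left n276
theorem n275 : Inf par b275_0 :=
  Inf.spG 3 ⟨487065732,0,0⟩ (Inf.cast n276_0 (by decide +kernel)) (Inf.cast n279_0 (by decide +kernel))
theorem n275_0 : Inf par a275_0 :=
  Inf.steps hw _ b275_0 s275_0 c275_0 pt9.right.right.right.right.right.right.right.right.right.right.right.right.right.right.right.left n275
theorem n274 : Inf par b274_0 :=
  Inf.spG 7 ⟨780651678,0,0⟩ (Inf.cast n275_0 (by decide +kernel)) (Inf.cast n284_0 (by decide +kernel))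
theorem n274_0 : Inf par a274_0 :=
  Inf.steps hw _ b274_0 s274_0 c274_0 pt9.right.right.right.right.right.right.right.right.right.right.right.right.right.right.left n274
theorem n273 : Inf par b273_0 :=
  Inf.spG 7 ⟨791416223,0,0⟩ (Inf.cast n274_0 (by decide +kernel)) (Inf.cast n293_0 (by decide +kernel))
theorem n273_0 : Inf par a273_0 :=
  Inf.steps hw _ b273_0 s273_0 c273_0 pt9.right.right.right.right.right.right.right.right.right.right.right.right.right.left n273
theorem n272 : Inf par b272_0 :=
  Inf.spG 5 ⟨712946033,0,0⟩ (Inf.cast n273_0 (by decide +kernel)) (Inf.cast n306_0 (by decide +kernel))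
theorem n272_0 : Inf par a272_0 :=
  Inf.steps hw _ b272_0 s272_0 c272_0 pt9.right.right.right.right.right.right.right.right.right.right.right.right.left n272
theorem n271 : Inf par b271_1 :=
  Inf.empty (by decide +kernel)
theorem n271_1 : Inf par a271_1 :=
  Inf.steps hw _ b271_1 s271_1 c271_1 pt9.right.right.right.right.right.right.right.right.right.right.right.left n271
theorem n271_0 : Inf par a271_0 :=
  Inf.steps hw _ b271_0 s271_0 c271_0 pt9.right.right.right.right.right.right.right.right.right.right.left (Inf.cast n271_1 (by decide +kernel))
theorem n270 : Inf par b270_0 :=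
  Inf.empty (by decide +kernel)
theorem n270_0 : Inf par a270_0 :=
  Inf.steps hw _ b270_0 s270_0 c270_0 pt9.right.right.right.right.right.right.right.right.right.left n270
theorem n269 : Inf par b269_0 :=
  Inf.empty (by decide +kernel)
theorem n269_0 : Inf par a269_0 :=
  Inf.steps hw _ b269_0 s269_0 c269_0 pt9.right.right.right.right.right.right.right.right.left n269
theorem n268 : Inf par b268_0 :=
  Inf.spG 3 ⟨483804718,0,0⟩ (Inf.cast n269_0 (by decide +kernel)) (Inf.cast n270_0 (by decide +kernel))
theorem n268_0 : Inf par a268_0 :=
  Inf.steps hw _ b268_0 s268_0 c268_0 pt9.right.right.right.right.right.right.right.left n268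
theorem n267 : Inf par b267_0 :=
  Inf.empty (by decide +kernel)
theorem n267_0 : Inf par a267_0 :=
  Inf.steps hw _ b267_0 s267_0 c267_0 pt9.right.right.right.right.right.right.left n267
theorem n266 : Inf par b266_0 :=
  Inf.spG 5 ⟨674105946,0,0⟩ (Inf.cast n267_0 (by decide +kernel)) (Inf.cast n268_0 (by decide +kernel))
theorem n266_0 : Inf par a266_0 :=
  Inf.steps hw _ b266_0 s266_0 c266_0 pt9.right.right.right.right.right.left n266
theorem n265 : Inf par b265_0 :=
  Inf.spG 2 ⟨393225436,0,0⟩ (Inf.cast n266_0 (by decide +kernel)) (Inf.cast n271_0 (by decide +kernel))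
theorem n265_0 : Inf par a265_0 :=
  Inf.steps hw _ b265_0 s265_0 c265_0 pt9.right.right.right.right.left n265
theorem n264 : Inf par b264_0 :=
  Inf.empty (by decide +kernel)
theorem n264_0 : Inf par a264_0 :=
  Inf.steps hw _ b264_0 s264_0 c264_0 pt9.right.right.right.left n264
theorem n263 : Inf par b263_0 :=
  Inf.empty (by decide +kernel)
theorem n263_0 : Inf par a263_0 :=
  Inf.steps hw _ b263_0 s263_0 c263_0 pt9.right.right.left n263
theorem n262 : Inf par b262_0 :=
  Inf.spG 6 ⟨727663483,0,0⟩ (Inf.cast n263_0 (by decide +kernel)) (Inf.cast n264_0 (by decide +kernel))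
theorem n262_0 : Inf par a262_0 :=
  Inf.steps hw _ b262_0 s262_0 c262_0 pt9.right.left n262
theorem n261 : Inf par b261_0 :=
  Inf.spG 3 ⟨479152517,0,0⟩ (Inf.cast n262_0 (by decide +kernel)) (Inf.cast n265_0 (by decide +kernel))
theorem n261_0 : Inf par a261_0 :=
  Inf.steps hw _ b261_0 s261_0 c261_0 pt9.left n261
theorem n260 : Inf par b260_0 :=
  Inf.empty (by decide +kernel)
theorem n260_0 : Inf par a260_0 :=
  Inf.steps hw _ b260_0 s260_0 c260_0 pt8.right.right.right.right.right.right.right.right.right.right.right.right.right.right.right.right.right.right.right.right.right.right.right.right.right.right.right.right.right.right.right n260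
theorem n259 : Inf par b259_0 :=
  Inf.empty (by decide +kernel)
theorem n259_0 : Inf par a259_0 :=
  Inf.steps hw _ b259_0 s259_0 c259_0 pt8.right.right.right.right.right.right.right.right.right.right.right.right.right.right.right.right.right.right.right.right.right.right.right.right.right.right.right.right.right.right.left n259
theorem n258 : Inf par b258_0 :=
  Inf.empty (by decide +kernel)
theorem n258_0 : Inf par a258_0 :=
  Inf.steps hw _ b258_0 s258_0 c258_0 pt8.right.right.right.right.right.right.right.right.right.right.right.right.right.right.right.right.right.right.right.right.right.right.right.right.right.right.right.right.right.left n258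
theorem n257 : Inf par b257_0 :=
  Inf.spG 5 ⟨664970986,0,0⟩ (Inf.cast n258_0 (by decide +kernel)) (Inf.cast n259_0 (by decide +kernel))
theorem n257_0 : Inf par a257_0 :=
  Inf.steps hw _ b257_0 s257_0 c257_0 pt8.right.right.right.right.right.right.right.right.right.right.right.right.right.right.right.right.right.right.right.right.right.right.right.right.right.right.right.right.left n257
theorem n256 : Inf par b256_0 :=
  Inf.spG 3 ⟨477201681,0,0⟩ (Inf.cast n257_0 (by decide +kernel)) (Inf.cast n260_0 (by decide +kernel))
theorem n256_0 : Inf par a256_0 :=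
  Inf.steps hw _ b256_0 s256_0 c256_0 pt8.right.right.right.right.right.right.right.right.right.right.right.right.right.right.right.right.right.right.right.right.right.right.right.right.right.right.right.left n256
theorem n255 : Inf par b255_0 :=
  Inf.empty (by decide +kernel)
theorem n255_0 : Inf par a255_0 :=
  Inf.steps hw _ b255_0 s255_0 c255_0 pt8.right.right.right.right.right.right.right.right.right.right.right.right.right.right.right.right.right.right.right.right.right.right.right.right.right.right.left n255
theorem n254 : Inf par b254_0 :=
  Inf.empty (by decide +kernel)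
theorem n254_0 : Inf par a254_0 :=
  Inf.steps hw _ b254_0 s254_0 c254_0 pt8.right.right.right.right.right.right.right.right.right.right.right.right.right.right.right.right.right.right.right.right.right.right.right.right.right.left n254
theorem n253 : Inf par b253_0 :=
  Inf.spG 5 ⟨664970986,0,0⟩ (Inf.cast n254_0 (by decide +kernel)) (Inf.cast n255_0 (by decide +kernel))
theorem n253_0 : Inf par a253_0 :=
  Inf.steps hw _ b253_0 s253_0 c253_0 pt8.right.right.right.right.right.right.right.right.right.right.right.right.right.right.right.right.right.right.right.right.right.right.right.right.left n253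
theorem n252 : Inf par b252_0 :=
  Inf.spG 3 ⟨470952841,0,0⟩ (Inf.cast n253_0 (by decide +kernel)) (Inf.cast n256_0 (by decide +kernel))
theorem n252_0 : Inf par a252_0 :=
  Inf.steps hw _ b252_0 s252_0 c252_0 pt8.right.right.right.right.right.right.right.right.right.right.right.right.right.right.right.right.right.right.right.right.right.right.right.left n252
theorem n251 : Inf par b251_0 :=
  Inf.spG 7 ⟨759691575,0,0⟩ (Inf.cast n252_0 (by decide +kernel)) (Inf.cast n261_0 (by decide +kernel))
theorem n251_0 : Inf par a251_0 :=
  Inf.steps hw _ b251_0 s251_0 c251_0 pt8.right.right.right.right.right.right.right.right.right.right.right.right.right.right.right.right.right.right.right.right.right.right.left n251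
theorem n250 : Inf par b250_0 :=
  Inf.empty (by decide +kernel)
theorem n250_0 : Inf par a250_0 :=
  Inf.steps hw _ b250_0 s250_0 c250_0 pt8.right.right.right.right.right.right.right.right.right.right.right.right.right.right.right.right.right.right.right.right.right.left n250
theorem n249 : Inf par b249_0 :=
  Inf.empty (by decide +kernel)
theorem n249_0 : Inf par a249_0 :=
  Inf.steps hw _ b249_0 s249_0 c249_0 pt8.right.right.right.right.right.right.right.right.right.right.right.right.right.right.right.right.right.right.right.right.left n249
theorem n248 : Inf par b248_0 :=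
  Inf.spG 3 ⟨469850665,0,0⟩ (Inf.cast n249_0 (by decide +kernel)) (Inf.cast n250_0 (by decide +kernel))
theorem n248_0 : Inf par a248_0 :=
  Inf.steps hw _ b248_0 s248_0 c248_0 pt8.right.right.right.right.right.right.right.right.right.right.right.right.right.right.right.right.right.right.right.left n248
theorem n247 : Inf par b247_0 :=
  Inf.empty (by decide +kernel)
theorem n247_0 : Inf par a247_0 :=
  Inf.steps hw _ b247_0 s247_0 c247_0 pt8.right.right.right.right.right.right.right.right.right.right.right.right.right.right.right.right.right.right.left n247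
theorem n246 : Inf par b246_0 :=
  Inf.spG 5 ⟨656451374,0,0⟩ (Inf.cast n247_0 (by decide +kernel)) (Inf.cast n248_0 (by decide +kernel))
theorem n246_0 : Inf par a246_0 :=
  Inf.steps hw _ b246_0 s246_0 c246_0 pt8.right.right.right.right.right.right.right.right.right.right.right.right.right.right.right.right.right.left n246
theorem n245 : Inf par b245_0 :=
  Inf.empty (by decide +kernel)
theorem n245_0 : Inf par a245_0 :=
  Inf.steps hw _ b245_0 s245_0 c245_0 pt8.right.right.right.right.right.right.right.right.right.right.right.right.right.right.right.right.left n245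
theorem n244 : Inf par b244_0 :=
  Inf.empty (by decide +kernel)
theorem n244_0 : Inf par a244_0 :=
  Inf.steps hw _ b244_0 s244_0 c244_0 pt8.right.right.right.right.right.right.right.right.right.right.right.right.right.right.right.left n244
theorem n243 : Inf par b243_0 :=
  Inf.spG 5 ⟨656451374,0,0⟩ (Inf.cast n244_0 (by decide +kernel)) (Inf.cast n245_0 (by decide +kernel))
theorem n243_0 : Inf par a243_0 :=
  Inf.steps hw _ b243_0 s243_0 c243_0 pt8.right.right.right.right.right.right.right.right.right.right.right.right.right.right.left n243
theorem n242 : Inf par b242_0 :=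
  Inf.spG 3 ⟨464642509,0,0⟩ (Inf.cast n243_0 (by decide +kernel)) (Inf.cast n246_0 (by decide +kernel))
theorem n242_0 : Inf par a242_0 :=
  Inf.steps hw _ b242_0 s242_0 c242_0 pt8.right.right.right.right.right.right.right.right.right.right.right.right.right.left n242
theorem n241 : Inf par b241_0 :=
  Inf.empty (by decide +kernel)
theorem n241_0 : Inf par a241_0 :=
  Inf.steps hw _ b241_0 s241_0 c241_0 pt8.right.right.right.right.right.right.right.right.right.right.right.right.left n241
theorem n240 : Inf par b240_0 :=
  Inf.empty (by decide +kernel)
theorem n240_0 : Inf par a240_0 :=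
  Inf.steps hw _ b240_0 s240_0 c240_0 pt8.right.right.right.right.right.right.right.right.right.right.right.left n240
theorem n239 : Inf par b239_0 :=
  Inf.spG 6 ⟨701330980,0,0⟩ (Inf.cast n240_0 (by decide +kernel)) (Inf.cast n241_0 (by decide +kernel))
theorem n239_0 : Inf par a239_0 :=
  Inf.steps hw _ b239_0 s239_0 c239_0 pt8.right.right.right.right.right.right.right.right.right.right.left n239
theorem n238 : Inf par b238_0 :=
  Inf.empty (by decide +kernel)
theorem n238_0 : Inf par a238_0 :=
  Inf.steps hw _ b238_0 s238_0 c238_0 pt8.right.right.right.right.right.right.right.right.right.left n238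
theorem n237 : Inf par b237_0 :=
  Inf.spG 5 ⟨646966971,0,0⟩ (Inf.cast n238_0 (by decide +kernel)) (Inf.cast n239_0 (by decide +kernel))
theorem n237_0 : Inf par a237_0 :=
  Inf.steps hw _ b237_0 s237_0 c237_0 pt8.right.right.right.right.right.right.right.right.left n237
theorem n236 : Inf par b236_0 :=
  Inf.empty (by decide +kernel)
theorem n236_0 : Inf par a236_0 :=
  Inf.steps hw _ b236_0 s236_0 c236_0 pt8.right.right.right.right.right.right.right.left n236
theorem n235 : Inf par b235_0 :=
  Inf.empty (by decide +kernel)
theorem n235_0 : Inf par a235_0 :=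
  Inf.steps hw _ b235_0 s235_0 c235_0 pt8.right.right.right.right.right.right.left n235
theorem n234 : Inf par b234_0 :=
  Inf.spG 5 ⟨646966971,0,0⟩ (Inf.cast n235_0 (by decide +kernel)) (Inf.cast n236_0 (by decide +kernel))
theorem n234_0 : Inf par a234_0 :=
  Inf.steps hw _ b234_0 s234_0 c234_0 pt8.right.right.right.right.right.left n234
theorem n233 : Inf par b233_0 :=
  Inf.spG 3 ⟨457974072,0,0⟩ (Inf.cast n234_0 (by decide +kernel)) (Inf.cast n237_0 (by decide +kernel))
theorem n233_0 : Inf par a233_0 :=
  Inf.steps hw _ b233_0 s233_0 c233_0 pt8.right.right.right.right.left n233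
theorem n232 : Inf par b232_0 :=
  Inf.spG 7 ⟨739300460,0,0⟩ (Inf.cast n233_0 (by decide +kernel)) (Inf.cast n242_0 (by decide +kernel))
theorem n232_0 : Inf par a232_0 :=
  Inf.steps hw _ b232_0 s232_0 c232_0 pt8.right.right.right.left n232
theorem n231 : Inf par b231_0 :=
  Inf.spG 7 ⟨749496018,0,0⟩ (Inf.cast n232_0 (by decide +kernel)) (Inf.cast n251_0 (by decide +kernel))
theorem n231_0 : Inf par a231_0 :=
  Inf.steps hw _ b231_0 s231_0 c231_0 pt8.right.right.left n231
theorem n230 : Inf par b230_0 :=
  Inf.empty (by decide +kernel)
theorem n230_0 : Inf par a230_0 :=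
  Inf.steps hw _ b230_0 s230_0 c230_0 pt8.right.left n230
theorem n229 : Inf par b229_0 :=
  Inf.empty (by decide +kernel)
theorem n229_0 : Inf par a229_0 :=
  Inf.steps hw _ b229_0 s229_0 c229_0 pt8.left n229
theorem n228 : Inf par b228_0 :=
  Inf.empty (by decide +kernel)
theorem n228_0 : Inf par a228_0 :=
  Inf.steps hw _ b228_0 s228_0 c228_0 pt7.right.right.right.right.right.right.right.right.right.right.right.right.right.right.right.right.right.right.right.right.right.right.right.right.right.right.right.right.right.right n228
theorem n227 : Inf par b227_0 :=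
  Inf.spG 5 ⟨639870494,0,0⟩ (Inf.cast n228_0 (by decide +kernel)) (Inf.cast n229_0 (by decide +kernel))
theorem n227_0 : Inf par a227_0 :=
  Inf.steps hw _ b227_0 s227_0 c227_0 pt7.right.right.right.right.right.right.right.right.right.right.right.right.right.right.right.right.right.right.right.right.right.right.right.right.right.right.right.right.right.left n227
theorem n226 : Inf par b226_0 :=
  Inf.spG 2 ⟨374057219,0,0⟩ (Inf.cast n227_0 (by decide +kernel)) (Inf.cast n230_0 (by decide +kernel))
theorem n226_0 : Inf par a226_0 :=
  Inf.steps hw _ b226_0 s226_0 c226_0 pt7.right.right.right.right.right.right.right.right.right.right.right.right.right.right.right.right.right.right.right.right.right.right.right.right.right.right.right.right.left n226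
theorem n225 : Inf par b225_0 :=
  Inf.empty (by decide +kernel)
theorem n225_0 : Inf par a225_0 :=
  Inf.steps hw _ b225_0 s225_0 c225_0 pt7.right.right.right.right.right.right.right.right.right.right.right.right.right.right.right.right.right.right.right.right.right.right.right.right.right.right.right.left n225
theorem n224 : Inf par b224_0 :=
  Inf.empty (by decide +kernel)
theorem n224_0 : Inf par a224_0 :=
  Inf.steps hw _ b224_0 s224_0 c224_0 pt7.right.right.right.right.right.right.right.right.right.right.right.right.right.right.right.right.right.right.right.right.right.right.right.right.right.right.left n224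
theorem n223 : Inf par b223_0 :=
  Inf.spG 6 ⟨689605380,0,0⟩ (Inf.cast n224_0 (by decide +kernel)) (Inf.cast n225_0 (by decide +kernel))
theorem n223_0 : Inf par a223_0 :=
  Inf.steps hw _ b223_0 s223_0 c223_0 pt7.right.right.right.right.right.right.right.right.right.right.right.right.right.right.right.right.right.right.right.right.right.right.right.right.right.left n223
theorem n222 : Inf par b222_0 :=
  Inf.spG 3 ⟨453268114,0,0⟩ (Inf.cast n223_0 (by decide +kernel)) (Inf.cast n226_0 (by decide +kernel))
theorem n222_0 : Inf par a222_0 :=
  Inf.steps hw _ b222_0 s222_0 c222_0 pt7.right.right.right.right.right.right.right.right.right.right.right.right.right.right.right.right.right.right.right.right.right.right.right.right.left n222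
theorem n221 : Inf par b221_0 :=
  Inf.empty (by decide +kernel)
theorem n221_0 : Inf par a221_0 :=
  Inf.steps hw _ b221_0 s221_0 c221_0 pt7.right.right.right.right.right.right.right.right.right.right.right.right.right.right.right.right.right.right.right.right.right.right.right.left n221
theorem n220 : Inf par b220_0 :=
  Inf.empty (by decide +kernel)
theorem n220_0 : Inf par a220_0 :=
  Inf.steps hw _ b220_0 s220_0 c220_0 pt7.right.right.right.right.right.right.right.right.right.right.right.right.right.right.right.right.right.right.right.right.right.right.left n220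
theorem n219 : Inf par b219_0 :=
  Inf.spG 5 ⟨632604179,0,0⟩ (Inf.cast n220_0 (by decide +kernel)) (Inf.cast n221_0 (by decide +kernel))
theorem n219_0 : Inf par a219_0 :=
  Inf.steps hw _ b219_0 s219_0 c219_0 pt7.right.right.right.right.right.right.right.right.right.right.right.right.right.right.right.right.right.right.right.right.right.left n219
theorem n218 : Inf par b218_0 :=
  Inf.empty (by decide +kernel)
theorem n218_0 : Inf par a218_0 :=
  Inf.steps hw _ b218_0 s218_0 c218_0 pt7.right.right.right.right.right.right.right.right.right.right.right.right.right.right.right.right.right.right.right.right.left n218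
theorem n217 : Inf par b217_0 :=
  Inf.spG 3 ⟨447008717,0,0⟩ (Inf.cast n218_0 (by decide +kernel)) (Inf.cast n219_0 (by decide +kernel))
theorem n217_0 : Inf par a217_0 :=
  Inf.steps hw _ b217_0 s217_0 c217_0 pt7.right.right.right.right.right.right.right.right.right.right.right.right.right.right.right.right.right.right.right.left n217
theorem n216 : Inf par b216_0 :=
  Inf.spG 7 ⟨721349941,0,0⟩ (Inf.cast n217_0 (by decide +kernel)) (Inf.cast n222_0 (by decide +kernel))
theorem n216_0 : Inf par a216_0 :=
  Inf.steps hw _ b216_0 s216_0 c216_0 pt7.right.right.right.right.right.right.right.right.right.right.right.right.right.right.right.right.right.right.left n216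
theorem n215 : Inf par b215_1 :=
  Inf.empty (by decide +kernel)
theorem n215_1 : Inf par a215_1 :=
  Inf.steps hw _ b215_1 s215_1 c215_1 pt7.right.right.right.right.right.right.right.right.right.right.right.right.right.right.right.right.right.left n215
theorem n215_0 : Inf par a215_0 :=
  Inf.steps hw _ b215_0 s215_0 c215_0 pt7.right.right.right.right.right.right.right.right.right.right.right.right.right.right.right.right.left (Inf.cast n215_1 (by decide +kernel))
theorem n214 : Inf par b214_0 :=
  Inf.empty (by decide +kernel)
theorem n214_0 : Inf par a214_0 :=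
  Inf.steps hw _ b214_0 s214_0 c214_0 pt7.right.right.right.right.right.right.right.right.right.right.right.right.right.right.right.left n214
theorem n213 : Inf par b213_0 :=
  Inf.spG 2 ⟨365151962,0,0⟩ (Inf.cast n214_0 (by decide +kernel)) (Inf.cast n215_0 (by decide +kernel))
theorem n213_0 : Inf par a213_0 :=
  Inf.steps hw _ b213_0 s213_0 c213_0 pt7.right.right.right.right.right.right.right.right.right.right.right.right.right.right.left n213
theorem n212 : Inf par b212_0 :=
  Inf.empty (by decide +kernel)
theorem n212_0 : Inf par a212_0 :=
  Inf.steps hw _ b212_0 s212_0 c212_0 pt7.right.right.right.right.right.right.right.right.right.right.right.right.right.left n212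
theorem n211 : Inf par b211_0 :=
  Inf.empty (by decide +kernel)
theorem n211_0 : Inf par a211_0 :=
  Inf.steps hw _ b211_0 s211_0 c211_0 pt7.right.right.right.right.right.right.right.right.right.right.right.right.left n211
theorem n210 : Inf par b210_0 :=
  Inf.spG 5 ⟨623886055,0,0⟩ (Inf.cast n211_0 (by decide +kernel)) (Inf.cast n212_0 (by decide +kernel))
theorem n210_0 : Inf par a210_0 :=
  Inf.steps hw _ b210_0 s210_0 c210_0 pt7.right.right.right.right.right.right.right.right.right.right.right.left n210
theorem n209 : Inf par b209_0 :=
  Inf.spG 3 ⟨441250191,0,0⟩ (Inf.cast n210_0 (by decide +kernel)) (Inf.cast n213_0 (by decide +kernel))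
theorem n209_0 : Inf par a209_0 :=
  Inf.steps hw _ b209_0 s209_0 c209_0 pt7.right.right.right.right.right.right.right.right.right.right.left n209
theorem n208 : Inf par b208_0 :=
  Inf.spG 7 ⟨713594980,0,0⟩ (Inf.cast n209_0 (by decide +kernel)) (Inf.cast n216_0 (by decide +kernel))
theorem n208_0 : Inf par a208_0 :=
  Inf.steps hw _ b208_0 s208_0 c208_0 pt7.right.right.right.right.right.right.right.right.right.left n208
theorem n207 : Inf par b207_0 :=
  Inf.spG 7 ⟨729104903,0,0⟩ (Inf.cast n208_0 (by decide +kernel)) (Inf.cast n231_0 (by decide +kernel))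
theorem n207_0 : Inf par a207_0 :=
  Inf.steps hw _ b207_0 s207_0 c207_0 pt7.right.right.right.right.right.right.right.right.left n207
theorem n206 : Inf par b206_0 :=
  Inf.spG 7 ⟨769887133,0,0⟩ (Inf.cast n207_0 (by decide +kernel)) (Inf.cast n272_0 (by decide +kernel))
theorem n206_0 : Inf par a206_0 :=
  Inf.steps hw _ b206_0 s206_0 c206_0 pt7.right.right.right.right.right.right.right.left n206
theorem n205 : Inf par b205_0 :=
  Inf.empty (by decide +kernel)
theorem n205_0 : Inf par a205_0 :=
  Inf.steps hw _ b205_0 s205_0 c205_0 pt7.right.right.right.right.right.right.left n205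
theorem n204 : Inf par b204_0 :=
  Inf.empty (by decide +kernel)
theorem n204_0 : Inf par a204_0 :=
  Inf.steps hw _ b204_0 s204_0 c204_0 pt7.right.right.right.right.right.left n204
theorem n203 : Inf par b203_0 :=
  Inf.empty (by decide +kernel)
theorem n203_0 : Inf par a203_0 :=
  Inf.steps hw _ b203_0 s203_0 c203_0 pt7.right.right.right.right.left n203
theorem n202 : Inf par b202_0 :=
  Inf.spG 6 ⟨662447459,0,0⟩ (Inf.cast n203_0 (by decide +kernel)) (Inf.cast n204_0 (by decide +kernel))
theorem n202_0 : Inf par a202_0 :=
  Inf.steps hw _ b202_0 s202_0 c202_0 pt7.right.right.right.left n202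
theorem n201 : Inf par b201_0 :=
  Inf.empty (by decide +kernel)
theorem n201_0 : Inf par a201_0 :=
  Inf.steps hw _ b201_0 s201_0 c201_0 pt7.right.right.left n201
theorem n200 : Inf par b200_0 :=
  Inf.spG 3 ⟨432753734,0,0⟩ (Inf.cast n201_0 (by decide +kernel)) (Inf.cast n202_0 (by decide +kernel))
theorem n200_0 : Inf par a200_0 :=
  Inf.steps hw _ b200_0 s200_0 c200_0 pt7.right.left n200
theorem n199 : Inf par b199_0 :=
  Inf.spG 5 ⟨618407335,0,0⟩ (Inf.cast n200_0 (by decide +kernel)) (Inf.cast n205_0 (by decide +kernel))
theorem n199_0 : Inf par a199_0 :=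
  Inf.steps hw _ b199_0 s199_0 c199_0 pt7.left n199
theorem n198 : Inf par b198_0 :=
  Inf.empty (by decide +kernel)
theorem n198_0 : Inf par a198_0 :=
  Inf.steps hw _ b198_0 s198_0 c198_0 pt6.right.right.right.right.right.right.right.right.right.right.right.right.right.right.right.right.right.right.right.right.right.right.right.right.right.right.right.right.right.right.right n198
theorem n197 : Inf par b197_0 :=
  Inf.empty (by decide +kernel)
theorem n197_0 : Inf par a197_0 :=
  Inf.steps hw _ b197_0 s197_0 c197_0 pt6.right.right.right.right.right.right.right.right.right.right.right.right.right.right.right.right.right.right.right.right.right.right.right.right.right.right.right.right.right.right.left n197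
theorem n196 : Inf par b196_0 :=
  Inf.spG 6 ⟨656175023,0,0⟩ (Inf.cast n197_0 (by decide +kernel)) (Inf.cast n198_0 (by decide +kernel))
theorem n196_0 : Inf par a196_0 :=
  Inf.steps hw _ b196_0 s196_0 c196_0 pt6.right.right.right.right.right.right.right.right.right.right.right.right.right.right.right.right.right.right.right.right.right.right.right.right.right.right.right.right.right.left n196
theorem n195 : Inf par b195_0 :=
  Inf.empty (by decide +kernel)
theorem n195_0 : Inf par a195_0 :=
  Inf.steps hw _ b195_0 s195_0 c195_0 pt6.right.right.right.right.right.right.right.right.right.right.right.right.right.right.right.right.right.right.right.right.right.right.right.right.right.right.right.right.left n195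
theorem n194 : Inf par b194_0 :=
  Inf.empty (by decide +kernel)
theorem n194_0 : Inf par a194_0 :=
  Inf.steps hw _ b194_0 s194_0 c194_0 pt6.right.right.right.right.right.right.right.right.right.right.right.right.right.right.right.right.right.right.right.right.right.right.right.right.right.right.right.left n194
theorem n193 : Inf par b193_0 :=
  Inf.spG 6 ⟨654254543,0,0⟩ (Inf.cast n194_0 (by decide +kernel)) (Inf.cast n195_0 (by decide +kernel))
theorem n193_0 : Inf par a193_0 :=
  Inf.steps hw _ b193_0 s193_0 c193_0 pt6.right.right.right.right.right.right.right.right.right.right.right.right.right.right.right.right.right.right.right.right.right.right.right.right.right.right.left n193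
theorem n192 : Inf par b192_0 :=
  Inf.spG 3 ⟨428064512,0,0⟩ (Inf.cast n193_0 (by decide +kernel)) (Inf.cast n196_0 (by decide +kernel))
theorem n192_0 : Inf par a192_0 :=
  Inf.steps hw _ b192_0 s192_0 c192_0 pt6.right.right.right.right.right.right.right.right.right.right.right.right.right.right.right.right.right.right.right.right.right.right.right.right.right.left n192
theorem n191 : Inf par b191_0 :=
  Inf.empty (by decide +kernel)
theorem n191_0 : Inf par a191_0 :=
  Inf.steps hw _ b191_0 s191_0 c191_0 pt6.right.right.right.right.right.right.right.right.right.right.right.right.right.right.right.right.right.right.right.right.right.right.right.right.left n191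
theorem n190 : Inf par b190_0 :=
  Inf.empty (by decide +kernel)
theorem n190_0 : Inf par a190_0 :=
  Inf.steps hw _ b190_0 s190_0 c190_0 pt6.right.right.right.right.right.right.right.right.right.right.right.right.right.right.right.right.right.right.right.right.right.right.right.left n190
theorem n189 : Inf par b189_0 :=
  Inf.spG 6 ⟨643303098,0,0⟩ (Inf.cast n190_0 (by decide +kernel)) (Inf.cast n191_0 (by decide +kernel))
theorem n189_0 : Inf par a189_0 :=
  Inf.steps hw _ b189_0 s189_0 c189_0 pt6.right.right.right.right.right.right.right.right.right.right.right.right.right.right.right.right.right.right.right.right.right.right.left n189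
theorem n188 : Inf par b188_1 :=
  Inf.empty (by decide +kernel)
theorem n188_1 : Inf par a188_1 :=
  Inf.steps hw _ b188_1 s188_1 c188_1 pt6.right.right.right.right.right.right.right.right.right.right.right.right.right.right.right.right.right.right.right.right.right.left n188
theorem n188_0 : Inf par a188_0 :=
  Inf.steps hw _ b188_0 s188_0 c188_0 pt6.right.right.right.right.right.right.right.right.right.right.right.right.right.right.right.right.right.right.right.right.left (Inf.cast n188_1 (by decide +kernel))
theorem n187 : Inf par b187_0 :=
  Inf.spG 3 ⟨419189722,0,0⟩ (Inf.cast n188_0 (by decide +kernel)) (Inf.cast n189_0 (by decide +kernel))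
theorem n187_0 : Inf par a187_0 :=
  Inf.steps hw _ b187_0 s187_0 c187_0 pt6.right.right.right.right.right.right.right.right.right.right.right.right.right.right.right.right.right.right.right.left n187
theorem n186 : Inf par b186_0 :=
  Inf.spG 7 ⟨681704452,0,0⟩ (Inf.cast n187_0 (by decide +kernel)) (Inf.cast n192_0 (by decide +kernel))
theorem n186_0 : Inf par a186_0 :=
  Inf.steps hw _ b186_0 s186_0 c186_0 pt6.right.right.right.right.right.right.right.right.right.right.right.right.right.right.right.right.right.right.left n186
theorem n185 : Inf par b185_0 :=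
  Inf.spG 5 ⟨609941653,0,0⟩ (Inf.cast n186_0 (by decide +kernel)) (Inf.cast n199_0 (by decide +kernel))
theorem n185_0 : Inf par a185_0 :=
  Inf.steps hw _ b185_0 s185_0 c185_0 pt6.right.right.right.right.right.right.right.right.right.right.right.right.right.right.right.right.right.left n185
theorem n184 : Inf par b184_1 :=
  Inf.empty (by decide +kernel)
theorem n184_1 : Inf par a184_1 :=
  Inf.steps hw _ b184_1 s184_1 c184_1 pt6.right.right.right.right.right.right.right.right.right.right.right.right.right.right.right.right.left n184
theorem n184_0 : Inf par a184_0 :=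
  Inf.steps hw _ b184_0 s184_0 c184_0 pt6.right.right.right.right.right.right.right.right.right.right.right.right.right.right.right.left (Inf.cast n184_1 (by decide +kernel))
theorem n183 : Inf par b183_0 :=
  Inf.empty (by decide +kernel)
theorem n183_0 : Inf par a183_0 :=
  Inf.steps hw _ b183_0 s183_0 c183_0 pt6.right.right.right.right.right.right.right.right.right.right.right.right.right.right.left n183
theorem n182 : Inf par b182_0 :=
  Inf.empty (by decide +kernel)
theorem n182_0 : Inf par a182_0 :=
  Inf.steps hw _ b182_0 s182_0 c182_0 pt6.right.right.right.right.right.right.right.right.right.right.right.right.right.left n182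
theorem n181 : Inf par b181_0 :=
  Inf.spG 6 ⟨635167356,0,0⟩ (Inf.cast n182_0 (by decide +kernel)) (Inf.cast n183_0 (by decide +kernel))
theorem n181_0 : Inf par a181_0 :=
  Inf.steps hw _ b181_0 s181_0 c181_0 pt6.right.right.right.right.right.right.right.right.right.right.right.right.left n181
theorem n180 : Inf par b180_0 :=
  Inf.spG 3 ⟨415286163,0,0⟩ (Inf.cast n181_0 (by decide +kernel)) (Inf.cast n184_0 (by decide +kernel))
theorem n180_0 : Inf par a180_0 :=
  Inf.steps hw _ b180_0 s180_0 c180_0 pt6.right.right.right.right.right.right.right.right.right.right.right.left n180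
theorem n179 : Inf par b179_0 :=
  Inf.empty (by decide +kernel)
theorem n179_0 : Inf par a179_0 :=
  Inf.steps hw _ b179_0 s179_0 c179_0 pt6.right.right.right.right.right.right.right.right.right.right.left n179
theorem n178 : Inf par b178_0 :=
  Inf.empty (by decide +kernel)
theorem n178_0 : Inf par a178_0 :=
  Inf.steps hw _ b178_0 s178_0 c178_0 pt6.right.right.right.right.right.right.right.right.right.left n178
theorem n177 : Inf par b177_0 :=
  Inf.empty (by decide +kernel)
theorem n177_0 : Inf par a177_0 :=
  Inf.steps hw _ b177_0 s177_0 c177_0 pt6.right.right.right.right.right.right.right.right.left n177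
theorem n176 : Inf par b176_0 :=
  Inf.spG 5 ⟨580573332,0,0⟩ (Inf.cast n177_0 (by decide +kernel)) (Inf.cast n178_0 (by decide +kernel))
theorem n176_0 : Inf par a176_0 :=
  Inf.steps hw _ b176_0 s176_0 c176_0 pt6.right.right.right.right.right.right.right.left n176
theorem n175 : Inf par b175_0 :=
  Inf.spG 3 ⟨411739589,0,0⟩ (Inf.cast n176_0 (by decide +kernel)) (Inf.cast n179_0 (by decide +kernel))
theorem n175_0 : Inf par a175_0 :=
  Inf.steps hw _ b175_0 s175_0 c175_0 pt6.right.right.right.right.right.right.left n175
theorem n174 : Inf par b174_0 :=
  Inf.empty (by decide +kernel)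
theorem n174_0 : Inf par a174_0 :=
  Inf.steps hw _ b174_0 s174_0 c174_0 pt6.right.right.right.right.right.left n174
theorem n173 : Inf par b173_0 :=
  Inf.empty (by decide +kernel)
theorem n173_0 : Inf par a173_0 :=
  Inf.steps hw _ b173_0 s173_0 c173_0 pt6.right.right.right.right.left n173
theorem n172 : Inf par b172_0 :=
  Inf.spG 5 ⟨580573332,0,0⟩ (Inf.cast n173_0 (by decide +kernel)) (Inf.cast n174_0 (by decide +kernel))
theorem n172_0 : Inf par a172_0 :=
  Inf.steps hw _ b172_0 s172_0 c172_0 pt6.right.right.right.left n172
theorem n171 : Inf par b171_0 :=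
  Inf.spG 3 ⟨407062518,0,0⟩ (Inf.cast n172_0 (by decide +kernel)) (Inf.cast n175_0 (by decide +kernel))
theorem n171_0 : Inf par a171_0 :=
  Inf.steps hw _ b171_0 s171_0 c171_0 pt6.right.right.left n171
theorem n170 : Inf par b170_0 :=
  Inf.spG 7 ⟨663636213,0,0⟩ (Inf.cast n171_0 (by decide +kernel)) (Inf.cast n180_0 (by decide +kernel))
theorem n170_0 : Inf par a170_0 :=
  Inf.steps hw _ b170_0 s170_0 c170_0 pt6.right.left n170
theorem n169 : Inf par b169_0 :=
  Inf.empty (by decide +kernel)
theorem n169_0 : Inf par a169_0 :=
  Inf.steps hw _ b169_0 s169_0 c169_0 pt6.left n169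
theorem n168 : Inf par b168_0 :=
  Inf.empty (by decide +kernel)
theorem n168_0 : Inf par a168_0 :=
  Inf.steps hw _ b168_0 s168_0 c168_0 pt5.right.right.right.right.right.right.right.right.right.right.right.right.right.right.right.right.right.right.right.right.right.right.right.right.right.right n168
theorem n167 : Inf par b167_0 :=
  Inf.spG 6 ⟨616515186,0,0⟩ (Inf.cast n168_0 (by decide +kernel)) (Inf.cast n169_0 (by decide +kernel))
theorem n167_0 : Inf par a167_0 :=
  Inf.steps hw _ b167_0 s167_0 c167_0 pt5.right.right.right.right.right.right.right.right.right.right.right.right.right.right.right.right.right.right.right.right.right.right.right.right.right.left n167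
theorem n166 : Inf par b166_0 :=
  Inf.empty (by decide +kernel)
theorem n166_0 : Inf par a166_0 :=
  Inf.steps hw _ b166_0 s166_0 c166_0 pt5.right.right.right.right.right.right.right.right.right.right.right.right.right.right.right.right.right.right.right.right.right.right.right.right.left n166
theorem n165 : Inf par b165_0 :=
  Inf.empty (by decide +kernel)
theorem n165_0 : Inf par a165_0 :=
  Inf.steps hw _ b165_0 s165_0 c165_0 pt5.right.right.right.right.right.right.right.right.right.right.right.right.right.right.right.right.right.right.right.right.right.right.right.left n165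
theorem n164 : Inf par b164_0 :=
  Inf.spG 6 ⟨613870233,0,0⟩ (Inf.cast n165_0 (by decide +kernel)) (Inf.cast n166_0 (by decide +kernel))
theorem n164_0 : Inf par a164_0 :=
  Inf.steps hw _ b164_0 s164_0 c164_0 pt5.right.right.right.right.right.right.right.right.right.right.right.right.right.right.right.right.right.right.right.right.right.right.left n164
theorem n163 : Inf par b163_0 :=
  Inf.spG 3 ⟨399931813,0,0⟩ (Inf.cast n164_0 (by decide +kernel)) (Inf.cast n167_0 (by decide +kernel))
theorem n163_0 : Inf par a163_0 :=
  Inf.steps hw _ b163_0 s163_0 c163_0 pt5.right.right.right.right.right.right.right.right.right.right.right.right.right.right.right.right.right.right.right.right.right.left n163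
theorem n162 : Inf par b162_0 :=
  Inf.empty (by decide +kernel)
theorem n162_0 : Inf par a162_0 :=
  Inf.steps hw _ b162_0 s162_0 c162_0 pt5.right.right.right.right.right.right.right.right.right.right.right.right.right.right.right.right.right.right.right.right.left n162
theorem n161 : Inf par b161_0 :=
  Inf.empty (by decide +kernel)
theorem n161_0 : Inf par a161_0 :=
  Inf.steps hw _ b161_0 s161_0 c161_0 pt5.right.right.right.right.right.right.right.right.right.right.right.right.right.right.right.right.right.right.right.left n161
theorem n160 : Inf par b160_0 :=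
  Inf.spG 3 ⟨394674197,0,0⟩ (Inf.cast n161_0 (by decide +kernel)) (Inf.cast n162_0 (by decide +kernel))
theorem n160_0 : Inf par a160_0 :=
  Inf.steps hw _ b160_0 s160_0 c160_0 pt5.right.right.right.right.right.right.right.right.right.right.right.right.right.right.right.right.right.right.left n160
theorem n159 : Inf par b159_0 :=
  Inf.spG 7 ⟨640822773,0,0⟩ (Inf.cast n160_0 (by decide +kernel)) (Inf.cast n163_0 (by decide +kernel))
theorem n159_0 : Inf par a159_0 :=
  Inf.steps hw _ b159_0 s159_0 c159_0 pt5.right.right.right.right.right.right.right.right.right.right.right.right.right.right.right.right.right.left n159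
theorem n158 : Inf par b158_0 :=
  Inf.spG 7 ⟨652229493,0,0⟩ (Inf.cast n159_0 (by decide +kernel)) (Inf.cast n170_0 (by decide +kernel))
theorem n158_0 : Inf par a158_0 :=
  Inf.steps hw _ b158_0 s158_0 c158_0 pt5.right.right.right.right.right.right.right.right.right.right.right.right.right.right.right.right.left n158
theorem n157 : Inf par b157_0 :=
  Inf.spG 5 ⟨593010289,0,0⟩ (Inf.cast n158_0 (by decide +kernel)) (Inf.cast n185_0 (by decide +kernel))
theorem n157_0 : Inf par a157_0 :=
  Inf.steps hw _ b157_0 s157_0 c157_0 pt5.right.right.right.right.right.right.right.right.right.right.right.right.right.right.right.left n157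
theorem n156 : Inf par b156_1 :=
  Inf.empty (by decide +kernel)
theorem n156_1 : Inf par a156_1 :=
  Inf.steps hw _ b156_1 s156_1 c156_1 pt5.right.right.right.right.right.right.right.right.right.right.right.right.right.right.left n156
theorem n156_0 : Inf par a156_0 :=
  Inf.steps hw _ b156_0 s156_0 c156_0 pt5.right.right.right.right.right.right.right.right.right.right.right.right.right.left (Inf.cast n156_1 (by decide +kernel))
theorem n155 : Inf par b155_0 :=
  Inf.empty (by decide +kernel)
theorem n155_0 : Inf par a155_0 :=
  Inf.steps hw _ b155_0 s155_0 c155_0 pt5.right.right.right.right.right.right.right.right.right.right.right.right.left n155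
theorem n154 : Inf par b154_0 :=
  Inf.spG 3 ⟨388815644,0,0⟩ (Inf.cast n155_0 (by decide +kernel)) (Inf.cast n156_0 (by decide +kernel))
theorem n154_0 : Inf par a154_0 :=
  Inf.steps hw _ b154_0 s154_0 c154_0 pt5.right.right.right.right.right.right.right.right.right.right.right.left n154
theorem n153 : Inf par b153_0 :=
  Inf.empty (by decide +kernel)
theorem n153_0 : Inf par a153_0 :=
  Inf.steps hw _ b153_0 s153_0 c153_0 pt5.right.right.right.right.right.right.right.right.right.right.left n153
theorem n152 : Inf par b152_0 :=
  Inf.empty (by decide +kernel)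
theorem n152_0 : Inf par a152_0 :=
  Inf.steps hw _ b152_0 s152_0 c152_0 pt5.right.right.right.right.right.right.right.right.right.left n152
theorem n151 : Inf par b151_0 :=
  Inf.spG 6 ⟨591235252,0,0⟩ (Inf.cast n152_0 (by decide +kernel)) (Inf.cast n153_0 (by decide +kernel))
theorem n151_0 : Inf par a151_0 :=
  Inf.steps hw _ b151_0 s151_0 c151_0 pt5.right.right.right.right.right.right.right.right.left n151
theorem n150 : Inf par b150_0 :=
  Inf.empty (by decide +kernel)
theorem n150_0 : Inf par a150_0 :=
  Inf.steps hw _ b150_0 s150_0 c150_0 pt5.right.right.right.right.right.right.right.left n150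
theorem n149 : Inf par b149_0 :=
  Inf.spG 3 ⟨382614574,0,0⟩ (Inf.cast n150_0 (by decide +kernel)) (Inf.cast n151_0 (by decide +kernel))
theorem n149_0 : Inf par a149_0 :=
  Inf.steps hw _ b149_0 s149_0 c149_0 pt5.right.right.right.right.right.right.left n149
theorem n148 : Inf par b148_0 :=
  Inf.spG 7 ⟨625534589,0,0⟩ (Inf.cast n149_0 (by decide +kernel)) (Inf.cast n154_0 (by decide +kernel))
theorem n148_0 : Inf par a148_0 :=
  Inf.steps hw _ b148_0 s148_0 c148_0 pt5.right.right.right.right.right.left n148
theorem n147 : Inf par b147_0 :=
  Inf.empty (by decide +kernel)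
theorem n147_0 : Inf par a147_0 :=
  Inf.steps hw _ b147_0 s147_0 c147_0 pt5.right.right.right.right.left n147
theorem n146 : Inf par b146_0 :=
  Inf.empty (by decide +kernel)
theorem n146_0 : Inf par a146_0 :=
  Inf.steps hw _ b146_0 s146_0 c146_0 pt5.right.right.right.left n146
theorem n145 : Inf par b145_0 :=
  Inf.spG 6 ⟨581263941,0,0⟩ (Inf.cast n146_0 (by decide +kernel)) (Inf.cast n147_0 (by decide +kernel))
theorem n145_0 : Inf par a145_0 :=
  Inf.steps hw _ b145_0 s145_0 c145_0 pt5.right.right.left n145
theorem n144 : Inf par b144_0 :=
  Inf.empty (by decide +kernel)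
theorem n144_0 : Inf par a144_0 :=
  Inf.steps hw _ b144_0 s144_0 c144_0 pt5.right.left n144
theorem n143 : Inf par b143_0 :=
  Inf.spG 3 ⟨375836996,0,0⟩ (Inf.cast n144_0 (by decide +kernel)) (Inf.cast n145_0 (by decide +kernel))
theorem n143_0 : Inf par a143_0 :=
  Inf.steps hw _ b143_0 s143_0 c143_0 pt5.left n143
theorem n142 : Inf par b142_0 :=
  Inf.empty (by decide +kernel)
theorem n142_0 : Inf par a142_0 :=
  Inf.steps hw _ b142_0 s142_0 c142_0 pt4.right.right.right.right.right.right.right.right.right.right.right.right.right.right.right.right.right.right.right.right.right.right.right.right.right.right.right n142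
theorem n141 : Inf par b141_0 :=
  Inf.empty (by decide +kernel)
theorem n141_0 : Inf par a141_0 :=
  Inf.steps hw _ b141_0 s141_0 c141_0 pt4.right.right.right.right.right.right.right.right.right.right.right.right.right.right.right.right.right.right.right.right.right.right.right.right.right.right.left n141
theorem n140 : Inf par b140_0 :=
  Inf.spG 6 ⟨571092237,0,0⟩ (Inf.cast n141_0 (by decide +kernel)) (Inf.cast n142_0 (by decide +kernel))
theorem n140_0 : Inf par a140_0 :=
  Inf.steps hw _ b140_0 s140_0 c140_0 pt4.right.right.right.right.right.right.right.right.right.right.right.right.right.right.right.right.right.right.right.right.right.right.right.right.right.left n140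
theorem n139 : Inf par b139_1 :=
  Inf.empty (by decide +kernel)
theorem n139_1 : Inf par a139_1 :=
  Inf.steps hw _ b139_1 s139_1 c139_1 pt4.right.right.right.right.right.right.right.right.right.right.right.right.right.right.right.right.right.right.right.right.right.right.right.right.left n139
theorem n139_0 : Inf par a139_0 :=
  Inf.steps hw _ b139_0 s139_0 c139_0 pt4.right.right.right.right.right.right.right.right.right.right.right.right.right.right.right.right.right.right.right.right.right.right.right.left (Inf.cast n139_1 (by decide +kernel))
theorem n138 : Inf par b138_0 :=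
  Inf.spG 3 ⟨368832881,0,0⟩ (Inf.cast n139_0 (by decide +kernel)) (Inf.cast n140_0 (by decide +kernel))
theorem n138_0 : Inf par a138_0 :=
  Inf.steps hw _ b138_0 s138_0 c138_0 pt4.right.right.right.right.right.right.right.right.right.right.right.right.right.right.right.right.right.right.right.right.right.right.left n138
theorem n137 : Inf par b137_0 :=
  Inf.spG 7 ⟨604565373,0,0⟩ (Inf.cast n138_0 (by decide +kernel)) (Inf.cast n143_0 (by decide +kernel))
theorem n137_0 : Inf par a137_0 :=
  Inf.steps hw _ b137_0 s137_0 c137_0 pt4.right.right.right.right.right.right.right.right.right.right.right.right.right.right.right.right.right.right.right.right.right.left n137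
theorem n136 : Inf par b136_0 :=
  Inf.spG 7 ⟨615049981,0,0⟩ (Inf.cast n137_0 (by decide +kernel)) (Inf.cast n148_0 (by decide +kernel))
theorem n136_0 : Inf par a136_0 :=
  Inf.steps hw _ b136_0 s136_0 c136_0 pt4.right.right.right.right.right.right.right.right.right.right.right.right.right.right.right.right.right.right.right.right.left n136
theorem n135 : Inf par b135_0 :=
  Inf.empty (by decide +kernel)
theorem n135_0 : Inf par a135_0 :=
  Inf.steps hw _ b135_0 s135_0 c135_0 pt4.right.right.right.right.right.right.right.right.right.right.right.right.right.right.right.right.right.right.right.left n135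
theorem n134 : Inf par b134_0 :=
  Inf.empty (by decide +kernel)
theorem n134_0 : Inf par a134_0 :=
  Inf.steps hw _ b134_0 s134_0 c134_0 pt4.right.right.right.right.right.right.right.right.right.right.right.right.right.right.right.right.right.right.left n134
theorem n133 : Inf par b133_0 :=
  Inf.spG 3 ⟨364222005,0,0⟩ (Inf.cast n134_0 (by decide +kernel)) (Inf.cast n135_0 (by decide +kernel))
theorem n133_0 : Inf par a133_0 :=
  Inf.steps hw _ b133_0 s133_0 c133_0 pt4.right.right.right.right.right.right.right.right.right.right.right.right.right.right.right.right.right.left n133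
theorem n132 : Inf par b132_0 :=
  Inf.empty (by decide +kernel)
theorem n132_0 : Inf par a132_0 :=
  Inf.steps hw _ b132_0 s132_0 c132_0 pt4.right.right.right.right.right.right.right.right.right.right.right.right.right.right.right.right.left n132
theorem n131 : Inf par b131_0 :=
  Inf.empty (by decide +kernel)
theorem n131_0 : Inf par a131_0 :=
  Inf.steps hw _ b131_0 s131_0 c131_0 pt4.right.right.right.right.right.right.right.right.right.right.right.right.right.right.right.left n131
theorem n130 : Inf par b130_0 :=
  Inf.spG 3 ⟨357731063,0,0⟩ (Inf.cast n131_0 (by decide +kernel)) (Inf.cast n132_0 (by decide +kernel))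
theorem n130_0 : Inf par a130_0 :=
  Inf.steps hw _ b130_0 s130_0 c130_0 pt4.right.right.right.right.right.right.right.right.right.right.right.right.right.right.left n130
theorem n129 : Inf par b129_0 :=
  Inf.spG 7 ⟨585907779,0,0⟩ (Inf.cast n130_0 (by decide +kernel)) (Inf.cast n133_0 (by decide +kernel))
theorem n129_0 : Inf par a129_0 :=
  Inf.steps hw _ b129_0 s129_0 c129_0 pt4.right.right.right.right.right.right.right.right.right.right.right.right.right.left n129
theorem n128 : Inf par b128_0 :=
  Inf.empty (by decide +kernel)
theorem n128_0 : Inf par a128_0 :=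
  Inf.steps hw _ b128_0 s128_0 c128_0 pt4.right.right.right.right.right.right.right.right.right.right.right.right.left n128
theorem n127 : Inf par b127_0 :=
  Inf.empty (by decide +kernel)
theorem n127_0 : Inf par a127_0 :=
  Inf.steps hw _ b127_0 s127_0 c127_0 pt4.right.right.right.right.right.right.right.right.right.right.right.left n127
theorem n126 : Inf par b126_0 :=
  Inf.spG 6 ⟨545880844,0,0⟩ (Inf.cast n127_0 (by decide +kernel)) (Inf.cast n128_0 (by decide +kernel))
theorem n126_0 : Inf par a126_0 :=
  Inf.steps hw _ b126_0 s126_0 c126_0 pt4.right.right.right.right.right.right.right.right.right.right.left n126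
theorem n125 : Inf par b125_0 :=
  Inf.empty (by decide +kernel)
theorem n125_0 : Inf par a125_0 :=
  Inf.steps hw _ b125_0 s125_0 c125_0 pt4.right.right.right.right.right.right.right.right.right.left n125
theorem n124 : Inf par b124_0 :=
  Inf.empty (by decide +kernel)
theorem n124_0 : Inf par a124_0 :=
  Inf.steps hw _ b124_0 s124_0 c124_0 pt4.right.right.right.right.right.right.right.right.left n124
theorem n123 : Inf par b123_0 :=
  Inf.spG 5 ⟨503615544,0,0⟩ (Inf.cast n124_0 (by decide +kernel)) (Inf.cast n125_0 (by decide +kernel))
theorem n123_0 : Inf par a123_0 :=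
  Inf.steps hw _ b123_0 s123_0 c123_0 pt4.right.right.right.right.right.right.right.left n123
theorem n122 : Inf par b122_0 :=
  Inf.spG 3 ⟨352118090,0,0⟩ (Inf.cast n123_0 (by decide +kernel)) (Inf.cast n126_0 (by decide +kernel))
theorem n122_0 : Inf par a122_0 :=
  Inf.steps hw _ b122_0 s122_0 c122_0 pt4.right.right.right.right.right.right.left n122
theorem n121 : Inf par b121_0 :=
  Inf.spG 7 ⟨577734793,0,0⟩ (Inf.cast n122_0 (by decide +kernel)) (Inf.cast n129_0 (by decide +kernel))
theorem n121_0 : Inf par a121_0 :=
  Inf.steps hw _ b121_0 s121_0 c121_0 pt4.right.right.right.right.right.left n121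
theorem n120 : Inf par b120_0 :=
  Inf.spG 7 ⟨594080766,0,0⟩ (Inf.cast n121_0 (by decide +kernel)) (Inf.cast n136_0 (by decide +kernel))
theorem n120_0 : Inf par a120_0 :=
  Inf.steps hw _ b120_0 s120_0 c120_0 pt4.right.right.right.right.left n120
theorem n119 : Inf par b119_0 :=
  Inf.spG 5 ⟨559147561,0,0⟩ (Inf.cast n120_0 (by decide +kernel)) (Inf.cast n157_0 (by decide +kernel))
theorem n119_0 : Inf par a119_0 :=
  Inf.steps hw _ b119_0 s119_0 c119_0 pt4.right.right.right.left n119
theorem n118 : Inf par b118_0 :=
  Inf.spG 4 ⟨563158310,0,0⟩ (Inf.cast n119_0 (by decide +kernel)) (Inf.cast n206_0 (by decide +kernel))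
theorem n118_0 : Inf par a118_0 :=
  Inf.steps hw _ b118_0 s118_0 c118_0 pt4.right.right.left n118
theorem n117 : Inf par b117_0 :=
  Inf.spG 4 ⟨675789972,0,0⟩ (Inf.cast n118_0 (by decide +kernel)) (Inf.cast n337_0 (by decide +kernel))
theorem n117_0 : Inf par a117_0 :=
  Inf.steps hw _ b117_0 s117_0 c117_0 pt4.right.left n117
theorem n116 : Inf par b116_0 :=
  Inf.empty (by decide +kernel)
theorem n116_0 : Inf par a116_0 :=
  Inf.steps hw _ b116_0 s116_0 c116_0 pt4.left n116
theorem n115 : Inf par b115_0 :=
  Inf.empty (by decide +kernel)
theorem n115_0 : Inf par a115_0 :=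
  Inf.steps hw _ b115_0 s115_0 c115_0 pt3.right.right.right.right.right.right.right.right.right.right.right.right.right.right.right.right.right.right.right.right.right.right.right.right n115
theorem n114 : Inf par b114_0 :=
  Inf.empty (by decide +kernel)
theorem n114_0 : Inf par a114_0 :=
  Inf.steps hw _ b114_0 s114_0 c114_0 pt3.right.right.right.right.right.right.right.right.right.right.right.right.right.right.right.right.right.right.right.right.right.right.right.left n114
theorem n113 : Inf par b113_0 :=
  Inf.spG 3 ⟨341119770,0,0⟩ (Inf.cast n114_0 (by decide +kernel)) (Inf.cast n115_0 (by decide +kernel))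
theorem n113_0 : Inf par a113_0 :=
  Inf.steps hw _ b113_0 s113_0 c113_0 pt3.right.right.right.right.right.right.right.right.right.right.right.right.right.right.right.right.right.right.right.right.right.right.left n113
theorem n112 : Inf par b112_0 :=
  Inf.spG 5 ⟨494598415,0,0⟩ (Inf.cast n113_0 (by decide +kernel)) (Inf.cast n116_0 (by decide +kernel))
theorem n112_0 : Inf par a112_0 :=
  Inf.steps hw _ b112_0 s112_0 c112_0 pt3.right.right.right.right.right.right.right.right.right.right.right.right.right.right.right.right.right.right.right.right.right.left n112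
theorem n111 : Inf par b111_0 :=
  Inf.empty (by decide +kernel)
theorem n111_0 : Inf par a111_0 :=
  Inf.steps hw _ b111_0 s111_0 c111_0 pt3.right.right.right.right.right.right.right.right.right.right.right.right.right.right.right.right.right.right.right.right.left n111
theorem n110 : Inf par b110_0 :=
  Inf.empty (by decide +kernel)
theorem n110_0 : Inf par a110_0 :=
  Inf.steps hw _ b110_0 s110_0 c110_0 pt3.right.right.right.right.right.right.right.right.right.right.right.right.right.right.right.right.right.right.right.left n110
theorem n109 : Inf par b109_0 :=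
  Inf.spG 3 ⟨335089141,0,0⟩ (Inf.cast n110_0 (by decide +kernel)) (Inf.cast n111_0 (by decide +kernel))
theorem n109_0 : Inf par a109_0 :=
  Inf.steps hw _ b109_0 s109_0 c109_0 pt3.right.right.right.right.right.right.right.right.right.right.right.right.right.right.right.right.right.right.left n109
theorem n108 : Inf par b108_0 :=
  Inf.empty (by decide +kernel)
theorem n108_0 : Inf par a108_0 :=
  Inf.steps hw _ b108_0 s108_0 c108_0 pt3.right.right.right.right.right.right.right.right.right.right.right.right.right.right.right.right.right.left n108
theorem n107 : Inf par b107_0 :=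
  Inf.empty (by decide +kernel)
theorem n107_0 : Inf par a107_0 :=
  Inf.steps hw _ b107_0 s107_0 c107_0 pt3.right.right.right.right.right.right.right.right.right.right.right.right.right.right.right.right.left n107
theorem n106 : Inf par b106_0 :=
  Inf.spG 6 ⟨509450563,0,0⟩ (Inf.cast n107_0 (by decide +kernel)) (Inf.cast n108_0 (by decide +kernel))
theorem n106_0 : Inf par a106_0 :=
  Inf.steps hw _ b106_0 s106_0 c106_0 pt3.right.right.right.right.right.right.right.right.right.right.right.right.right.right.right.left n106
theorem n105 : Inf par b105_0 :=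
  Inf.spG 7 ⟨540971435,0,0⟩ (Inf.cast n106_0 (by decide +kernel)) (Inf.cast n109_0 (by decide +kernel))
theorem n105_0 : Inf par a105_0 :=
  Inf.steps hw _ b105_0 s105_0 c105_0 pt3.right.right.right.right.right.right.right.right.right.right.right.right.right.right.left n105
theorem n104 : Inf par b104_0 :=
  Inf.spG 5 ⟨486747647,0,0⟩ (Inf.cast n105_0 (by decide +kernel)) (Inf.cast n112_0 (by decide +kernel))
theorem n104_0 : Inf par a104_0 :=
  Inf.steps hw _ b104_0 s104_0 c104_0 pt3.right.right.right.right.right.right.right.right.right.right.right.right.right.left n104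
theorem n103 : Inf par b103_0 :=
  Inf.empty (by decide +kernel)
theorem n103_0 : Inf par a103_0 :=
  Inf.steps hw _ b103_0 s103_0 c103_0 pt3.right.right.right.right.right.right.right.right.right.right.right.right.left n103
theorem n102 : Inf par b102_0 :=
  Inf.empty (by decide +kernel)
theorem n102_0 : Inf par a102_0 :=
  Inf.steps hw _ b102_0 s102_0 c102_0 pt3.right.right.right.right.right.right.right.right.right.right.right.left n102
theorem n101 : Inf par b101_0 :=
  Inf.spG 6 ⟨503076184,0,0⟩ (Inf.cast n102_0 (by decide +kernel)) (Inf.cast n103_0 (by decide +kernel))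
theorem n101_0 : Inf par a101_0 :=
  Inf.steps hw _ b101_0 s101_0 c101_0 pt3.right.right.right.right.right.right.right.right.right.right.left n101
theorem n100 : Inf par b100_0 :=
  Inf.empty (by decide +kernel)
theorem n100_0 : Inf par a100_0 :=
  Inf.steps hw _ b100_0 s100_0 c100_0 pt3.right.right.right.right.right.right.right.right.right.left n100
theorem n99 : Inf par b99_0 :=
  Inf.empty (by decide +kernel)
theorem n99_0 : Inf par a99_0 :=
  Inf.steps hw _ b99_0 s99_0 c99_0 pt3.right.right.right.right.right.right.right.right.left n99
theorem n98 : Inf par b98_0 :=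
  Inf.spG 3 ⟨318286186,0,0⟩ (Inf.cast n99_0 (by decide +kernel)) (Inf.cast n100_0 (by decide +kernel))
theorem n98_0 : Inf par a98_0 :=
  Inf.steps hw _ b98_0 s98_0 c98_0 pt3.right.right.right.right.right.right.right.left n98
theorem n97 : Inf par b97_0 :=
  Inf.spG 7 ⟨524236860,0,0⟩ (Inf.cast n98_0 (by decide +kernel)) (Inf.cast n101_0 (by decide +kernel))
theorem n97_0 : Inf par a97_0 :=
  Inf.steps hw _ b97_0 s97_0 c97_0 pt3.right.right.right.right.right.right.left n97
theorem n96 : Inf par b96_0 :=
  Inf.empty (by decide +kernel)
theorem n96_0 : Inf par a96_0 :=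
  Inf.steps hw _ b96_0 s96_0 c96_0 pt3.right.right.right.right.right.left n96
theorem n95 : Inf par b95_0 :=
  Inf.empty (by decide +kernel)
theorem n95_0 : Inf par a95_0 :=
  Inf.steps hw _ b95_0 s95_0 c95_0 pt3.right.right.right.right.left n95
theorem n94 : Inf par b94_0 :=
  Inf.spG 5 ⟨451441348,0,0⟩ (Inf.cast n95_0 (by decide +kernel)) (Inf.cast n96_0 (by decide +kernel))
theorem n94_0 : Inf par a94_0 :=
  Inf.steps hw _ b94_0 s94_0 c94_0 pt3.right.right.right.left n94
theorem n93 : Inf par b93_0 :=
  Inf.empty (by decide +kernel)
theorem n93_0 : Inf par a93_0 :=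
  Inf.steps hw _ b93_0 s93_0 c93_0 pt3.right.right.left n93
theorem n92 : Inf par b92_0 :=
  Inf.empty (by decide +kernel)
theorem n92_0 : Inf par a92_0 :=
  Inf.steps hw _ b92_0 s92_0 c92_0 pt3.right.left n92
theorem n91 : Inf par b91_0 :=
  Inf.spG 6 ⟨474822757,0,0⟩ (Inf.cast n92_0 (by decide +kernel)) (Inf.cast n93_0 (by decide +kernel))
theorem n91_0 : Inf par a91_0 :=
  Inf.steps hw _ b91_0 s91_0 c91_0 pt3.left n91
theorem n90 : Inf par b90_0 :=
  Inf.spG 7 ⟨504423934,0,0⟩ (Inf.cast n91_0 (by decide +kernel)) (Inf.cast n94_0 (by decide +kernel))
theorem n90_0 : Inf par a90_0 :=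
  Inf.steps hw _ b90_0 s90_0 c90_0 pt2.right.right.right.right.right.right.right.right.right.right.right.right.right.right.right.right.right.right.right.right.right.right.right.right.right.right.right.right.right n90
theorem n89 : Inf par b89_0 :=
  Inf.spG 7 ⟨514330397,0,0⟩ (Inf.cast n90_0 (by decide +kernel)) (Inf.cast n97_0 (by decide +kernel))
theorem n89_0 : Inf par a89_0 :=
  Inf.steps hw _ b89_0 s89_0 c89_0 pt2.right.right.right.right.right.right.right.right.right.right.right.right.right.right.right.right.right.right.right.right.right.right.right.right.right.right.right.right.left n89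
theorem n88 : Inf par b88_0 :=
  Inf.spG 5 ⟨471046110,0,0⟩ (Inf.cast n89_0 (by decide +kernel)) (Inf.cast n104_0 (by decide +kernel))
theorem n88_0 : Inf par a88_0 :=
  Inf.steps hw _ b88_0 s88_0 c88_0 pt2.right.right.right.right.right.right.right.right.right.right.right.right.right.right.right.right.right.right.right.right.right.right.right.right.right.right.right.left n88
theorem n87 : Inf par b87_1 :=
  Inf.empty (by decide +kernel)
theorem n87_1 : Inf par a87_1 :=
  Inf.steps hw _ b87_1 s87_1 c87_1 pt2.right.right.right.right.right.right.right.right.right.right.right.right.right.right.right.right.right.right.right.right.right.right.right.right.right.right.left n87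
theorem n87_0 : Inf par a87_0 :=
  Inf.steps hw _ b87_0 s87_0 c87_0 pt2.right.right.right.right.right.right.right.right.right.right.right.right.right.right.right.right.right.right.right.right.right.right.right.right.right.left (Inf.cast n87_1 (by decide +kernel))
theorem n86 : Inf par b86_0 :=
  Inf.empty (by decide +kernel)
theorem n86_0 : Inf par a86_0 :=
  Inf.steps hw _ b86_0 s86_0 c86_0 pt2.right.right.right.right.right.right.right.right.right.right.right.right.right.right.right.right.right.right.right.right.right.right.right.right.left n86
theorem n85 : Inf par b85_0 :=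
  Inf.empty (by decide +kernel)
theorem n85_0 : Inf par a85_0 :=
  Inf.steps hw _ b85_0 s85_0 c85_0 pt2.right.right.right.right.right.right.right.right.right.right.right.right.right.right.right.right.right.right.right.right.right.right.right.left n85
theorem n84 : Inf par b84_0 :=
  Inf.spG 5 ⟨428889718,0,0⟩ (Inf.cast n85_0 (by decide +kernel)) (Inf.cast n86_0 (by decide +kernel))
theorem n84_0 : Inf par a84_0 :=
  Inf.steps hw _ b84_0 s84_0 c84_0 pt2.right.right.right.right.right.right.right.right.right.right.right.right.right.right.right.right.right.right.right.right.right.right.left n84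
theorem n83 : Inf par b83_0 :=
  Inf.spG 7 ⟨488604946,0,0⟩ (Inf.cast n84_0 (by decide +kernel)) (Inf.cast n87_0 (by decide +kernel))
theorem n83_0 : Inf par a83_0 :=
  Inf.steps hw _ b83_0 s83_0 c83_0 pt2.right.right.right.right.right.right.right.right.right.right.right.right.right.right.right.right.right.right.right.right.right.left n83
theorem n82 : Inf par b82_0 :=
  Inf.empty (by decide +kernel)
theorem n82_0 : Inf par a82_0 :=
  Inf.steps hw _ b82_0 s82_0 c82_0 pt2.right.right.right.right.right.right.right.right.right.right.right.right.right.right.right.right.right.right.right.right.left n82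
theorem n81 : Inf par b81_0 :=
  Inf.empty (by decide +kernel)
theorem n81_0 : Inf par a81_0 :=
  Inf.steps hw _ b81_0 s81_0 c81_0 pt2.right.right.right.right.right.right.right.right.right.right.right.right.right.right.right.right.right.right.right.left n81
theorem n80 : Inf par b80_0 :=
  Inf.spG 5 ⟨420907844,0,0⟩ (Inf.cast n81_0 (by decide +kernel)) (Inf.cast n82_0 (by decide +kernel))
theorem n80_0 : Inf par a80_0 :=
  Inf.steps hw _ b80_0 s80_0 c80_0 pt2.right.right.right.right.right.right.right.right.right.right.right.right.right.right.right.right.right.right.left n80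
theorem n79 : Inf par b79_0 :=
  Inf.empty (by decide +kernel)
theorem n79_0 : Inf par a79_0 :=
  Inf.steps hw _ b79_0 s79_0 c79_0 pt2.right.right.right.right.right.right.right.right.right.right.right.right.right.right.right.right.right.left n79
theorem n78 : Inf par b78_0 :=
  Inf.empty (by decide +kernel)
theorem n78_0 : Inf par a78_0 :=
  Inf.steps hw _ b78_0 s78_0 c78_0 pt2.right.right.right.right.right.right.right.right.right.right.right.right.right.right.right.right.left n78
theorem n77 : Inf par b77_0 :=
  Inf.spG 5 ⟨412283224,0,0⟩ (Inf.cast n78_0 (by decide +kernel)) (Inf.cast n79_0 (by decide +kernel))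
theorem n77_0 : Inf par a77_0 :=
  Inf.steps hw _ b77_0 s77_0 c77_0 pt2.right.right.right.right.right.right.right.right.right.right.right.right.right.right.right.left n77
theorem n76 : Inf par b76_0 :=
  Inf.spG 7 ⟨469713279,0,0⟩ (Inf.cast n77_0 (by decide +kernel)) (Inf.cast n80_0 (by decide +kernel))
theorem n76_0 : Inf par a76_0 :=
  Inf.steps hw _ b76_0 s76_0 c76_0 pt2.right.right.right.right.right.right.right.right.right.right.right.right.right.right.left n76
theorem n75 : Inf par b75_0 :=
  Inf.spG 7 ⟨479159113,0,0⟩ (Inf.cast n76_0 (by decide +kernel)) (Inf.cast n83_0 (by decide +kernel))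
theorem n75_0 : Inf par a75_0 :=
  Inf.steps hw _ b75_0 s75_0 c75_0 pt2.right.right.right.right.right.right.right.right.right.right.right.right.right.left n75
theorem n74 : Inf par b74_0 :=
  Inf.empty (by decide +kernel)
theorem n74_0 : Inf par a74_0 :=
  Inf.steps hw _ b74_0 s74_0 c74_0 pt2.right.right.right.right.right.right.right.right.right.right.right.right.left n74
theorem n73 : Inf par b73_0 :=
  Inf.empty (by decide +kernel)
theorem n73_0 : Inf par a73_0 :=
  Inf.steps hw _ b73_0 s73_0 c73_0 pt2.right.right.right.right.right.right.right.right.right.right.right.left n73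
theorem n72 : Inf par b72_0 :=
  Inf.spG 5 ⟨404537720,0,0⟩ (Inf.cast n73_0 (by decide +kernel)) (Inf.cast n74_0 (by decide +kernel))
theorem n72_0 : Inf par a72_0 :=
  Inf.steps hw _ b72_0 s72_0 c72_0 pt2.right.right.right.right.right.right.right.right.right.right.left n72
theorem n71 : Inf par b71_1 :=
  Inf.empty (by decide +kernel)
theorem n71_1 : Inf par a71_1 :=
  Inf.steps hw _ b71_1 s71_1 c71_1 pt2.right.right.right.right.right.right.right.right.right.left n71
theorem n71_0 : Inf par a71_0 :=
  Inf.steps hw _ b71_0 s71_0 c71_0 pt2.right.right.right.right.right.right.right.right.left (Inf.cast n71_1 (by decide +kernel))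
theorem n70 : Inf par b70_0 :=
  Inf.spG 7 ⟨450821612,0,0⟩ (Inf.cast n71_0 (by decide +kernel)) (Inf.cast n72_0 (by decide +kernel))
theorem n70_0 : Inf par a70_0 :=
  Inf.steps hw _ b70_0 s70_0 c70_0 pt2.right.right.right.right.right.right.right.left n70
theorem n69 : Inf par b69_0 :=
  Inf.empty (by decide +kernel)
theorem n69_0 : Inf par a69_0 :=
  Inf.steps hw _ b69_0 s69_0 c69_0 pt2.right.right.right.right.right.right.left n69
theorem n68 : Inf par b68_0 :=
  Inf.empty (by decide +kernel)
theorem n68_0 : Inf par a68_0 :=
  Inf.steps hw _ b68_0 s68_0 c68_0 pt2.right.right.right.right.right.left n68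
theorem n67 : Inf par b67_0 :=
  Inf.spG 7 ⟨431929945,0,0⟩ (Inf.cast n68_0 (by decide +kernel)) (Inf.cast n69_0 (by decide +kernel))
theorem n67_0 : Inf par a67_0 :=
  Inf.steps hw _ b67_0 s67_0 c67_0 pt2.right.right.right.right.left n67
theorem n66 : Inf par b66_0 :=
  Inf.spG 7 ⟨441375779,0,0⟩ (Inf.cast n67_0 (by decide +kernel)) (Inf.cast n70_0 (by decide +kernel))
theorem n66_0 : Inf par a66_0 :=
  Inf.steps hw _ b66_0 s66_0 c66_0 pt2.right.right.right.left n66
theorem n65 : Inf par b65_0 :=
  Inf.spG 7 ⟨460267446,0,0⟩ (Inf.cast n66_0 (by decide +kernel)) (Inf.cast n75_0 (by decide +kernel))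
theorem n65_0 : Inf par a65_0 :=
  Inf.steps hw _ b65_0 s65_0 c65_0 pt2.right.right.left n65
theorem n64 : Inf par b64_0 :=
  Inf.spG 5 ⟨439643036,0,0⟩ (Inf.cast n65_0 (by decide +kernel)) (Inf.cast n88_0 (by decide +kernel))
theorem n64_0 : Inf par a64_0 :=
  Inf.steps hw _ b64_0 s64_0 c64_0 pt2.right.left n64
theorem n63 : Inf par b63_0 :=
  Inf.empty (by decide +kernel)
theorem n63_0 : Inf par a63_0 :=
  Inf.steps hw _ b63_0 s63_0 c63_0 pt2.left n63
theorem n62 : Inf par b62_0 :=
  Inf.empty (by decide +kernel)
theorem n62_0 : Inf par a62_0 :=
  Inf.steps hw _ b62_0 s62_0 c62_0 pt1.right.right.right.right.right.right.right.right.right.right.right.right.right.right.right.right.right.right.right.right.right.right.right.right.right.right.right.right.right.right n62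
theorem n61 : Inf par b61_0 :=
  Inf.spG 7 ⟨416530404,0,0⟩ (Inf.cast n62_0 (by decide +kernel)) (Inf.cast n63_0 (by decide +kernel))
theorem n61_0 : Inf par a61_0 :=
  Inf.steps hw _ b61_0 s61_0 c61_0 pt1.right.right.right.right.right.right.right.right.right.right.right.right.right.right.right.right.right.right.right.right.right.right.right.right.right.right.right.right.right.left n61
theorem n60 : Inf par b60_0 :=
  Inf.empty (by decide +kernel)
theorem n60_0 : Inf par a60_0 :=
  Inf.steps hw _ b60_0 s60_0 c60_0 pt1.right.right.right.right.right.right.right.right.right.right.right.right.right.right.right.right.right.right.right.right.right.right.right.right.right.right.right.right.left n60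
theorem n59 : Inf par b59_0 :=
  Inf.empty (by decide +kernel)
theorem n59_0 : Inf par a59_0 :=
  Inf.steps hw _ b59_0 s59_0 c59_0 pt1.right.right.right.right.right.right.right.right.right.right.right.right.right.right.right.right.right.right.right.right.right.right.right.right.right.right.right.left n59
theorem n58 : Inf par b58_0 :=
  Inf.spG 7 ⟨398079424,0,0⟩ (Inf.cast n59_0 (by decide +kernel)) (Inf.cast n60_0 (by decide +kernel))
theorem n58_0 : Inf par a58_0 :=
  Inf.steps hw _ b58_0 s58_0 c58_0 pt1.right.right.right.right.right.right.right.right.right.right.right.right.right.right.right.right.right.right.right.right.right.right.right.right.right.right.left n58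
theorem n57 : Inf par b57_0 :=
  Inf.spG 7 ⟨407304914,0,0⟩ (Inf.cast n58_0 (by decide +kernel)) (Inf.cast n61_0 (by decide +kernel))
theorem n57_0 : Inf par a57_0 :=
  Inf.steps hw _ b57_0 s57_0 c57_0 pt1.right.right.right.right.right.right.right.right.right.right.right.right.right.right.right.right.right.right.right.right.right.right.right.right.right.left n57
theorem n56 : Inf par b56_0 :=
  Inf.empty (by decide +kernel)
theorem n56_0 : Inf par a56_0 :=
  Inf.steps hw _ b56_0 s56_0 c56_0 pt1.right.right.right.right.right.right.right.right.right.right.right.right.right.right.right.right.right.right.right.right.right.right.right.right.left n56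
theorem n55 : Inf par b55_0 :=
  Inf.empty (by decide +kernel)
theorem n55_0 : Inf par a55_0 :=
  Inf.steps hw _ b55_0 s55_0 c55_0 pt1.right.right.right.right.right.right.right.right.right.right.right.right.right.right.right.right.right.right.right.right.right.right.right.left n55
theorem n54 : Inf par b54_0 :=
  Inf.spG 7 ⟨379628443,0,0⟩ (Inf.cast n55_0 (by decide +kernel)) (Inf.cast n56_0 (by decide +kernel))
theorem n54_0 : Inf par a54_0 :=
  Inf.steps hw _ b54_0 s54_0 c54_0 pt1.right.right.right.right.right.right.right.right.right.right.right.right.right.right.right.right.right.right.right.right.right.right.left n54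
theorem n53 : Inf par b53_0 :=
  Inf.empty (by decide +kernel)
theorem n53_0 : Inf par a53_0 :=
  Inf.steps hw _ b53_0 s53_0 c53_0 pt1.right.right.right.right.right.right.right.right.right.right.right.right.right.right.right.right.right.right.right.right.right.left n53
theorem n52 : Inf par b52_0 :=
  Inf.empty (by decide +kernel)
theorem n52_0 : Inf par a52_0 :=
  Inf.steps hw _ b52_0 s52_0 c52_0 pt1.right.right.right.right.right.right.right.right.right.right.right.right.right.right.right.right.right.right.right.right.left n52
theorem n51 : Inf par b51_0 :=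
  Inf.spG 7 ⟨361177463,0,0⟩ (Inf.cast n52_0 (by decide +kernel)) (Inf.cast n53_0 (by decide +kernel))
theorem n51_0 : Inf par a51_0 :=
  Inf.steps hw _ b51_0 s51_0 c51_0 pt1.right.right.right.right.right.right.right.right.right.right.right.right.right.right.right.right.right.right.right.left n51
theorem n50 : Inf par b50_0 :=
  Inf.spG 7 ⟨370402953,0,0⟩ (Inf.cast n51_0 (by decide +kernel)) (Inf.cast n54_0 (by decide +kernel))
theorem n50_0 : Inf par a50_0 :=
  Inf.steps hw _ b50_0 s50_0 c50_0 pt1.right.right.right.right.right.right.right.right.right.right.right.right.right.right.right.right.right.right.left n50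
theorem n49 : Inf par b49_0 :=
  Inf.spG 7 ⟨388853934,0,0⟩ (Inf.cast n50_0 (by decide +kernel)) (Inf.cast n57_0 (by decide +kernel))
theorem n49_0 : Inf par a49_0 :=
  Inf.steps hw _ b49_0 s49_0 c49_0 pt1.right.right.right.right.right.right.right.right.right.right.right.right.right.right.right.right.right.left n49
theorem n48 : Inf par b48_0 :=
  Inf.empty (by decide +kernel)
theorem n48_0 : Inf par a48_0 :=
  Inf.steps hw _ b48_0 s48_0 c48_0 pt1.right.right.right.right.right.right.right.right.right.right.right.right.right.right.right.right.left n48
theorem n47 : Inf par b47_0 :=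
  Inf.empty (by decide +kernel)
theorem n47_0 : Inf par a47_0 :=
  Inf.steps hw _ b47_0 s47_0 c47_0 pt1.right.right.right.right.right.right.right.right.right.right.right.right.right.right.right.left n47
theorem n46 : Inf par b46_0 :=
  Inf.spG 7 ⟨344462631,0,0⟩ (Inf.cast n47_0 (by decide +kernel)) (Inf.cast n48_0 (by decide +kernel))
theorem n46_0 : Inf par a46_0 :=
  Inf.steps hw _ b46_0 s46_0 c46_0 pt1.right.right.right.right.right.right.right.right.right.right.right.right.right.right.left n46
theorem n45 : Inf par b45_0 :=
  Inf.empty (by decide +kernel)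
theorem n45_0 : Inf par a45_0 :=
  Inf.steps hw _ b45_0 s45_0 c45_0 pt1.right.right.right.right.right.right.right.right.right.right.right.right.right.left n45
theorem n44 : Inf par b44_0 :=
  Inf.empty (by decide +kernel)
theorem n44_0 : Inf par a44_0 :=
  Inf.steps hw _ b44_0 s44_0 c44_0 pt1.right.right.right.right.right.right.right.right.right.right.right.right.left n44
theorem n43 : Inf par b43_0 :=
  Inf.spG 7 ⟨326080380,0,0⟩ (Inf.cast n44_0 (by decide +kernel)) (Inf.cast n45_0 (by decide +kernel))
theorem n43_0 : Inf par a43_0 :=
  Inf.steps hw _ b43_0 s43_0 c43_0 pt1.right.right.right.right.right.right.right.right.right.right.right.left n43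
theorem n42 : Inf par b42_0 :=
  Inf.spG 7 ⟨335271506,0,0⟩ (Inf.cast n43_0 (by decide +kernel)) (Inf.cast n46_0 (by decide +kernel))
theorem n42_0 : Inf par a42_0 :=
  Inf.steps hw _ b42_0 s42_0 c42_0 pt1.right.right.right.right.right.right.right.right.right.right.left n42
theorem n41 : Inf par b41_0 :=
  Inf.empty (by decide +kernel)
theorem n41_0 : Inf par a41_0 :=
  Inf.steps hw _ b41_0 s41_0 c41_0 pt1.right.right.right.right.right.right.right.right.right.left n41
theorem n40 : Inf par b40_0 :=
  Inf.empty (by decide +kernel)
theorem n40_0 : Inf par a40_0 :=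
  Inf.steps hw _ b40_0 s40_0 c40_0 pt1.right.right.right.right.right.right.right.right.left n40
theorem n39 : Inf par b39_0 :=
  Inf.spG 7 ⟨307698129,0,0⟩ (Inf.cast n40_0 (by decide +kernel)) (Inf.cast n41_0 (by decide +kernel))
theorem n39_0 : Inf par a39_0 :=
  Inf.steps hw _ b39_0 s39_0 c39_0 pt1.right.right.right.right.right.right.right.left n39
theorem n38 : Inf par b38_0 :=
  Inf.empty (by decide +kernel)
theorem n38_0 : Inf par a38_0 :=
  Inf.steps hw _ b38_0 s38_0 c38_0 pt1.right.right.right.right.right.right.left n38
theorem n37 : Inf par b37_0 :=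
  Inf.empty (by decide +kernel)
theorem n37_0 : Inf par a37_0 :=
  Inf.steps hw _ b37_0 s37_0 c37_0 pt1.right.right.right.right.right.left n37
theorem n36 : Inf par b36_0 :=
  Inf.spG 7 ⟨289315878,0,0⟩ (Inf.cast n37_0 (by decide +kernel)) (Inf.cast n38_0 (by decide +kernel))
theorem n36_0 : Inf par a36_0 :=
  Inf.steps hw _ b36_0 s36_0 c36_0 pt1.right.right.right.right.left n36
theorem n35 : Inf par b35_0 :=
  Inf.spG 7 ⟨298507004,0,0⟩ (Inf.cast n36_0 (by decide +kernel)) (Inf.cast n39_0 (by decide +kernel))
theorem n35_0 : Inf par a35_0 :=
  Inf.steps hw _ b35_0 s35_0 c35_0 pt1.right.right.right.left n35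
theorem n34 : Inf par b34_0 :=
  Inf.spG 7 ⟨316889255,0,0⟩ (Inf.cast n35_0 (by decide +kernel)) (Inf.cast n42_0 (by decide +kernel))
theorem n34_0 : Inf par a34_0 :=
  Inf.steps hw _ b34_0 s34_0 c34_0 pt1.right.right.left n34
theorem n33 : Inf par b33_0 :=
  Inf.spG 5 ⟨314030740,0,0⟩ (Inf.cast n34_0 (by decide +kernel)) (Inf.cast n49_0 (by decide +kernel))
theorem n33_0 : Inf par a33_0 :=
  Inf.steps hw _ b33_0 s33_0 c33_0 pt1.right.left n33
theorem n32 : Inf par b32_0 :=
  Inf.spG 5 ⟨376836888,0,0⟩ (Inf.cast n33_0 (by decide +kernel)) (Inf.cast n64_0 (by decide +kernel))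
theorem n32_0 : Inf par a32_0 :=
  Inf.steps hw _ b32_0 s32_0 c32_0 pt1.left n32
theorem n31 : Inf par b31_0 :=
  Inf.empty (by decide +kernel)
theorem n31_0 : Inf par a31_0 :=
  Inf.steps hw _ b31_0 s31_0 c31_0 pt0.right.right.right.right.right.right.right.right.right.right.right.right.right.right.right.right.right.right.right.right.right.right.right.right.right.right.right.right.right.right.right n31
theorem n30 : Inf par b30_0 :=
  Inf.empty (by decide +kernel)
theorem n30_0 : Inf par a30_0 :=
  Inf.steps hw _ b30_0 s30_0 c30_0 pt0.right.right.right.right.right.right.right.right.right.right.right.right.right.right.right.right.right.right.right.right.right.right.right.right.right.right.right.right.right.right.left n30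
theorem n29 : Inf par b29_0 :=
  Inf.spG 7 ⟨271303146,0,0⟩ (Inf.cast n30_0 (by decide +kernel)) (Inf.cast n31_0 (by decide +kernel))
theorem n29_0 : Inf par a29_0 :=
  Inf.steps hw _ b29_0 s29_0 c29_0 pt0.right.right.right.right.right.right.right.right.right.right.right.right.right.right.right.right.right.right.right.right.right.right.right.right.right.right.right.right.right.left n29
theorem n28 : Inf par b28_0 :=
  Inf.empty (by decide +kernel)
theorem n28_0 : Inf par a28_0 :=
  Inf.steps hw _ b28_0 s28_0 c28_0 pt0.right.right.right.right.right.right.right.right.right.right.right.right.right.right.right.right.right.right.right.right.right.right.right.right.right.right.right.right.left n28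
theorem n27 : Inf par b27_0 :=
  Inf.empty (by decide +kernel)
theorem n27_0 : Inf par a27_0 :=
  Inf.steps hw _ b27_0 s27_0 c27_0 pt0.right.right.right.right.right.right.right.right.right.right.right.right.right.right.right.right.right.right.right.right.right.right.right.right.right.right.right.left n27
theorem n26 : Inf par b26_0 :=
  Inf.spG 7 ⟨249968517,0,0⟩ (Inf.cast n27_0 (by decide +kernel)) (Inf.cast n28_0 (by decide +kernel))
theorem n26_0 : Inf par a26_0 :=
  Inf.steps hw _ b26_0 s26_0 c26_0 pt0.right.right.right.right.right.right.right.right.right.right.right.right.right.right.right.right.right.right.right.right.right.right.right.right.right.right.left n26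
theorem n25 : Inf par b25_0 :=
  Inf.spG 7 ⟨260635832,0,0⟩ (Inf.cast n26_0 (by decide +kernel)) (Inf.cast n29_0 (by decide +kernel))
theorem n25_0 : Inf par a25_0 :=
  Inf.steps hw _ b25_0 s25_0 c25_0 pt0.right.right.right.right.right.right.right.right.right.right.right.right.right.right.right.right.right.right.right.right.right.right.right.right.right.left n25
theorem n24 : Inf par b24_0 :=
  Inf.empty (by decide +kernel)
theorem n24_0 : Inf par a24_0 :=
  Inf.steps hw _ b24_0 s24_0 c24_0 pt0.right.right.right.right.right.right.right.right.right.right.right.right.right.right.right.right.right.right.right.right.right.right.right.right.left n24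
theorem n23 : Inf par b23_0 :=
  Inf.empty (by decide +kernel)
theorem n23_0 : Inf par a23_0 :=
  Inf.steps hw _ b23_0 s23_0 c23_0 pt0.right.right.right.right.right.right.right.right.right.right.right.right.right.right.right.right.right.right.right.right.right.right.right.left n23
theorem n22 : Inf par b22_0 :=
  Inf.spG 7 ⟨228633888,0,0⟩ (Inf.cast n23_0 (by decide +kernel)) (Inf.cast n24_0 (by decide +kernel))
theorem n22_0 : Inf par a22_0 :=
  Inf.steps hw _ b22_0 s22_0 c22_0 pt0.right.right.right.right.right.right.right.right.right.right.right.right.right.right.right.right.right.right.right.right.right.right.left n22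
theorem n21 : Inf par b21_0 :=
  Inf.empty (by decide +kernel)
theorem n21_0 : Inf par a21_0 :=
  Inf.steps hw _ b21_0 s21_0 c21_0 pt0.right.right.right.right.right.right.right.right.right.right.right.right.right.right.right.right.right.right.right.right.right.left n21
theorem n20 : Inf par b20_0 :=
  Inf.empty (by decide +kernel)
theorem n20_0 : Inf par a20_0 :=
  Inf.steps hw _ b20_0 s20_0 c20_0 pt0.right.right.right.right.right.right.right.right.right.right.right.right.right.right.right.right.right.right.right.right.left n20
theorem n19 : Inf par b19_0 :=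
  Inf.spG 3 ⟨127394503,0,0⟩ (Inf.cast n20_0 (by decide +kernel)) (Inf.cast n21_0 (by decide +kernel))
theorem n19_0 : Inf par a19_0 :=
  Inf.steps hw _ b19_0 s19_0 c19_0 pt0.right.right.right.right.right.right.right.right.right.right.right.right.right.right.right.right.right.right.right.left n19
theorem n18 : Inf par b18_0 :=
  Inf.spG 7 ⟨217966574,0,0⟩ (Inf.cast n19_0 (by decide +kernel)) (Inf.cast n22_0 (by decide +kernel))
theorem n18_0 : Inf par a18_0 :=
  Inf.steps hw _ b18_0 s18_0 c18_0 pt0.right.right.right.right.right.right.right.right.right.right.right.right.right.right.right.right.right.right.left n18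
theorem n17 : Inf par b17_0 :=
  Inf.spG 7 ⟨239301203,0,0⟩ (Inf.cast n18_0 (by decide +kernel)) (Inf.cast n25_0 (by decide +kernel))
theorem n17_0 : Inf par a17_0 :=
  Inf.steps hw _ b17_0 s17_0 c17_0 pt0.right.right.right.right.right.right.right.right.right.right.right.right.right.right.right.right.right.left n17
theorem n16 : Inf par b16_0 :=
  Inf.empty (by decide +kernel)
theorem n16_0 : Inf par a16_0 :=
  Inf.steps hw _ b16_0 s16_0 c16_0 pt0.right.right.right.right.right.right.right.right.right.right.right.right.right.right.right.right.left n16
theorem n15 : Inf par b15_0 :=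
  Inf.empty (by decide +kernel)
theorem n15_0 : Inf par a15_0 :=
  Inf.steps hw _ b15_0 s15_0 c15_0 pt0.right.right.right.right.right.right.right.right.right.right.right.right.right.right.right.left n15
theorem n14 : Inf par b14_0 :=
  Inf.spG 3 ⟨114897989,0,0⟩ (Inf.cast n15_0 (by decide +kernel)) (Inf.cast n16_0 (by decide +kernel))
theorem n14_0 : Inf par a14_0 :=
  Inf.steps hw _ b14_0 s14_0 c14_0 pt0.right.right.right.right.right.right.right.right.right.right.right.right.right.right.left n14
theorem n13 : Inf par b13_0 :=
  Inf.empty (by decide +kernel)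
theorem n13_0 : Inf par a13_0 :=
  Inf.steps hw _ b13_0 s13_0 c13_0 pt0.right.right.right.right.right.right.right.right.right.right.right.right.right.left n13
theorem n12 : Inf par b12_0 :=
  Inf.empty (by decide +kernel)
theorem n12_0 : Inf par a12_0 :=
  Inf.steps hw _ b12_0 s12_0 c12_0 pt0.right.right.right.right.right.right.right.right.right.right.right.right.left n12
theorem n11 : Inf par b11_0 :=
  Inf.spG 3 ⟨101287445,0,0⟩ (Inf.cast n12_0 (by decide +kernel)) (Inf.cast n13_0 (by decide +kernel))
theorem n11_0 : Inf par a11_0 :=
  Inf.steps hw _ b11_0 s11_0 c11_0 pt0.right.right.right.right.right.right.right.right.right.right.right.left n11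
theorem n10 : Inf par b10_0 :=
  Inf.spG 7 ⟨175297316,0,0⟩ (Inf.cast n11_0 (by decide +kernel)) (Inf.cast n14_0 (by decide +kernel))
theorem n10_0 : Inf par a10_0 :=
  Inf.steps hw _ b10_0 s10_0 c10_0 pt0.right.right.right.right.right.right.right.right.right.right.left n10
theorem n9 : Inf par b9_0 :=
  Inf.empty (by decide +kernel)
theorem n9_0 : Inf par a9_0 :=
  Inf.steps hw _ b9_0 s9_0 c9_0 pt0.right.right.right.right.right.right.right.right.right.left n9
theorem n8 : Inf par b8_0 :=
  Inf.empty (by decide +kernel)
theorem n8_0 : Inf par a8_0 :=
  Inf.steps hw _ b8_0 s8_0 c8_0 pt0.right.right.right.right.right.right.right.right.left n8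
theorem n7 : Inf par b7_0 :=
  Inf.spG 7 ⟨143295372,0,0⟩ (Inf.cast n8_0 (by decide +kernel)) (Inf.cast n9_0 (by decide +kernel))
theorem n7_0 : Inf par a7_0 :=
  Inf.steps hw _ b7_0 s7_0 c7_0 pt0.right.right.right.right.right.right.right.left n7
theorem n6 : Inf par b6_0 :=
  Inf.empty (by decide +kernel)
theorem n6_0 : Inf par a6_0 :=
  Inf.steps hw _ b6_0 s6_0 c6_0 pt0.right.right.right.right.right.right.left n6
theorem n5 : Inf par b5_0 :=
  Inf.spG 7 ⟨132628058,0,0⟩ (Inf.cast n6_0 (by decide +kernel)) (Inf.cast n7_0 (by decide +kernel))
theorem n5_0 : Inf par a5_0 :=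
  Inf.steps hw _ b5_0 s5_0 c5_0 pt0.right.right.right.right.right.left n5
theorem n4 : Inf par b4_0 :=
  Inf.spG 7 ⟨153962687,0,0⟩ (Inf.cast n5_0 (by decide +kernel)) (Inf.cast n10_0 (by decide +kernel))
theorem n4_0 : Inf par a4_0 :=
  Inf.steps hw _ b4_0 s4_0 c4_0 pt0.right.right.right.right.left n4
theorem n3 : Inf par b3_0 :=
  Inf.spG 7 ⟨196631945,0,0⟩ (Inf.cast n4_0 (by decide +kernel)) (Inf.cast n17_0 (by decide +kernel))
theorem n3_0 : Inf par a3_0 :=
  Inf.steps hw _ b3_0 s3_0 c3_0 pt0.right.right.right.left n3
theorem n2 : Inf par b2_0 :=
  Inf.spG 5 ⟨251224592,0,0⟩ (Inf.cast n3_0 (by decide +kernel)) (Inf.cast n32_0 (by decide +kernel))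
theorem n2_0 : Inf par a2_0 :=
  Inf.steps hw _ b2_0 s2_0 c2_0 pt0.right.right.left n2
theorem n1 : Inf par b1_0 :=
  Inf.spG 4 ⟨450526648,0,0⟩ (Inf.cast n2_0 (by decide +kernel)) (Inf.cast n117_0 (by decide +kernel))
theorem n1_0 : Inf par a1_0 :=
  Inf.steps hw _ b1_0 s1_0 c1_0 pt0.right.left n1
theorem n0 : Inf par b0_0 :=
  Inf.spG 7 ⟨994432385,0,0⟩ (Inf.cast n1_0 (by decide +kernel)) (Inf.cast n446_0 (by decide +kernel))
theorem n0_0 : Inf par a0_0 :=
  Inf.steps hw _ b0_0 s0_0 c0_0 pt0.left n0

theorem main : Inf par (box0 par 2703 16384) :=
  Inf.cast n0_0 (by decide +kernel)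

end Crest.Agent.R163.b4G
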