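import Crest.Agent.R163.Q3.D.b4G.S0
import Crest.Agent.R163.Q3.D.b4G.F0
import Crest.Agent.R163.Q3.D.b4G.F1
import Crest.Agent.R163.Q3.D.b4G.F2
import Crest.Agent.R163.Q3.D.b4G.F3
import Crest.Agent.R163.Q3.D.b4G.F4
import Crest.Agent.R163.Q3.D.b4G.F5

set_option autoImplicit false
set_option maxRecDepth 100000
set_option linter.all false
set_option Elab.async false

namespace Crest.Agent.R163.b4G

theorem p0_0_0 : Ok par f0 (Box3.unit.l 0) (selB 0 C0 509258994083614058405109587582353040234859482404028200132995898774985987752978319172173743) :=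
  Ok.run hw hf0 ⟨461,25,25,1,10⟩ 58
    (.part 8589867523 (.chk false 0) (.split 0 (.part 461 (.chk false 0) (.split 0 (.part 3 (.chk false 0) (.split 0 (.chk false 0) (.chk false 0))) (.part 5 (.chk false 0) (.split 0 (.chk false 0) (.chk false 0))))) (.part 114 (.chk false 0) (.split 0 (.part 24 (.chk false 0) (.split 0 (.part 3 (.chk false 0) (.split 0 (.chk false 0) (.chk false 0))) (.part 5 (.chk false 0) (.split 0 (.chk false 0) (.chk false 0))))) (.part 15 (.chk false 0) (.split 1 (.split 0 (.chk false 0) (.split 1 (.split 0 (.split 1 (.split 0 (.chk false 0) (.chk false 0)) (.chk false 0)) (.chk false 0)) (.chk false 0))) (.chk false 0)))))))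
    (by decide +kernel)

theorem p0_0_1 : Ok par f0 (Box3.unit.r 0) (selB 0 C0 509258994083614058405109587582353040234859482404028200132995898774985987752978319172173743) :=
  Ok.run hw hf0 ⟨423,25,25,1,10⟩ 58
    (.part 3087074815 (.chk false 0) (.split 0 (.part 180480 (.chk false 0) (.split 0 (.part 16299 (.chk false 0) (.split 0 (.chk false 0) (.chk false 0))) (.part 12669 (.chk false 0) (.split 0 (.chk false 0) (.chk false 0))))) (.part 212735 (.chk false 0) (.split 0 (.split 1 (.split 0 (.part 5 (.chk false 0) (.split 1 (.split 0 (.chk false 0) (.chk false 0)) (.chk false 0))) (.chk false 0)) (.chk false 0)) (.chk false 0)))))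
    (by decide +kernel)

theorem p0_0_2 : Ok par f0 Box3.unit (selB 1 C0 509258994083614058405109587582353040234859482404028200132995898774985987752978319172173743) :=
  Ok.run hw hf0 ⟨220,25,25,1,10⟩ 58
    (.chk false 0)
    (by decide +kernel)

theorem p0_1_0 : Ok par f1 ((Box3.unit.r 0).l 0) (selB 0 (selB 0 C0 509242481397912764468582073554958888707134915513858295186177626859865281566174010310377391) 9696022889933) :=
  Ok.run hw hf1 ⟨440,25,25,1,10⟩ 58
    (.part 2684354181 (.chk false 0) (.split 0 (.part 224 (.chk false 0) (.split 1 (.chk false 0) (.split 0 (.part 13 (.chk false 0) (.split 1 (.chk false 0) (.part 1 (.chk false 0) (.split 0 (.chk false 0) (.chk false 0))))) (.part 22 (.chk false 0) (.split 1 (.chk false 0) (.split 1 (.chk false 0) (.split 0 (.chk false 0) (.chk false 0)))))))) (.part 215 (.chk false 0) (.split 1 (.chk false 0) (.part 1 (.chk false 0) (.split 1 (.chk false 0) (.split 0 (.chk false 0) (.chk false 0))))))))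
    (by decide +kernel)

theorem p0_1_1 : Ok par f1 ((Box3.unit.r 0).r 0) (selB 0 (selB 0 C0 509242481397912764468582073554958888707134915513858295186177626859865281566174010310377391) 9696022889933) :=
  Ok.run hw hf1 ⟨579,25,25,1,10⟩ 58
    (.part 3917779451 (.chk false 0) (.split 1 (.chk false 0) (.split 1 (.part 32766 (.chk false 0) (.split 0 (.chk false 0) (.chk false 0))) (.split 0 (.part 32766 (.chk false 0) (.split 0 (.chk false 0) (.chk false 0))) (.part 20519 (.chk false 0) (.split 1 (.chk false 0) (.part 16 (.chk false 0) (.split 0 (.part 235 (.chk false 0) (.split 1 (.chk false 0) (.split 0 (.chk false 0) (.chk false 0)))) (.part 125 (.chk false 0) (.split 1 (.chk false 0) (.split 0 (.chk false 0) (.part 2 (.chk false 0) (.split 1 (.chk false 0) (.split 0 (.split 1 (.chk false 0) (.split 0 (.chk false 0) (.chk false 0))) (.chk false 0)))))))))))))))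
    (by decide +kernel)

theorem p0_1_2 : Ok par f1 (Box3.unit.r 0) (selB 1 (selB 0 C0 509242481397912764468582073554958888707134915513858295186177626859865281566174010310377391) 9696022889933) :=
  Ok.run hw hf1 ⟨258,25,25,1,10⟩ 58
    (.chk false 0)
    (by decide +kernel)

theorem p0_1_3 : Ok par f1 (Box3.unit.l 0) (selB 0 C0 509242481397912764468582073554958888707134915513858295186177626859865281566174010310377391) :=
  Ok.run hw hf1 ⟨360,25,25,1,10⟩ 58
    (.part 70299890481855 (.chk false 0) (.split 0 (.chk false 0) (.part 16 (.chk false 0) (.split 0 (.chk false 0) (.part 8 (.chk false 0) (.split 1 (.chk false 0) (.split 0 (.chk false 0) (.chk false 0))))))))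
    (by decide +kernel)

theorem p0_1_4 : Ok par f1 Box3.unit (selB 1 C0 509242481397912764468582073554958888707134915513858295186177626859865281566174010310377391) :=
  Ok.run hw hf1 ⟨220,25,25,1,10⟩ 58
    (.chk false 0)
    (by decide +kernel)

theorem p0_2_0 : Ok par f2 Box3.unit C0 :=
  Ok.run hw hf2 ⟨351,25,25,1,10⟩ 58
    (.part 505280408162700453583389981502038160432980655834098908481994638886306310818791617390968831 (.chk false 0) (.split 0 (.part 8 (.chk false 0) (.split 0 (.split 1 (.part 6 (.chk false 0) (.split 0 (.chk false 0) (.chk false 0))) (.chk false 0)) (.part 1 (.chk false 0) (.split 1 (.chk false 0) (.chk false 0))))) (.chk false 0)))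
    (by decide +kernel)

theorem p0_3_0 : Ok par f3 (Box3.unit.l 0) (selB 0 C0 382959409615780368632174740865890854188543008306716847578338775130275565888732048182476767) :=
  Ok.run hw hf3 ⟨482,25,25,1,10⟩ 58
    (.part 302821901593952588005377 (.chk false 0) (.split 1 (.chk false 0) (.part 4504699138998274 (.chk false 0) (.split 0 (.part 14394524467879645712 (.chk false 0) (.split 1 (.chk false 0) (.part 16642 (.chk false 0) (.split 0 (.part 1933704959 (.chk false 0) (.split 1 (.chk false 0) (.split 0 (.part 871 (.chk false 0) (.split 1 (.chk false 0) (.part 2 (.chk false 0) (.split 0 (.chk false 0) (.chk false 0))))) (.chk false 0)))) (.part 4294958967 (.chk false 0) (.split 1 (.chk false 0) (.split 0 (.chk false 0) (.part 4 (.chk false 0) (.split 1 (.chk false 0) (.part 1 (.chk false 0) (.split 0 (.chk false 0) (.chk false 0)))))))))))) (.part 147573952589640724479 (.chk false 0) (.split 1 (.chk false 0) (.split 0 (.chk false 0) (.chk false 0))))))))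
    (by decide +kernel)

theorem p0_3_1 : Ok par f3 (Box3.unit.r 0) (selB 0 C0 382959409615780368632174740865890854188543008306716847578338775130275565888732048182476767) :=
  Ok.run hw hf3 ⟨296,25,25,1,10⟩ 58
    (.part 9671406556917033330540543 (.chk false 0) (.split 1 (.chk false 0) (.chk false 0)))
    (by decide +kernel)

theorem p0_3_2 : Ok par f3 Box3.unit (selB 1 C0 382959409615780368632174740865890854188543008306716847578338775130275565888732048182476767) :=
  Ok.run hw hf3 ⟨220,25,25,1,10⟩ 58
    (.chk false 0)
    (by decide +kernel)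

theorem p0_4_0 : Ok par f4 (Box3.unit.l 0) (selB 0 C0 275635452615803555935887721072627920212478315377076926285412996849963473148975788394020607) :=
  Ok.run hw hf4 ⟨539,25,25,1,10⟩ 58
    (.part 3075176071499386586134864895 (.chk false 0) (.split 1 (.split 0 (.part 134217215 (.chk false 0) (.split 1 (.split 0 (.chk false 0) (.chk false 0)) (.chk false 0))) (.part 8938439 (.chk false 0) (.split 1 (.split 0 (.chk false 0) (.part 17496 (.chk false 0) (.split 1 (.split 0 (.part 2045 (.chk false 0) (.split 0 (.split 1 (.split 0 (.split 1 (.split 0 (.chk false 0) (.chk false 0)) (.chk false 0)) (.chk false 0)) (.chk false 0)) (.chk false 0))) (.part 1919 (.chk false 0) (.split 1 (.split 0 (.chk false 0) (.chk false 0)) (.chk false 0)))) (.chk false 0)))) (.chk false 0)))) (.chk false 0)))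
    (by decide +kernel)

theorem p0_4_1 : Ok par f4 (Box3.unit.r 0) (selB 0 C0 275635452615803555935887721072627920212478315377076926285412996849963473148975788394020607) :=
  Ok.run hw hf4 ⟨493,25,25,1,10⟩ 58
    (.part 4365913759824810071920631425 (.chk false 0) (.split 1 (.split 1 (.split 0 (.part 64525396390944 (.chk false 0) (.split 1 (.split 0 (.part 2078455 (.chk false 0) (.split 1 (.split 0 (.part 15 (.chk false 0) (.split 1 (.split 0 (.chk false 0) (.chk false 0)) (.chk false 0))) (.chk false 0)) (.chk false 0))) (.part 4194301 (.chk false 0) (.split 1 (.split 0 (.split 1 (.split 0 (.chk false 0) (.chk false 0)) (.chk false 0)) (.chk false 0)) (.chk false 0)))) (.chk false 0))) (.part 68169586667519 (.chk false 0) (.split 1 (.split 0 (.chk false 0) (.chk false 0)) (.chk false 0)))) (.chk false 0)) (.chk false 0)))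
    (by decide +kernel)

theorem p0_4_2 : Ok par f4 Box3.unit (selB 1 C0 275635452615803555935887721072627920212478315377076926285412996849963473148975788394020607) :=
  Ok.run hw hf4 ⟨220,25,25,1,10⟩ 58
    (.chk false 0)
    (by decide +kernel)

theorem p0_5_0 : Ok par f5 Box3.unit (selB 1 C0 509204113568206492655856050392225721550709189795004305099596996783597381065011910708643839) :=
  Ok.run hw hf5 ⟨221,25,25,1,10⟩ 58
    (.chk false 0)
    (by decide +kernel)


end Crest.Agent.R163.b4G
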