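import Crest.Agent.R163.Q3.D.b4G.S0
import Crest.Agent.R163.Q3.D.b4G.F5
import Crest.Agent.R163.Q3.D.b4G.F6
import Crest.Agent.R163.Q3.D.b4G.F7
import Crest.Agent.R163.Q3.D.b4G.F8
import Crest.Agent.R163.Q3.D.b4G.F9

set_option autoImplicit false
set_option maxRecDepth 100000
set_option linter.all false
set_option Elab.async false

namespace Crest.Agent.R163.b4G

theorem p0_5_1 : Ok par f5 Box3.unit (selB 0 C0 509204113568206492655856050392225721550709189795004305099596996783597381065011910708643839) :=
  Ok.run hw hf5 ⟨434,25,25,1,10⟩ 58
    (.split 1 (.part 86297042891 (.chk false 0) (.split 1 (.part 3 (.chk false 0) (.split 0 (.part 2487206 (.chk false 0) (.split 1 (.split 0 (.part 511 (.chk false 0) (.split 1 (.split 0 (.chk false 0) (.chk false 0)) (.chk false 0))) (.part 1017 (.chk false 0) (.split 1 (.split 0 (.chk false 0) (.chk false 0)) (.chk false 0)))) (.chk false 0))) (.chk false 0))) (.part 33554427 (.chk false 0) (.split 0 (.chk false 0) (.chk false 0))))) (.part 70334057278805 (.chk false 0) (.split 0 (.chk false 0) (.part 1238 (.chk false 0) (.split 0 (.chk false 0) (.split 1 (.chk false 0) (.chk false 0)))))))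
    (by decide +kernel)

theorem p0_6_0 : Ok par f6 Box3.unit C0 :=
  Ok.run hw hf6 ⟨258,25,25,1,10⟩ 58
    (.part 509258994083621521567111422102344540262867098416484062659035112338595324940834176545849087 (.chk false 0) (.split 0 (.chk false 0) (.chk false 0)))
    (by decide +kernel)

theorem p0_7_0 : Ok par f7 Box3.unit C0 :=
  Ok.run hw hf7 ⟨325,25,25,1,10⟩ 58
    (.part 509258994083621521567111422102344540262867098416484062659035112338595324940834176544771839 (.chk false 0) (.split 0 (.chk false 0) (.part 29 (.chk false 0) (.split 1 (.chk false 0) (.split 0 (.chk false 0) (.chk false 0))))))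
    (by decide +kernel)

theorem p0_8_0 : Ok par f8 (((Box3.unit.r 0).r 1).l 0) (selB 0 (selB 0 (selB 0 C0 382942866546228044144799586717782659857893108392564387470874231142914631050751901343383551) 368230261674382736878728641818130852703463538691) 79436157419467655435888562595354894916435551) :=
  Ok.run hw hf8 ⟨504,25,25,1,10⟩ 58
    (.part 11231867561533641521643913215 (.chk false 0) (.split 1 (.part 19936368215 (.chk false 0) (.split 1 (.part 4343 (.chk false 0) (.split 0 (.part 63 (.chk false 0) (.split 0 (.part 47 (.chk false 0) (.split 1 (.chk false 0) (.split 0 (.chk false 0) (.chk false 0)))) (.part 60 (.chk false 0) (.split 1 (.chk false 0) (.part 1 (.chk false 0) (.split 0 (.chk false 0) (.chk false 0))))))) (.part 4079 (.chk false 0) (.split 1 (.chk false 0) (.split 0 (.chk false 0) (.chk false 0)))))) (.part 792765 (.chk false 0) (.split 0 (.chk false 0) (.part 1016 (.chk false 0) (.split 1 (.part 3 (.chk false 0) (.split 0 (.split 1 (.split 0 (.chk false 0) (.split 1 (.chk false 0) (.chk false 0))) (.chk false 0)) (.chk false 0))) (.chk false 0))))))) (.chk false 0)))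
    (by decide +kernel)

theorem p0_8_1 : Ok par f8 (((Box3.unit.r 0).r 1).r 0) (selB 0 (selB 0 (selB 0 C0 382942866546228044144799586717782659857893108392564387470874231142914631050751901343383551) 368230261674382736878728641818130852703463538691) 79436157419467655435888562595354894916435551) :=
  Ok.run hw hf8 ⟨522,25,25,1,10⟩ 58
    (.part 158456324987409694585027297280 (.chk false 0) (.split 1 (.part 13371049311501183 (.chk false 0) (.split 1 (.part 15464446 (.chk false 0) (.split 0 (.part 7 (.chk false 0) (.split 1 (.chk false 0) (.split 0 (.chk false 0) (.chk false 0)))) (.part 12 (.chk false 0) (.split 0 (.chk false 0) (.split 0 (.chk false 0) (.split 1 (.chk false 0) (.chk false 0))))))) (.part 16457681 (.chk false 0) (.split 0 (.chk false 0) (.part 248 (.chk false 0) (.split 0 (.chk false 0) (.split 0 (.chk false 0) (.split 1 (.chk false 0) (.part 4 (.chk false 0) (.split 0 (.chk false 0) (.split 1 (.chk false 0) (.chk false 0)))))))))))) (.chk false 0)))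
    (by decide +kernel)

theorem p0_8_2 : Ok par f8 ((Box3.unit.r 0).r 1) (selB 1 (selB 0 (selB 0 C0 382942866546228044144799586717782659857893108392564387470874231142914631050751901343383551) 368230261674382736878728641818130852703463538691) 79436157419467655435888562595354894916435551) :=
  Ok.run hw hf8 ⟨297,25,25,1,10⟩ 58
    (.chk false 0)
    (by decide +kernel)

theorem p0_8_3 : Ok par f8 ((Box3.unit.r 0).l 1) (selB 0 (selB 0 C0 382942866546228044144799586717782659857893108392564387470874231142914631050751901343383551) 368230261674382736878728641818130852703463538691) :=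
  Ok.run hw hf8 ⟨423,25,25,1,10⟩ 58
    (.part 701776529940201691197015424662604066760644085 (.chk false 0) (.split 0 (.part 5566 (.chk false 0) (.split 1 (.chk false 0) (.part 29 (.chk false 0) (.split 0 (.chk false 0) (.chk false 0))))) (.part 13441 (.chk false 0) (.split 0 (.part 95 (.chk false 0) (.split 1 (.chk false 0) (.part 5 (.chk false 0) (.split 1 (.chk false 0) (.chk false 0))))) (.part 160 (.chk false 0) (.split 1 (.chk false 0) (.part 65 (.chk false 0) (.split 0 (.chk false 0) (.split 1 (.chk false 0) (.chk false 0))))))))))
    (by decide +kernel)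

theorem p0_8_4 : Ok par f8 (Box3.unit.r 0) (selB 1 (selB 0 C0 382942866546228044144799586717782659857893108392564387470874231142914631050751901343383551) 368230261674382736878728641818130852703463538691) :=
  Ok.run hw hf8 ⟨259,25,25,1,10⟩ 58
    (.chk false 0)
    (by decide +kernel)

theorem p0_8_5 : Ok par f8 (Box3.unit.l 0) (selB 0 C0 382942866546228044144799586717782659857893108392564387470874231142914631050751901343383551) :=
  Ok.run hw hf8 ⟨344,25,25,1,10⟩ 58
    (.part 365351859745796081212883746460574838244232820424703 (.chk false 0) (.split 1 (.chk false 0) (.part 47 (.chk false 0) (.split 0 (.chk false 0) (.split 1 (.chk false 0) (.chk false 0))))))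
    (by decide +kernel)

theorem p0_8_6 : Ok par f8 Box3.unit (selB 1 C0 382942866546228044144799586717782659857893108392564387470874231142914631050751901343383551) :=
  Ok.run hw hf8 ⟨221,25,25,1,10⟩ 58
    (.chk false 0)
    (by decide +kernel)

theorem p0_9_0 : Ok par f9 (((((Box3.unit.l 0).r 1).r 0).r 1).l 0) (selB 0 (selB 0 (selB 0 (selB 0 (selB 0 C0 394878654663163177256018842969842079795938616035133817035223229173829490559281281920696319) 230801328831939973976848234205589982413656639243403221731379611) 340282366940745504093093613334761046274) 315377420799926109109898758973620371919119) 1180591761454899658752) :=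
  Ok.run hw hf9 ⟨493,25,25,1,10⟩ 58
    (.part 5312662293228350865391 (.chk false 0) (.split 1 (.chk false 0) (.split 0 (.part 831 (.chk false 0) (.split 1 (.chk false 0) (.split 0 (.chk false 0) (.chk false 0)))) (.part 1022 (.chk false 0) (.split 0 (.chk false 0) (.split 1 (.chk false 0) (.split 0 (.chk false 0) (.chk false 0))))))))
    (by decide +kernel)

theorem p0_9_1 : Ok par f9 (((((Box3.unit.l 0).r 1).r 0).r 1).r 0) (selB 0 (selB 0 (selB 0 (selB 0 (selB 0 C0 394878654663163177256018842969842079795938616035133817035223229173829490559281281920696319) 230801328831939973976848234205589982413656639243403221731379611) 340282366940745504093093613334761046274) 315377420799926109109898758973620371919119) 1180591761454899658752) :=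
  Ok.run hw hf9 ⟨559,25,25,1,10⟩ 58
    (.part 604462909772681061599961 (.chk false 0) (.split 0 (.part 8455716863 (.chk false 0) (.split 1 (.chk false 0) (.split 0 (.chk false 0) (.part 6 (.chk false 0) (.split 1 (.chk false 0) (.split 0 (.chk false 0) (.split 1 (.chk false 0) (.chk false 0)))))))) (.part 34208481935 (.chk false 0) (.split 1 (.chk false 0) (.part 14368 (.chk false 0) (.split 0 (.part 255 (.chk false 0) (.split 1 (.chk false 0) (.part 1 (.chk false 0) (.split 0 (.chk false 0) (.split 1 (.chk false 0) (.split 0 (.chk false 0) (.split 1 (.chk false 0) (.chk false 0)))))))) (.part 450 (.chk false 0) (.split 1 (.chk false 0) (.part 58 (.chk false 0) (.split 0 (.split 1 (.chk false 0) (.split 0 (.chk false 0) (.chk false 0))) (.chk false 0)))))))))))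
    (by decide +kernel)

theorem p0_9_2 : Ok par f9 ((((Box3.unit.l 0).r 1).r 0).r 1) (selB 1 (selB 0 (selB 0 (selB 0 (selB 0 C0 394878654663163177256018842969842079795938616035133817035223229173829490559281281920696319) 230801328831939973976848234205589982413656639243403221731379611) 340282366940745504093093613334761046274) 315377420799926109109898758973620371919119) 1180591761454899658752) :=
  Ok.run hw hf9 ⟨344,25,25,1,10⟩ 58
    (.chk false 0)
    (by decide +kernel)

theorem p0_9_3 : Ok par f9 ((((Box3.unit.l 0).r 1).r 0).l 1) (selB 0 (selB 0 (selB 0 (selB 0 C0 394878654663163177256018842969842079795938616035133817035223229173829490559281281920696319) 230801328831939973976848234205589982413656639243403221731379611) 340282366940745504093093613334761046274) 315377420799926109109898758973620371919119) :=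
  Ok.run hw hf9 ⟨332,25,25,1,10⟩ 58
    (.chk false 0)
    (by decide +kernel)

theorem p0_9_4 : Ok par f9 (((Box3.unit.l 0).r 1).r 0) (selB 1 (selB 0 (selB 0 (selB 0 C0 394878654663163177256018842969842079795938616035133817035223229173829490559281281920696319) 230801328831939973976848234205589982413656639243403221731379611) 340282366940745504093093613334761046274) 315377420799926109109898758973620371919119) :=
  Ok.run hw hf9 ⟨315,25,25,1,10⟩ 58
    (.chk false 0)
    (by decide +kernel)

theorem p0_9_5 : Ok par f9 (((Box3.unit.l 0).r 1).l 0) (selB 0 (selB 0 (selB 0 C0 394878654663163177256018842969842079795938616035133817035223229173829490559281281920696319) 230801328831939973976848234205589982413656639243403221731379611) 340282366940745504093093613334761046274) :=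
  Ok.run hw hf9 ⟨429,25,25,1,10⟩ 58
    (.part 696898287454081973172991196020261297061881 (.chk false 0) (.split 1 (.chk false 0) (.split 0 (.chk false 0) (.split 1 (.chk false 0) (.split 0 (.chk false 0) (.chk false 0))))))
    (by decide +kernel)

theorem p0_9_6 : Ok par f9 ((Box3.unit.l 0).r 1) (selB 1 (selB 0 (selB 0 C0 394878654663163177256018842969842079795938616035133817035223229173829490559281281920696319) 230801328831939973976848234205589982413656639243403221731379611) 340282366940745504093093613334761046274) :=
  Ok.run hw hf9 ⟨297,25,25,1,10⟩ 58
    (.chk false 0)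
    (by decide +kernel)

theorem p0_9_7 : Ok par f9 ((Box3.unit.l 0).l 1) (selB 0 (selB 0 C0 394878654663163177256018842969842079795938616035133817035223229173829490559281281920696319) 230801328831939973976848234205589982413656639243403221731379611) :=
  Ok.run hw hf9 ⟨297,25,25,1,10⟩ 58
    (.chk false 0)
    (by decide +kernel)

theorem p0_9_8 : Ok par f9 (Box3.unit.l 0) (selB 1 (selB 0 C0 394878654663163177256018842969842079795938616035133817035223229173829490559281281920696319) 230801328831939973976848234205589982413656639243403221731379611) :=
  Ok.run hw hf9 ⟨259,25,25,1,10⟩ 58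
    (.chk false 0)
    (by decide +kernel)

theorem p0_9_9 : Ok par f9 ((Box3.unit.r 0).l 1) (selB 0 (selB 0 C0 394878654663163177256018842969842079795938616035133817035223229173829490559281281920696319) 3291009114642412084309938365114701009965314702205345954141111149) :=
  Ok.run hw hf9 ⟨483,25,25,1,10⟩ 58
    (.part 211105382476352 (.chk false 0) (.split 0 (.part 2097023 (.chk false 0) (.split 0 (.chk false 0) (.chk false 0))) (.part 1574815 (.chk false 0) (.split 1 (.part 11 (.chk false 0) (.split 0 (.chk false 0) (.split 1 (.part 63 (.chk false 0) (.split 0 (.chk false 0) (.split 0 (.chk false 0) (.split 1 (.chk false 0) (.chk false 0))))) (.chk false 0)))) (.chk false 0)))))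
    (by decide +kernel)

theorem p0_9_10 : Ok par f9 ((Box3.unit.r 0).r 1) (selB 0 (selB 0 C0 394878654663163177256018842969842079795938616035133817035223229173829490559281281920696319) 3291009114642412084309938365114701009965314702205345954141111149) :=
  Ok.run hw hf9 ⟨413,25,25,1,10⟩ 58
    (.part 492580152355584 (.chk false 0) (.split 0 (.part 16949760 (.chk false 0) (.split 1 (.part 1048256 (.chk false 0) (.split 0 (.part 119 (.chk false 0) (.split 0 (.chk false 0) (.split 1 (.chk false 0) (.chk false 0)))) (.part 118 (.chk false 0) (.split 1 (.part 2 (.chk false 0) (.split 0 (.chk false 0) (.chk false 0))) (.chk false 0))))) (.part 983954 (.chk false 0) (.split 0 (.part 1779 (.chk false 0) (.split 0 (.part 1 (.chk false 0) (.split 1 (.chk false 0) (.chk false 0))) (.chk false 0))) (.chk false 0))))) (.chk false 0)))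
    (by decide +kernel)

theorem p0_9_11 : Ok par f9 (Box3.unit.r 0) (selB 1 (selB 0 C0 394878654663163177256018842969842079795938616035133817035223229173829490559281281920696319) 3291009114642412084309938365114701009965314702205345954141111149) :=
  Ok.run hw hf9 ⟨259,25,25,1,10⟩ 58
    (.chk false 0)
    (by decide +kernel)

theorem p0_9_12 : Ok par f9 Box3.unit (selB 1 C0 394878654663163177256018842969842079795938616035133817035223229173829490559281281920696319) :=
  Ok.run hw hf9 ⟨221,25,25,1,10⟩ 58
    (.chk false 0)
    (by decide +kernel)


end Crest.Agent.R163.b4G
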