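import Crest.Agent.R163.Q3.D.b4G.S10
import Crest.Agent.R163.Q3.D.b4G.F0
import Crest.Agent.R163.Q3.D.b4G.F1
import Crest.Agent.R163.Q3.D.b4G.F2
import Crest.Agent.R163.Q3.D.b4G.F3
import Crest.Agent.R163.Q3.D.b4G.F4
import Crest.Agent.R163.Q3.D.b4G.F5
import Crest.Agent.R163.Q3.D.b4G.F6
import Crest.Agent.R163.Q3.D.b4G.F7
import Crest.Agent.R163.Q3.D.b4G.F8
import Crest.Agent.R163.Q3.D.b4G.F9

set_option autoImplicit false
set_option maxRecDepth 100000
set_option linter.all false
set_option Elab.async false

namespace Crest.Agent.R163.b4G

theorem p10_0_0 : Ok par f0 Box3.unit C10 :=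
  Ok.run hw hf0 ⟨296,25,25,1,10⟩ 58
    (.part 1018517972990142322620714477646392933455020117276149938351152129274679924186481342998642687 (.chk false 0) (.split 0 (.chk false 0) (.part 13 (.chk false 0) (.split 1 (.chk false 0) (.chk false 0)))))
    (by decide +kernel)

theorem p10_1_0 : Ok par f1 Box3.unit C10 :=
  Ok.run hw hf1 ⟨325,25,25,1,10⟩ 58
    (.part 1018517988167243043134222844204689080322199632811717261317352260133790211432304563359580159 (.chk false 0) (.split 0 (.chk false 0) (.part 6 (.chk false 0) (.split 1 (.chk false 0) (.split 0 (.chk false 0) (.chk false 0))))))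
    (by decide +kernel)

theorem p10_2_0 : Ok par f2 Box3.unit C10 :=
  Ok.run hw hf2 ⟨296,25,25,1,10⟩ 58
    (.part 1018517957813041602107206111088096786408251280545361264796083206171392779476329932435488767 (.chk false 0) (.split 0 (.part 1 (.chk false 0) (.split 1 (.chk false 0) (.chk false 0))) (.chk false 0)))
    (by decide +kernel)

theorem p10_3_0 : Ok par f3 Box3.unit C10 :=
  Ok.run hw hf3 ⟨325,25,25,1,10⟩ 58
    (.part 4854301736949092078194116309126713001043146762052254065443624791187176418016837484554 (.chk false 0) (.split 0 (.part 25108359051061070996316333994486067217247433692256422330367 (.chk false 0) (.split 1 (.chk false 0) (.chk false 0))) (.part 25101079697241958024238114155922828552352925487585610948607 (.chk false 0) (.split 1 (.part 262127 (.chk false 0) (.split 1 (.chk false 0) (.chk false 0))) (.chk false 0)))))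
    (by decide +kernel)

theorem p10_4_0 : Ok par f4 (Box3.unit.l 1) (selB 0 C10 23801576897982822720917940168364237595772972179243261499606570194231555888387142119833611) :=
  Ok.run hw hf4 ⟨407,25,25,1,10⟩ 58
    (.part 85112160528736642786714740054810969096 (.chk false 0) (.split 0 (.chk false 0) (.part 1485038744231545406036037290576840192 (.chk false 0) (.split 1 (.part 4835721815310042742670336 (.chk false 0) (.split 0 (.chk false 0) (.part 75557863725897143547903 (.chk false 0) (.split 1 (.part 2 (.chk false 0) (.split 0 (.chk false 0) (.chk false 0))) (.chk false 0))))) (.chk false 0)))))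
    (by decide +kernel)

theorem p10_4_1 : Ok par f4 (Box3.unit.r 1) (selB 0 C10 23801576897982822720917940168364237595772972179243261499606570194231555888387142119833611) :=
  Ok.run hw hf4 ⟨381,25,25,1,10⟩ 58
    (.part 16801441778936503553479087055636162338815 (.chk false 0) (.split 1 (.chk false 0) (.part 391721 (.chk false 0) (.split 0 (.chk false 0) (.part 173 (.chk false 0) (.split 1 (.part 7 (.chk false 0) (.split 0 (.chk false 0) (.chk false 0))) (.part 4 (.chk false 0) (.split 0 (.chk false 0) (.chk false 0)))))))))
    (by decide +kernel)

theorem p10_4_2 : Ok par f4 Box3.unit (selB 1 C10 23801576897982822720917940168364237595772972179243261499606570194231555888387142119833611) :=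
  Ok.run hw hf4 ⟨220,25,25,1,10⟩ 58
    (.chk false 0)
    (by decide +kernel)

theorem p10_5_0 : Ok par f5 ((Box3.unit.r 1).l 1) (selB 0 (selB 0 C10 244256464947141609370155546314319529275401765178521046032098854583715402890902323208) 19449452489133580077000930402810888734885565310602225779510216459900395257856) :=
  Ok.run hw hf5 ⟨422,25,25,1,10⟩ 58
    (.part 5897076351559551133655444105301269397238175988811519391758852816895 (.chk false 0) (.split 1 (.part 65533 (.chk false 0) (.split 0 (.chk false 0) (.chk false 0))) (.part 49037 (.chk false 0) (.split 0 (.chk false 0) (.part 5 (.chk false 0) (.split 1 (.chk false 0) (.part 3 (.chk false 0) (.split 0 (.chk false 0) (.split 1 (.chk false 0) (.chk false 0))))))))))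
    (by decide +kernel)

theorem p10_5_1 : Ok par f5 ((Box3.unit.r 1).r 1) (selB 0 (selB 0 C10 244256464947141609370155546314319529275401765178521046032098854583715402890902323208) 19449452489133580077000930402810888734885565310602225779510216459900395257856) :=
  Ok.run hw hf5 ⟨487,25,25,1,10⟩ 58
    (.part 6739986546948424259076237212292387276744005580583053288930612343714 (.chk false 0) (.split 1 (.part 582846334880862321 (.chk false 0) (.split 0 (.part 2390325886 (.chk false 0) (.split 1 (.part 3250 (.chk false 0) (.split 0 (.chk false 0) (.part 38 (.chk false 0) (.split 1 (.part 4 (.chk false 0) (.split 0 (.chk false 0) (.chk false 0))) (.part 4 (.chk false 0) (.split 0 (.part 2 (.chk false 0) (.split 0 (.chk false 0) (.split 1 (.chk false 0) (.chk false 0)))) (.chk false 0))))))) (.chk false 0))) (.part 4294967215 (.chk false 0) (.split 1 (.part 2 (.chk false 0) (.split 1 (.chk false 0) (.chk false 0))) (.chk false 0))))) (.part 2305825417027649534 (.chk false 0) (.split 0 (.chk false 0) (.chk false 0)))))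
    (by decide +kernel)

theorem p10_5_2 : Ok par f5 (Box3.unit.r 1) (selB 1 (selB 0 C10 244256464947141609370155546314319529275401765178521046032098854583715402890902323208) 19449452489133580077000930402810888734885565310602225779510216459900395257856) :=
  Ok.run hw hf5 ⟨259,25,25,1,10⟩ 58
    (.chk false 0)
    (by decide +kernel)

theorem p10_5_3 : Ok par f5 (Box3.unit.l 1) (selB 0 C10 244256464947141609370155546314319529275401765178521046032098854583715402890902323208) :=
  Ok.run hw hf5 ⟨382,25,25,1,10⟩ 58
    (.part 1778503166882917425367128846205161527299767147569957026766310073897351033535856606 (.chk false 0) (.split 1 (.part 76032367854398 (.chk false 0) (.split 0 (.part 36324572 (.chk false 0) (.split 1 (.part 122615 (.chk false 0) (.split 0 (.chk false 0) (.chk false 0))) (.chk false 0))) (.part 167772149 (.chk false 0) (.split 1 (.chk false 0) (.chk false 0))))) (.chk false 0)))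
    (by decide +kernel)

theorem p10_5_4 : Ok par f5 Box3.unit (selB 1 C10 244256464947141609370155546314319529275401765178521046032098854583715402890902323208) :=
  Ok.run hw hf5 ⟨221,25,25,1,10⟩ 58
    (.chk false 0)
    (by decide +kernel)

theorem p10_6_0 : Ok par f6 Box3.unit C10 :=
  Ok.run hw hf6 ⟨325,25,25,1,10⟩ 58
    (.part 1018517972990142322620714477646389794712590481327531910503191155477851479208270203434565631 (.chk false 0) (.split 0 (.chk false 0) (.part 302 (.chk false 0) (.split 1 (.part 2 (.chk false 0) (.split 0 (.chk false 0) (.chk false 0))) (.chk false 0)))))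
    (by decide +kernel)

theorem p10_7_0 : Ok par f7 Box3.unit C10 :=
  Ok.run hw hf7 ⟨325,25,25,1,10⟩ 58
    (.part 16422333932915929742942256843247646323068195167226500891865401425388828489279982238949454 (.chk false 0) (.split 0 (.chk false 0) (.part 669022355955918694246071548179450845179412479 (.chk false 0) (.split 1 (.chk false 0) (.split 0 (.chk false 0) (.chk false 0))))))
    (by decide +kernel)

theorem p10_8_0 : Ok par f8 Box3.unit C10 :=
  Ok.run hw hf8 ⟨221,25,25,1,10⟩ 58
    (.chk false 0)
    (by decide +kernel)

theorem p10_9_0 : Ok par f9 Box3.unit C10 :=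
  Ok.run hw hf9 ⟨221,25,25,1,10⟩ 58
    (.chk false 0)
    (by decide +kernel)


end Crest.Agent.R163.b4G
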