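import Crest.Agent.R163.Q3.D.b4G.S11
import Crest.Agent.R163.Q3.D.b4G.F0
import Crest.Agent.R163.Q3.D.b4G.F1
import Crest.Agent.R163.Q3.D.b4G.F2
import Crest.Agent.R163.Q3.D.b4G.F3
import Crest.Agent.R163.Q3.D.b4G.F4
import Crest.Agent.R163.Q3.D.b4G.F5
import Crest.Agent.R163.Q3.D.b4G.F6
import Crest.Agent.R163.Q3.D.b4G.F7
import Crest.Agent.R163.Q3.D.b4G.F8
import Crest.Agent.R163.Q3.D.b4G.F9

set_option autoImplicit false
set_option maxRecDepth 100000
set_option linter.all false
set_option Elab.async false

namespace Crest.Agent.R163.b4G

theorem p11_0_0 : Ok par f0 Box3.unit C11 :=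
  Ok.run hw hf0 ⟨259,25,25,1,10⟩ 59
    (.part 15914343565113172548972231940698266883214596825515126958094847259069946629882781548675071 (.chk false 0) (.split 0 (.chk false 0) (.chk false 0)))
    (by decide +kernel)

theorem p11_1_0 : Ok par f1 Box3.unit C11 :=
  Ok.run hw hf1 ⟨326,25,25,1,10⟩ 59
    (.part 15914343565113172548972231940698265350719055959626268599747820063123813320691408019914751 (.chk false 0) (.split 0 (.chk false 0) (.part 23 (.chk false 0) (.split 1 (.chk false 0) (.split 0 (.chk false 0) (.chk false 0))))))
    (by decide +kernel)

theorem p11_2_0 : Ok par f2 Box3.unit C11 :=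
  Ok.run hw hf2 ⟨297,25,25,1,10⟩ 59
    (.part 15914343565113172548972231940698266883214596619233233871686582582405690239713586637176831 (.chk false 0) (.split 0 (.part 8 (.chk false 0) (.split 1 (.chk false 0) (.chk false 0))) (.chk false 0)))
    (by decide +kernel)

theorem p11_3_0 : Ok par f3 Box3.unit C11 :=
  Ok.run hw hf3 ⟨326,25,25,1,10⟩ 59
    (.part 863516362643939572296394022784572309802513212605932910798381807437632426801459062372388 (.chk false 0) (.split 0 (.part 5986113746325784930498707031342111146124284839067639 (.chk false 0) (.split 0 (.chk false 0) (.part 17 (.chk false 0) (.split 1 (.chk false 0) (.chk false 0))))) (.part 5986290725039680469523165977177159487558177936899627 (.chk false 0) (.split 1 (.part 8187 (.chk false 0) (.split 0 (.chk false 0) (.chk false 0))) (.chk false 0)))))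
    (by decide +kernel)

theorem p11_4_0 : Ok par f4 (Box3.unit.l 1) (selB 0 C11 11931418919688774380870916029956297966850534413288257011917570594939583014028895794281836) :=
  Ok.run hw hf4 ⟨408,25,25,1,10⟩ 59
    (.part 935095944326627249922458414821871835967516 (.chk false 0) (.split 0 (.chk false 0) (.part 3924698319185818917897379399643742 (.chk false 0) (.split 1 (.part 8454144 (.chk false 0) (.split 0 (.chk false 0) (.part 1152640029630136319 (.chk false 0) (.split 1 (.split 0 (.chk false 0) (.chk false 0)) (.chk false 0))))) (.chk false 0)))))
    (by decide +kernel)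

theorem p11_4_1 : Ok par f4 (Box3.unit.r 1) (selB 0 C11 11931418919688774380870916029956297966850534413288257011917570594939583014028895794281836) :=
  Ok.run hw hf4 ⟨382,25,25,1,10⟩ 59
    (.part 741645065333899062388224526657450231701480 (.chk false 0) (.split 1 (.part 1099507433471 (.chk false 0) (.split 0 (.chk false 0) (.chk false 0))) (.part 596717723615 (.chk false 0) (.split 0 (.chk false 0) (.part 1846 (.chk false 0) (.split 1 (.part 55 (.chk false 0) (.split 0 (.chk false 0) (.chk false 0))) (.part 43 (.chk false 0) (.split 0 (.chk false 0) (.chk false 0)))))))))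
    (by decide +kernel)

theorem p11_4_2 : Ok par f4 Box3.unit (selB 1 C11 11931418919688774380870916029956297966850534413288257011917570594939583014028895794281836) :=
  Ok.run hw hf4 ⟨221,25,25,1,10⟩ 59
    (.chk false 0)
    (by decide +kernel)

theorem p11_5_0 : Ok par f5 ((Box3.unit.r 1).l 1) (selB 0 (selB 0 C11 47595388916147311412606573904378258189103600150754744701802503334887692118617370134532) 367504459073370624615681387661257595340937622374738665418118133877814856704) :=
  Ok.run hw hf5 ⟨447,25,25,1,10⟩ 59
    (.part 3265298104374460156072973878638085412421128030997406684348350463 (.chk false 0) (.split 1 (.part 33497087 (.chk false 0) (.split 0 (.part 5 (.chk false 0) (.split 0 (.chk false 0) (.split 1 (.chk false 0) (.chk false 0)))) (.part 6 (.chk false 0) (.split 1 (.chk false 0) (.chk false 0))))) (.part 33226523 (.chk false 0) (.split 0 (.chk false 0) (.part 48 (.chk false 0) (.split 1 (.chk false 0) (.part 11 (.chk false 0) (.split 1 (.chk false 0) (.split 0 (.chk false 0) (.split 1 (.chk false 0) (.chk false 0)))))))))))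
    (by decide +kernel)

theorem p11_5_1 : Ok par f5 ((Box3.unit.r 1).r 1) (selB 0 (selB 0 C11 47595388916147311412606573904378258189103600150754744701802503334887692118617370134532) 367504459073370624615681387661257595340937622374738665418118133877814856704) :=
  Ok.run hw hf5 ⟨425,25,25,1,10⟩ 59
    (.part 3291009111733407026658561662537966881410599530991129525403695479 (.chk false 0) (.split 1 (.part 21227909319604 (.chk false 0) (.split 0 (.part 2018303 (.chk false 0) (.split 1 (.part 10 (.chk false 0) (.split 0 (.chk false 0) (.chk false 0))) (.part 14 (.chk false 0) (.split 0 (.chk false 0) (.chk false 0))))) (.part 2097148 (.chk false 0) (.split 1 (.split 0 (.chk false 0) (.split 1 (.chk false 0) (.chk false 0))) (.chk false 0))))) (.chk false 0)))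
    (by decide +kernel)

theorem p11_5_2 : Ok par f5 (Box3.unit.r 1) (selB 1 (selB 0 C11 47595388916147311412606573904378258189103600150754744701802503334887692118617370134532) 367504459073370624615681387661257595340937622374738665418118133877814856704) :=
  Ok.run hw hf5 ⟨260,25,25,1,10⟩ 59
    (.chk false 0)
    (by decide +kernel)

theorem p11_5_3 : Ok par f5 (Box3.unit.l 1) (selB 0 C11 47595388916147311412606573904378258189103600150754744701802503334887692118617370134532) :=
  Ok.run hw hf5 ⟨383,25,25,1,10⟩ 59
    (.part 7229881681024934303744130994085571863941502593478807873883951683627227545567 (.chk false 0) (.split 1 (.part 1391567905369 (.chk false 0) (.split 0 (.part 74482 (.chk false 0) (.split 1 (.part 2046 (.chk false 0) (.split 0 (.chk false 0) (.chk false 0))) (.chk false 0))) (.part 456687 (.chk false 0) (.split 1 (.chk false 0) (.chk false 0))))) (.part 4397239107583 (.chk false 0) (.split 1 (.part 5 (.chk false 0) (.split 0 (.chk false 0) (.chk false 0))) (.chk false 0)))))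
    (by decide +kernel)

theorem p11_5_4 : Ok par f5 Box3.unit (selB 1 C11 47595388916147311412606573904378258189103600150754744701802503334887692118617370134532) :=
  Ok.run hw hf5 ⟨222,25,25,1,10⟩ 59
    (.chk false 0)
    (by decide +kernel)

theorem p11_6_0 : Ok par f6 Box3.unit C11 :=
  Ok.run hw hf6 ⟨353,25,25,1,10⟩ 59
    (.part 15914343564881588370497599546636856505820778768876177868711662315116348890152153217236727 (.chk false 0) (.split 0 (.chk false 0) (.part 183 (.chk false 0) (.split 0 (.chk false 0) (.split 1 (.part 4 (.chk false 0) (.split 0 (.chk false 0) (.chk false 0))) (.chk false 0))))))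
    (by decide +kernel)

theorem p11_7_0 : Ok par f7 Box3.unit C11 :=
  Ok.run hw hf7 ⟨326,25,25,1,10⟩ 59
    (.part 3971786727302939811821291816048453208161958006658056479817880871312384433553813061236772 (.chk false 0) (.split 0 (.part 5708990770823838256582543649568579048827781119 (.chk false 0) (.split 1 (.chk false 0) (.split 0 (.chk false 0) (.chk false 0)))) (.part 5708990770823829383023506348684310038026649535 (.chk false 0) (.split 1 (.chk false 0) (.part 12 (.chk false 0) (.split 0 (.chk false 0) (.chk false 0)))))))
    (by decide +kernel)

theorem p11_8_0 : Ok par f8 Box3.unit C11 :=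
  Ok.run hw hf8 ⟨222,25,25,1,10⟩ 59
    (.chk false 0)
    (by decide +kernel)

theorem p11_9_0 : Ok par f9 Box3.unit C11 :=
  Ok.run hw hf9 ⟨222,25,25,1,10⟩ 59
    (.chk false 0)
    (by decide +kernel)


end Crest.Agent.R163.b4G
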