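import Crest.Agent.R163.Q3.D.b4G.S12
import Crest.Agent.R163.Q3.D.b4G.F0
import Crest.Agent.R163.Q3.D.b4G.F1
import Crest.Agent.R163.Q3.D.b4G.F2
import Crest.Agent.R163.Q3.D.b4G.F3
import Crest.Agent.R163.Q3.D.b4G.F4
import Crest.Agent.R163.Q3.D.b4G.F5
import Crest.Agent.R163.Q3.D.b4G.F6
import Crest.Agent.R163.Q3.D.b4G.F7
import Crest.Agent.R163.Q3.D.b4G.F8
import Crest.Agent.R163.Q3.D.b4G.F9

set_option autoImplicit false
set_option maxRecDepth 100000
set_option linter.all false
set_option Elab.async false

namespace Crest.Agent.R163.b4G

theorem p12_0_0 : Ok par f0 Box3.unit C12 :=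
  Ok.run hw hf0 ⟨325,25,25,1,10⟩ 58
    (.part 15541351137802298873226138485928984658137768875385461202220748021105525137760501891071 (.chk false 0) (.split 0 (.chk false 0) (.part 1 (.chk false 0) (.split 1 (.chk false 0) (.split 0 (.chk false 0) (.chk false 0))))))
    (by decide +kernel)

theorem p12_1_0 : Ok par f1 Box3.unit C12 :=
  Ok.run hw hf1 ⟨258,25,25,1,10⟩ 58
    (.part 15541351137805832567355695253877073322177482282138843149416736398341161768967357857791 (.chk false 0) (.split 0 (.chk false 0) (.chk false 0)))
    (by decide +kernel)

theorem p12_2_0 : Ok par f2 Box3.unit C12 :=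
  Ok.run hw hf2 ⟨325,25,25,1,10⟩ 58
    (.part 15541351137798765179096581717269818063136283038353806234426919430826292520569316311039 (.chk false 0) (.split 0 (.split 1 (.chk false 0) (.part 2 (.chk false 0) (.split 0 (.chk false 0) (.chk false 0)))) (.chk false 0)))
    (by decide +kernel)

theorem p12_3_0 : Ok par f3 Box3.unit C12 :=
  Ok.run hw hf3 ⟨343,25,25,1,10⟩ 58
    (.part 7778265971992477541856970650625545138896582073869045994314031200538295110719458252866 (.chk false 0) (.split 0 (.part 1151844289080277841364319815319500283300083784043659888951295 (.chk false 0) (.split 1 (.part 1048574 (.chk false 0) (.split 0 (.chk false 0) (.split 1 (.chk false 0) (.chk false 0)))) (.part 9729 (.chk false 0) (.split 0 (.chk false 0) (.chk false 0))))) (.part 1544167020918812761389420197808374094286008484113097106128895 (.chk false 0) (.split 1 (.chk false 0) (.chk false 0)))))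
    (by decide +kernel)

theorem p12_4_0 : Ok par f4 (Box3.unit.l 1) (selB 0 C12 13211712635107222543505778276375172359461412879436486348696549407186464335201462917132) :=
  Ok.run hw hf4 ⟨407,25,25,1,10⟩ 58
    (.part 1254067125856549385960320841057278684195782657 (.chk false 0) (.split 0 (.chk false 0) (.part 6101710037081736166321529620239 (.chk false 0) (.split 1 (.part 65536 (.chk false 0) (.split 0 (.chk false 0) (.part 9222808949461876735 (.chk false 0) (.split 1 (.split 0 (.chk false 0) (.chk false 0)) (.chk false 0))))) (.chk false 0)))))
    (by decide +kernel)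

theorem p12_4_1 : Ok par f4 (Box3.unit.r 1) (selB 0 C12 13211712635107222543505778276375172359461412879436486348696549407186464335201462917132) :=
  Ok.run hw hf4 ⟨401,25,25,1,10⟩ 58
    (.part 188361464554724207445425474104907617096517331 (.chk false 0) (.split 1 (.chk false 0) (.part 12551434407676865519 (.chk false 0) (.split 0 (.chk false 0) (.part 4659576 (.chk false 0) (.split 1 (.part 5705 (.chk false 0) (.split 0 (.chk false 0) (.part 31 (.chk false 0) (.split 1 (.chk false 0) (.chk false 0))))) (.part 7145 (.chk false 0) (.split 0 (.chk false 0) (.chk false 0)))))))))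
    (by decide +kernel)

theorem p12_4_2 : Ok par f4 Box3.unit (selB 1 C12 13211712635107222543505778276375172359461412879436486348696549407186464335201462917132) :=
  Ok.run hw hf4 ⟨220,25,25,1,10⟩ 58
    (.chk false 0)
    (by decide +kernel)

theorem p12_5_0 : Ok par f5 ((Box3.unit.r 1).l 1) (selB 0 (selB 0 C12 7778265971936821697543556073460446438996297959634106645677674568409445791667830396928) 55219026587981577720131267154628967128375145562618127660413386803642368) :=
  Ok.run hw hf5 ⟨371,25,25,1,10⟩ 58
    (.part 1287749549397837360785147394799417922040280674571192570702733590149375 (.chk false 0) (.split 1 (.chk false 0) (.part 4648444391920030963711 (.chk false 0) (.split 0 (.part 32766 (.chk false 0) (.split 0 (.chk false 0) (.chk false 0))) (.part 15803 (.chk false 0) (.split 1 (.chk false 0) (.chk false 0)))))))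
    (by decide +kernel)

theorem p12_5_1 : Ok par f5 ((Box3.unit.r 1).r 1) (selB 0 (selB 0 C12 7778265971936821697543556073460446438996297959634106645677674568409445791667830396928) 55219026587981577720131267154628967128375145562618127660413386803642368) :=
  Ok.run hw hf5 ⟨429,25,25,1,10⟩ 58
    (.part 1724594088361839705558372092662091192844710065579587386122434844113279 (.chk false 0) (.split 1 (.part 1056592078709935 (.chk false 0) (.split 0 (.part 65662969 (.chk false 0) (.split 1 (.part 57 (.chk false 0) (.split 0 (.part 2 (.chk false 0) (.split 0 (.chk false 0) (.chk false 0))) (.chk false 0))) (.part 61 (.chk false 0) (.split 0 (.split 0 (.chk false 0) (.chk false 0)) (.chk false 0))))) (.part 67106815 (.chk false 0) (.split 1 (.chk false 0) (.chk false 0))))) (.part 1125899906842367 (.chk false 0) (.split 0 (.split 0 (.split 0 (.chk false 0) (.chk false 0)) (.chk false 0)) (.chk false 0)))))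
    (by decide +kernel)

theorem p12_5_2 : Ok par f5 (Box3.unit.r 1) (selB 1 (selB 0 C12 7778265971936821697543556073460446438996297959634106645677674568409445791667830396928) 55219026587981577720131267154628967128375145562618127660413386803642368) :=
  Ok.run hw hf5 ⟨259,25,25,1,10⟩ 58
    (.chk false 0)
    (by decide +kernel)

theorem p12_5_3 : Ok par f5 (Box3.unit.l 1) (selB 0 C12 7778265971936821697543556073460446438996297959634106645677674568409445791667830396928) :=
  Ok.run hw hf5 ⟨353,25,25,1,10⟩ 58
    (.part 5427745540651291564116452933349144606815570123362297126602067239062420324350 (.chk false 0) (.split 1 (.part 4264016 (.chk false 0) (.split 0 (.part 4145004 (.chk false 0) (.split 1 (.chk false 0) (.chk false 0))) (.part 3928031 (.chk false 0) (.split 1 (.chk false 0) (.chk false 0))))) (.chk false 0)))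
    (by decide +kernel)

theorem p12_5_4 : Ok par f5 Box3.unit (selB 1 C12 7778265971936821697543556073460446438996297959634106645677674568409445791667830396928) :=
  Ok.run hw hf5 ⟨221,25,25,1,10⟩ 58
    (.chk false 0)
    (by decide +kernel)

theorem p12_6_0 : Ok par f6 Box3.unit C12 :=
  Ok.run hw hf6 ⟨325,25,25,1,10⟩ 58
    (.part 15541351137745759767153230187259719494844724374210313955346208181306586289013532917759 (.chk false 0) (.split 0 (.chk false 0) (.part 157 (.chk false 0) (.split 1 (.part 4 (.chk false 0) (.split 0 (.chk false 0) (.chk false 0))) (.chk false 0)))))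
    (by decide +kernel)

theorem p12_7_0 : Ok par f7 Box3.unit C12 :=
  Ok.run hw hf7 ⟨325,25,25,1,10⟩ 58
    (.part 11663618696786213971962161035691408483220018092827150093775947118874386934908356401218 (.chk false 0) (.split 0 (.part 763248768716329493214524511412105560659221748736065535 (.chk false 0) (.split 1 (.chk false 0) (.split 0 (.chk false 0) (.chk false 0)))) (.part 766247039682125593586530951263506501980556017241423807 (.chk false 0) (.split 1 (.chk false 0) (.part 1 (.chk false 0) (.split 0 (.chk false 0) (.chk false 0)))))))
    (by decide +kernel)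

theorem p12_8_0 : Ok par f8 Box3.unit C12 :=
  Ok.run hw hf8 ⟨221,25,25,1,10⟩ 58
    (.chk false 0)
    (by decide +kernel)

theorem p12_9_0 : Ok par f9 Box3.unit C12 :=
  Ok.run hw hf9 ⟨221,25,25,1,10⟩ 58
    (.chk false 0)
    (by decide +kernel)


end Crest.Agent.R163.b4G
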