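import Crest.Agent.R163.Q3.D.b4G.S13
import Crest.Agent.R163.Q3.D.b4G.F0
import Crest.Agent.R163.Q3.D.b4G.F1
import Crest.Agent.R163.Q3.D.b4G.F2
import Crest.Agent.R163.Q3.D.b4G.F3
import Crest.Agent.R163.Q3.D.b4G.F4
import Crest.Agent.R163.Q3.D.b4G.F5
import Crest.Agent.R163.Q3.D.b4G.F6
import Crest.Agent.R163.Q3.D.b4G.F7
import Crest.Agent.R163.Q3.D.b4G.F8
import Crest.Agent.R163.Q3.D.b4G.F9

set_option autoImplicit false
set_option maxRecDepth 100000
set_option linter.all false
set_option Elab.async false

namespace Crest.Agent.R163.b4G

theorem p13_0_0 : Ok par f0 Box3.unit C13 :=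
  Ok.run hw hf0 ⟨363,25,25,1,10⟩ 58
    (.part 31828687130224535839594464575718175402764343010018981858880910626333623583927280947167227 (.chk false 0) (.split 0 (.chk false 0) (.part 11 (.chk false 0) (.split 0 (.split 1 (.split 0 (.split 1 (.chk false 0) (.chk false 0)) (.chk false 0)) (.chk false 0)) (.chk false 0)))))
    (by decide +kernel)

theorem p13_1_0 : Ok par f1 Box3.unit C13 :=
  Ok.run hw hf1 ⟨287,25,25,1,10⟩ 58
    (.part 31828687130159399262660010899148622624126044468465550551334542017638523691032165264392078 (.chk false 0) (.split 0 (.chk false 0) (.part 500 (.chk false 0) (.split 0 (.chk false 0) (.chk false 0)))))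
    (by decide +kernel)

theorem p13_2_0 : Ok par f2 Box3.unit C13 :=
  Ok.run hw hf2 ⟨296,25,25,1,10⟩ 58
    (.part 31828687130063512472454487981582137068760726280611593000253637477981720581291008195559423 (.chk false 0) (.split 1 (.part 11 (.chk false 0) (.split 0 (.chk false 0) (.chk false 0))) (.chk false 0)))
    (by decide +kernel)

theorem p13_3_0 : Ok par f3 Box3.unit (selB 1 C13 23887083261512835696333974649830008143703413673695015823846467080551296695944891363754879) :=
  Ok.run hw hf3 ⟨220,25,25,1,10⟩ 58
    (.chk false 0)
    (by decide +kernel)

theorem p13_3_1 : Ok par f3 Box3.unit (selB 0 C13 23887083261512835696333974649830008143703413673695015823846467080551296695944891363754879) :=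
  Ok.run hw hf3 ⟨405,25,25,1,10⟩ 58
    (.split 0 (.part 37567351611598657944064527849817237824865321584688664 (.chk false 0) (.split 1 (.part 154741914614862175656738814 (.chk false 0) (.split 0 (.chk false 0) (.part 1 (.chk false 0) (.split 1 (.chk false 0) (.split 0 (.chk false 0) (.split 1 (.split 0 (.chk false 0) (.chk false 0)) (.chk false 0))))))) (.part 885443821091208299521 (.chk false 0) (.split 0 (.chk false 0) (.chk false 0))))) (.part 3064991036059851550123381712006199931039368631954702247 (.chk false 0) (.split 1 (.part 15 (.chk false 0) (.split 0 (.split 1 (.chk false 0) (.chk false 0)) (.chk false 0))) (.chk false 0))))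
    (by decide +kernel)

theorem p13_4_0 : Ok par f4 (Box3.unit.l 1) (selB 0 C13 23889086757320203207071065056618981836021812481729481277915856045765377379207041495872510) :=
  Ok.run hw hf4 ⟨407,25,25,1,10⟩ 58
    (.part 35075307898450401466696418281621212302882385661263999 (.chk false 0) (.split 0 (.chk false 0) (.part 49465620635933621131140520949247 (.chk false 0) (.split 1 (.split 0 (.chk false 0) (.part 18338657613933182655 (.chk false 0) (.split 1 (.split 0 (.chk false 0) (.chk false 0)) (.chk false 0)))) (.chk false 0)))))
    (by decide +kernel)

theorem p13_4_1 : Ok par f4 (Box3.unit.r 1) (selB 0 C13 23889086757320203207071065056618981836021812481729481277915856045765377379207041495872510) :=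
  Ok.run hw hf4 ⟨419,25,25,1,10⟩ 58
    (.part 594863101286886245570991618402195418891773076733880 (.chk false 0) (.split 1 (.part 2473452782198284077180649471 (.chk false 0) (.split 0 (.chk false 0) (.part 12 (.chk false 0) (.split 1 (.chk false 0) (.part 1 (.chk false 0) (.split 0 (.chk false 0) (.chk false 0))))))) (.part 777426665765117923870863350 (.chk false 0) (.split 0 (.chk false 0) (.part 792367568 (.chk false 0) (.split 1 (.part 31611 (.chk false 0) (.split 0 (.chk false 0) (.part 12 (.chk false 0) (.split 1 (.chk false 0) (.chk false 0))))) (.part 63484 (.chk false 0) (.split 0 (.part 5 (.chk false 0) (.split 1 (.split 0 (.chk false 0) (.chk false 0)) (.chk false 0))) (.part 5 (.chk false 0) (.split 1 (.chk false 0) (.chk false 0)))))))))))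
    (by decide +kernel)

theorem p13_4_2 : Ok par f4 Box3.unit (selB 1 C13 23889086757320203207071065056618981836021812481729481277915856045765377379207041495872510) :=
  Ok.run hw hf4 ⟨220,25,25,1,10⟩ 58
    (.chk false 0)
    (by decide +kernel)

theorem p13_5_0 : Ok par f5 ((Box3.unit.r 1).l 1) (selB 1 (selB 0 (selB 0 C13 23871530526623212399114364236271749199110517059426980914566778541361816225241793273528832) 4070815853487503930236434521677403798850004812640928240887350921307648950542) 5317138641189403843830907633642797488535094416007768659739439894462) :=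
  Ok.run hw hf5 ⟨277,25,25,1,10⟩ 58
    (.chk false 0)
    (by decide +kernel)

theorem p13_5_1 : Ok par f5 ((Box3.unit.r 1).l 1) (selB 0 (selB 0 (selB 0 C13 23871530526623212399114364236271749199110517059426980914566778541361816225241793273528832) 4070815853487503930236434521677403798850004812640928240887350921307648950542) 5317138641189403843830907633642797488535094416007768659739439894462) :=
  Ok.run hw hf5 ⟨478,25,25,1,10⟩ 58
    (.split 1 (.part 41537107217678392798842473930555135 (.chk false 0) (.split 0 (.chk false 0) (.part 1 (.chk false 0) (.split 1 (.chk false 0) (.chk false 0))))) (.part 10038553327993665432958745058300959 (.chk false 0) (.split 0 (.part 140737488224222 (.chk false 0) (.split 1 (.part 1 (.chk false 0) (.split 0 (.chk false 0) (.chk false 0))) (.part 1 (.chk false 0) (.split 0 (.chk false 0) (.part 1 (.chk false 0) (.split 1 (.split 0 (.chk false 0) (.split 1 (.split 0 (.chk false 0) (.chk false 0)) (.chk false 0))) (.chk false 0))))))) (.part 11061486286 (.chk false 0) (.split 1 (.part 2143289343 (.chk false 0) (.split 1 (.chk false 0) (.chk false 0))) (.chk false 0))))))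
    (by decide +kernel)

theorem p13_5_2 : Ok par f5 ((Box3.unit.r 1).r 1) (selB 0 (selB 0 C13 23871530526623212399114364236271749199110517059426980914566778541361816225241793273528832) 4070815853487503930236434521677403798850004812640928240887350921307648950542) :=
  Ok.run hw hf5 ⟨391,25,25,1,10⟩ 58
    (.part 431359146674397976469736999897564359318150335886038945105464023580671 (.chk false 0) (.split 1 (.part 35664 (.chk false 0) (.split 0 (.part 1014 (.chk false 0) (.split 0 (.chk false 0) (.part 1 (.chk false 0) (.split 1 (.chk false 0) (.chk false 0))))) (.chk false 0))) (.chk false 0)))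
    (by decide +kernel)

theorem p13_5_3 : Ok par f5 (Box3.unit.r 1) (selB 1 (selB 0 C13 23871530526623212399114364236271749199110517059426980914566778541361816225241793273528832) 4070815853487503930236434521677403798850004812640928240887350921307648950542) :=
  Ok.run hw hf5 ⟨259,25,25,1,10⟩ 58
    (.chk false 0)
    (by decide +kernel)

theorem p13_5_4 : Ok par f5 (Box3.unit.l 1) (selB 0 C13 23871530526623212399114364236271749199110517059426980914566778541361816225241793273528832) :=
  Ok.run hw hf5 ⟨382,25,25,1,10⟩ 58
    (.part 1851535578287313873691408883805838633724682944087579661997726295682204812902399 (.chk false 0) (.split 1 (.part 62048 (.chk false 0) (.split 0 (.part 2027 (.chk false 0) (.split 1 (.part 2 (.chk false 0) (.split 0 (.chk false 0) (.chk false 0))) (.chk false 0))) (.chk false 0))) (.part 262141 (.chk false 0) (.split 0 (.chk false 0) (.chk false 0)))))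
    (by decide +kernel)

theorem p13_5_5 : Ok par f5 Box3.unit (selB 1 C13 23871530526623212399114364236271749199110517059426980914566778541361816225241793273528832) :=
  Ok.run hw hf5 ⟨221,25,25,1,10⟩ 58
    (.chk false 0)
    (by decide +kernel)

theorem p13_6_0 : Ok par f6 Box3.unit C13 :=
  Ok.run hw hf6 ⟨325,25,25,1,10⟩ 58
    (.part 31828687130166636157809401612713575211732993666273972686158400998164804907432272254205742 (.chk false 0) (.split 0 (.chk false 0) (.part 298 (.chk false 0) (.split 1 (.part 18 (.chk false 0) (.split 0 (.chk false 0) (.chk false 0))) (.chk false 0)))))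
    (by decide +kernel)

theorem p13_7_0 : Ok par f7 Box3.unit C13 :=
  Ok.run hw hf7 ⟨370,25,25,1,10⟩ 58
    (.part 23889086757170968202082779967211550277493966230178694291865638411348466670937880195760942 (.chk false 0) (.split 0 (.part 6118009541955762488366060401908018924020572501294178303 (.chk false 0) (.split 1 (.chk false 0) (.split 0 (.chk false 0) (.part 2007 (.chk false 0) (.split 1 (.chk false 0) (.split 0 (.chk false 0) (.chk false 0))))))) (.part 6123960776670363029531204353968453278869637314130998783 (.chk false 0) (.split 1 (.chk false 0) (.part 1465 (.chk false 0) (.split 0 (.chk false 0) (.chk false 0)))))))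
    (by decide +kernel)

theorem p13_8_0 : Ok par f8 Box3.unit C13 :=
  Ok.run hw hf8 ⟨221,25,25,1,10⟩ 58
    (.chk false 0)
    (by decide +kernel)

theorem p13_9_0 : Ok par f9 Box3.unit C13 :=
  Ok.run hw hf9 ⟨221,25,25,1,10⟩ 58
    (.chk false 0)
    (by decide +kernel)


end Crest.Agent.R163.b4G
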