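import Crest.Agent.R163.Q3.D.b4G.S14
import Crest.Agent.R163.Q3.D.b4G.F0
import Crest.Agent.R163.Q3.D.b4G.F1
import Crest.Agent.R163.Q3.D.b4G.F2
import Crest.Agent.R163.Q3.D.b4G.F3
import Crest.Agent.R163.Q3.D.b4G.F4
import Crest.Agent.R163.Q3.D.b4G.F5
import Crest.Agent.R163.Q3.D.b4G.F6
import Crest.Agent.R163.Q3.D.b4G.F7
import Crest.Agent.R163.Q3.D.b4G.F8
import Crest.Agent.R163.Q3.D.b4G.F9

set_option autoImplicit false
set_option maxRecDepth 100000
set_option linter.all false
set_option Elab.async false

namespace Crest.Agent.R163.b4G

theorem p14_0_0 : Ok par f0 Box3.unit C14 :=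
  Ok.run hw hf0 ⟨288,25,25,1,10⟩ 59
    (.part 31828687130226345097942778884729836851442026962587313029277099049147505554335594102898687 (.chk false 0) (.split 0 (.chk false 0) (.part 26 (.chk false 0) (.split 0 (.chk false 0) (.chk false 0)))))
    (by decide +kernel)

theorem p14_1_0 : Ok par f1 Box3.unit C14 :=
  Ok.run hw hf1 ⟨326,25,25,1,10⟩ 59
    (.part 31828687130226345081701096014438273290142317061100909819973367695133101591348957354639359 (.chk false 0) (.split 0 (.chk false 0) (.part 855 (.chk false 0) (.split 1 (.chk false 0) (.part 4 (.chk false 0) (.split 0 (.chk false 0) (.chk false 0)))))))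
    (by decide +kernel)

theorem p14_2_0 : Ok par f2 Box3.unit C14 :=
  Ok.run hw hf2 ⟨355,25,25,1,10⟩ 59
    (.part 31828687130226345097917503934729383126634526635943234285516057376739667236321032423866367 (.chk false 0) (.split 0 (.split 1 (.split 0 (.split 1 (.chk false 0) (.chk false 0)) (.chk false 0)) (.chk false 0)) (.chk false 0)))
    (by decide +kernel)

theorem p14_3_0 : Ok par f3 Box3.unit C14 :=
  Ok.run hw hf3 ⟨359,25,25,1,10⟩ 59
    (.part 14425371333272495666164735548263090450205061031516892668699222533524440060515125099492354 (.chk false 0) (.split 0 (.part 8115946851821998395699613160054319458845333392684428828 (.chk false 0) (.split 1 (.part 680562137693447659512484589652634763263 (.chk false 0) (.split 0 (.chk false 0) (.part 12 (.chk false 0) (.split 1 (.chk false 0) (.part 1 (.chk false 0) (.split 0 (.chk false 0) (.chk false 0))))))) (.part 21268946006773287673422088784180150272 (.chk false 0) (.split 0 (.part 10467670466806212499117480599707713535 (.chk false 0) (.split 0 (.chk false 0) (.chk false 0))) (.chk false 0))))) (.part 24519928653854221733733552433940719423167808351850463231 (.chk false 0) (.split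 1 (.chk false 0) (.chk false 0)))))
    (by decide +kernel)

theorem p14_4_0 : Ok par f4 ((Box3.unit.r 1).l 1) (selB 0 (selB 0 C14 8584915810276580556491583130921906967083800650121291304003523801371987266036019587308546) 14336899980564056442220973921147327160658337076917114890348189) :=
  Ok.run hw hf4 ⟨367,25,25,1,10⟩ 59
    (.part 4763947772032390237425514794473995894751 (.chk false 0) (.split 0 (.chk false 0) (.part 198 (.chk false 0) (.split 1 (.chk false 0) (.part 30 (.chk false 0) (.split 1 (.chk false 0) (.chk false 0)))))))
    (by decide +kernel)

theorem p14_4_1 : Ok par f4 ((Box3.unit.r 1).r 1) (selB 0 (selB 0 C14 8584915810276580556491583130921906967083800650121291304003523801371987266036019587308546) 14336899980564056442220973921147327160658337076917114890348189) :=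
  Ok.run hw hf4 ⟨440,25,25,1,10⟩ 59
    (.part 5360450157957109733323246510132586085867 (.chk false 0) (.split 0 (.part 17592186019839 (.chk false 0) (.split 1 (.part 2 (.chk false 0) (.split 0 (.chk false 0) (.split 1 (.chk false 0) (.chk false 0)))) (.part 1 (.chk false 0) (.split 0 (.chk false 0) (.chk false 0))))) (.part 4259553075994 (.chk false 0) (.split 1 (.part 431346 (.chk false 0) (.split 0 (.part 2009 (.chk false 0) (.split 1 (.part 2 (.chk false 0) (.split 0 (.chk false 0) (.part 1 (.chk false 0) (.split 1 (.chk false 0) (.chk false 0))))) (.chk false 0))) (.part 1786 (.chk false 0) (.split 1 (.part 6 (.chk false 0) (.split 0 (.chk false 0) (.chk false 0))) (.chk false 0))))) (.chk false 0)))))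
    (by decide +kernel)

theorem p14_4_2 : Ok par f4 (Box3.unit.r 1) (selB 1 (selB 0 C14 8584915810276580556491583130921906967083800650121291304003523801371987266036019587308546) 14336899980564056442220973921147327160658337076917114890348189) :=
  Ok.run hw hf4 ⟨259,25,25,1,10⟩ 59
    (.chk false 0)
    (by decide +kernel)

theorem p14_4_3 : Ok par f4 (Box3.unit.l 1) (selB 0 C14 8584915810276580556491583130921906967083800650121291304003523801371987266036019587308546) :=
  Ok.run hw hf4 ⟨433,25,25,1,10⟩ 59
    (.part 44994265622375573784431121986030491917102912092069782950906393 (.chk false 0) (.split 1 (.split 0 (.chk false 0) (.part 13849447259902933983522467145 (.chk false 0) (.split 1 (.split 0 (.chk false 0) (.part 3372699938136059 (.chk false 0) (.split 1 (.split 0 (.chk false 0) (.chk false 0)) (.chk false 0)))) (.chk false 0)))) (.chk false 0)))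
    (by decide +kernel)

theorem p14_4_4 : Ok par f4 Box3.unit (selB 1 C14 8584915810276580556491583130921906967083800650121291304003523801371987266036019587308546) :=
  Ok.run hw hf4 ⟨221,25,25,1,10⟩ 59
    (.chk false 0)
    (by decide +kernel)

theorem p14_5_0 : Ok par f5 (((Box3.unit.r 1).l 1).r 1) (selB 1 (selB 0 (selB 0 (selB 0 C14 497323236449590172837555812172506110577669735946009255427280645384402148161949481828352) 474284865730519302750094695815107243562038025998873145459774009344273038740560896) 462686619511193129164591834860517738896580356023904254962700197835847738) 184486789676234783662724763008730890344101477718448707) :=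
  Ok.run hw hf5 ⟨305,25,25,1,10⟩ 59
    (.chk false 0)
    (by decide +kernel)

theorem p14_5_1 : Ok par f5 (((Box3.unit.r 1).l 1).r 1) (selB 0 (selB 0 (selB 0 (selB 0 C14 497323236449590172837555812172506110577669735946009255427280645384402148161949481828352) 474284865730519302750094695815107243562038025998873145459774009344273038740560896) 462686619511193129164591834860517738896580356023904254962700197835847738) 184486789676234783662724763008730890344101477718448707) :=
  Ok.run hw hf5 ⟨524,25,25,1,10⟩ 59
    (.split 0 (.part 3626777170577776976068559 (.chk false 0) (.split 1 (.chk false 0) (.part 58 (.chk false 0) (.split 0 (.part 5 (.chk false 0) (.split 1 (.chk false 0) (.split 0 (.chk false 0) (.chk false 0)))) (.part 6 (.chk false 0) (.split 1 (.split 0 (.chk false 0) (.split 1 (.split 0 (.chk false 0) (.split 1 (.split 0 (.chk false 0) (.chk false 0)) (.chk false 0))) (.chk false 0))) (.chk false 0))))))) (.part 2060132415309328565665856 (.chk false 0) (.split 1 (.part 516508834029507657727 (.chk false 0) (.split 0 (.part 7 (.chk false 0) (.split 1 (.chk false 0) (.chk false 0))) (.part 8 (.chk false 0) (.split 1 (.chk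 false 0) (.chk false 0))))) (.chk false 0))))
    (by decide +kernel)

theorem p14_5_2 : Ok par f5 (((Box3.unit.r 1).l 1).l 1) (selB 0 (selB 0 (selB 0 C14 497323236449590172837555812172506110577669735946009255427280645384402148161949481828352) 474284865730519302750094695815107243562038025998873145459774009344273038740560896) 462686619511193129164591834860517738896580356023904254962700197835847738) :=
  Ok.run hw hf5 ⟨446,25,25,1,10⟩ 59
    (.part 191559620476240074698066896562516349012069477116805119 (.chk false 0) (.split 0 (.part 251 (.chk false 0) (.split 1 (.split 0 (.chk false 0) (.split 1 (.chk false 0) (.split 0 (.chk false 0) (.split 1 (.chk false 0) (.chk false 0))))) (.chk false 0))) (.part 166 (.chk false 0) (.split 1 (.chk false 0) (.part 3 (.chk false 0) (.split 1 (.chk false 0) (.chk false 0)))))))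
    (by decide +kernel)

theorem p14_5_3 : Ok par f5 ((Box3.unit.r 1).l 1) (selB 1 (selB 0 (selB 0 C14 497323236449590172837555812172506110577669735946009255427280645384402148161949481828352) 474284865730519302750094695815107243562038025998873145459774009344273038740560896) 462686619511193129164591834860517738896580356023904254962700197835847738) :=
  Ok.run hw hf5 ⟨278,25,25,1,10⟩ 59
    (.chk false 0)
    (by decide +kernel)

theorem p14_5_4 : Ok par f5 ((Box3.unit.r 1).r 1) (selB 0 (selB 0 C14 497323236449590172837555812172506110577669735946009255427280645384402148161949481828352) 474284865730519302750094695815107243562038025998873145459774009344273038740560896) :=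
  Ok.run hw hf5 ⟨374,25,25,1,10⟩ 59
    (.part 28269553036454149273302454313934305752040416655631705376197951612595994559 (.chk false 0) (.split 1 (.part 690 (.chk false 0) (.split 0 (.part 19 (.chk false 0) (.split 1 (.chk false 0) (.chk false 0))) (.chk false 0))) (.chk false 0)))
    (by decide +kernel)

theorem p14_5_5 : Ok par f5 (Box3.unit.r 1) (selB 1 (selB 0 C14 497323236449590172837555812172506110577669735946009255427280645384402148161949481828352) 474284865730519302750094695815107243562038025998873145459774009344273038740560896) :=
  Ok.run hw hf5 ⟨260,25,25,1,10⟩ 59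
    (.chk false 0)
    (by decide +kernel)

theorem p14_5_6 : Ok par f5 (Box3.unit.l 1) (selB 0 C14 497323236449590172837555812172506110577669735946009255427280645384402148161949481828352) :=
  Ok.run hw hf5 ⟨408,25,25,1,10⟩ 59
    (.part 948539829338294782050467071618419588179801798277801259523090744549778999566401535 (.chk false 0) (.split 1 (.part 32769 (.chk false 0) (.split 1 (.split 0 (.part 61375 (.chk false 0) (.split 1 (.split 0 (.chk false 0) (.chk false 0)) (.chk false 0))) (.chk false 0)) (.part 57343 (.chk false 0) (.split 0 (.chk false 0) (.chk false 0))))) (.part 245759 (.chk false 0) (.split 0 (.chk false 0) (.chk false 0)))))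
    (by decide +kernel)

theorem p14_5_7 : Ok par f5 Box3.unit (selB 1 C14 497323236449590172837555812172506110577669735946009255427280645384402148161949481828352) :=
  Ok.run hw hf5 ⟨222,25,25,1,10⟩ 59
    (.chk false 0)
    (by decide +kernel)

theorem p14_6_0 : Ok par f6 Box3.unit C14 :=
  Ok.run hw hf6 ⟨259,25,25,1,10⟩ 59
    (.part 31828687130226345097430539898053974695343353675933930908035522283822608463521086080548863 (.chk false 0) (.split 0 (.chk false 0) (.chk false 0)))
    (by decide +kernel)

theorem p14_7_0 : Ok par f7 (Box3.unit.l 0) (selB 0 C14 12439963725417800427165294720515657311451692295695193082994825940394065196348277033253890) :=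
  Ok.run hw hf7 ⟨485,25,25,1,10⟩ 59
    (.part 11707691240538892559796186428350701995340221071342252834815 (.chk false 0) (.split 1 (.chk false 0) (.split 0 (.chk false 0) (.part 2060433485135 (.chk false 0) (.split 1 (.chk false 0) (.part 64 (.chk false 0) (.split 0 (.chk false 0) (.part 815 (.chk false 0) (.split 1 (.chk false 0) (.part 1 (.chk false 0) (.split 0 (.chk false 0) (.part 2 (.chk false 0) (.split 1 (.chk false 0) (.split 0 (.chk false 0) (.split 1 (.chk false 0) (.chk false 0))))))))))))))))
    (by decide +kernel)

theorem p14_7_1 : Ok par f7 (Box3.unit.r 0) (selB 0 C14 12439963725417800427165294720515657311451692295695193082994825940394065196348277033253890) :=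
  Ok.run hw hf7 ⟨326,25,25,1,10⟩ 59
    (.part 12554203470773361527671578765285694417007733381680846602239 (.chk false 0) (.split 1 (.chk false 0) (.part 5 (.chk false 0) (.split 0 (.chk false 0) (.chk false 0)))))
    (by decide +kernel)

theorem p14_7_2 : Ok par f7 Box3.unit (selB 1 C14 12439963725417800427165294720515657311451692295695193082994825940394065196348277033253890) :=
  Ok.run hw hf7 ⟨221,25,25,1,10⟩ 59
    (.chk false 0)
    (by decide +kernel)

theorem p14_8_0 : Ok par f8 Box3.unit C14 :=
  Ok.run hw hf8 ⟨222,25,25,1,10⟩ 59
    (.chk false 0)
    (by decide +kernel)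

theorem p14_9_0 : Ok par f9 Box3.unit C14 :=
  Ok.run hw hf9 ⟨222,25,25,1,10⟩ 59
    (.chk false 0)
    (by decide +kernel)


end Crest.Agent.R163.b4G
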