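import Crest.Agent.R163.Q3.D.b4G.S15
import Crest.Agent.R163.Q3.D.b4G.F0
import Crest.Agent.R163.Q3.D.b4G.F1
import Crest.Agent.R163.Q3.D.b4G.F2
import Crest.Agent.R163.Q3.D.b4G.F3
import Crest.Agent.R163.Q3.D.b4G.F4
import Crest.Agent.R163.Q3.D.b4G.F5
import Crest.Agent.R163.Q3.D.b4G.F6

set_option autoImplicit false
set_option maxRecDepth 100000
set_option linter.all false
set_option Elab.async false

namespace Crest.Agent.R163.b4G

theorem p15_0_0 : Ok par f0 Box3.unit C15 :=
  Ok.run hw hf0 ⟨325,25,25,1,10⟩ 58
    (.part 15914324593733652962586341417125014070681877462910795695653059549319567468012110201487359 (.chk false 0) (.split 0 (.chk false 0) (.part 7 (.chk false 0) (.split 1 (.chk false 0) (.split 0 (.chk false 0) (.chk false 0))))))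
    (by decide +kernel)

theorem p15_1_0 : Ok par f1 Box3.unit C15 :=
  Ok.run hw hf1 ⟨401,25,25,1,10⟩ 58
    (.part 13923120756736422621884737547596930516026505775301256879194154433529820526477775755804671 (.chk false 0) (.split 0 (.part 154742504334211782058967039 (.chk false 0) (.split 0 (.chk false 0) (.chk false 0))) (.part 121197579910086072457505916 (.chk false 0) (.split 0 (.part 562949953421311 (.chk false 0) (.split 1 (.chk false 0) (.split 0 (.chk false 0) (.chk false 0)))) (.part 2198899738017713 (.chk false 0) (.split 1 (.part 32764 (.chk false 0) (.split 1 (.chk false 0) (.part 1 (.chk false 0) (.split 0 (.chk false 0) (.chk false 0))))) (.part 6191 (.chk false 0) (.split 0 (.part 127 (.chk false 0) (.split 1 (.chk false 0) (.split 0 (.chk false 0) (.chk false 0)))) (.chk false 0)))))))))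
    (by decide +kernel)

theorem p15_2_0 : Ok par f2 Box3.unit C15 :=
  Ok.run hw hf2 ⟨220,25,25,1,10⟩ 58
    (.chk false 0)
    (by decide +kernel)

theorem p15_3_0 : Ok par f3 Box3.unit C15 :=
  Ok.run hw hf3 ⟨351,25,25,1,10⟩ 58
    (.part 15914343565113172548972231940698266111337647312722975531236949313654266948181487152276993 (.chk false 0) (.split 0 (.part 1024692868791369729 (.chk false 0) (.split 1 (.chk false 0) (.part 601328976896 (.chk false 0) (.split 0 (.part 1010630639 (.chk false 0) (.split 0 (.chk false 0) (.chk false 0))) (.chk false 0))))) (.chk false 0)))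
    (by decide +kernel)

theorem p15_4_0 : Ok par f4 (((Box3.unit.r 1).l 1).l 0) (selB 0 (selB 0 (selB 0 C15 8304919948529018978088094486140102375383602608694637256256680714305765861966476753774081) 5713240061946078549370704842206145207496585265346325872640) 33494745968323960417588032116848950735731983) :=
  Ok.run hw hf4 ⟨358,25,25,1,10⟩ 58
    (.part 574938895917342449991679 (.chk false 0) (.split 0 (.chk false 0) (.part 13 (.chk false 0) (.split 1 (.chk false 0) (.chk false 0)))))
    (by decide +kernel)

theorem p15_4_1 : Ok par f4 (((Box3.unit.r 1).l 1).r 0) (selB 0 (selB 0 (selB 0 C15 8304919948529018978088094486140102375383602608694637256256680714305765861966476753774081) 5713240061946078549370704842206145207496585265346325872640) 33494745968323960417588032116848950735731983) :=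
  Ok.run hw hf4 ⟨473,25,25,1,10⟩ 58
    (.part 450834680702271027684066 (.chk false 0) (.split 1 (.part 1099511627775 (.chk false 0) (.split 0 (.part 1 (.chk false 0) (.split 1 (.chk false 0) (.part 2 (.chk false 0) (.split 0 (.split 1 (.chk false 0) (.split 0 (.chk false 0) (.split 1 (.chk false 0) (.chk false 0)))) (.chk false 0))))) (.part 6 (.chk false 0) (.split 1 (.chk false 0) (.chk false 0))))) (.part 8282577275963 (.chk false 0) (.split 0 (.part 5108735 (.chk false 0) (.split 1 (.part 47 (.chk false 0) (.split 0 (.chk false 0) (.split 1 (.chk false 0) (.chk false 0)))) (.part 33 (.chk false 0) (.split 0 (.part 9 (.chk false 0) (.split 1 (.part 2 (.chk false 0) (.split 0 (.chk false 0) (.chk false 0))) (.chk false 0))) (.part 14 (.chk false 0) (.split 1 (.split 0 (.chk false 0) (.chk false 0)) (.chk false 0))))))) (.part 12492217 (.chk false 0) (.split 1 (.chk false 0) (.chk false 0)))))))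
    (by decide +kernel)

theorem p15_4_2 : Ok par f4 ((Box3.unit.r 1).l 1) (selB 1 (selB 0 (selB 0 C15 8304919948529018978088094486140102375383602608694637256256680714305765861966476753774081) 5713240061946078549370704842206145207496585265346325872640) 33494745968323960417588032116848950735731983) :=
  Ok.run hw hf4 ⟨275,25,25,1,10⟩ 58
    (.chk false 0)
    (by decide +kernel)

theorem p15_4_3 : Ok par f4 ((Box3.unit.r 1).r 1) (selB 0 (selB 0 C15 8304919948529018978088094486140102375383602608694637256256680714305765861966476753774081) 5713240061946078549370704842206145207496585265346325872640) :=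
  Ok.run hw hf4 ⟨439,25,25,1,10⟩ 58
    (.part 5487922063510309911413438587867644071739223 (.chk false 0) (.split 0 (.part 70931694131085311 (.chk false 0) (.split 0 (.chk false 0) (.split 1 (.chk false 0) (.chk false 0)))) (.part 72053190263519729 (.chk false 0) (.split 1 (.part 10628 (.chk false 0) (.split 0 (.part 1391 (.chk false 0) (.split 1 (.part 4 (.chk false 0) (.split 0 (.chk false 0) (.part 2 (.chk false 0) (.split 1 (.chk false 0) (.chk false 0))))) (.chk false 0))) (.chk false 0))) (.chk false 0)))))
    (by decide +kernel)

theorem p15_4_4 : Ok par f4 (Box3.unit.r 1) (selB 1 (selB 0 C15 8304919948529018978088094486140102375383602608694637256256680714305765861966476753774081) 5713240061946078549370704842206145207496585265346325872640) :=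
  Ok.run hw hf4 ⟨258,25,25,1,10⟩ 58
    (.chk false 0)
    (by decide +kernel)

theorem p15_4_5 : Ok par f4 (Box3.unit.l 1) (selB 0 C15 8304919948529018978088094486140102375383602608694637256256680714305765861966476753774081) :=
  Ok.run hw hf4 ⟨432,25,25,1,10⟩ 58
    (.part 3707045712147832641587573712547361780608916172652501140783 (.chk false 0) (.split 1 (.part 2361183241435225260032 (.chk false 0) (.split 0 (.chk false 0) (.part 2010659069739682328384 (.chk false 0) (.split 1 (.split 0 (.chk false 0) (.part 2975711 (.chk false 0) (.split 1 (.split 0 (.chk false 0) (.chk false 0)) (.chk false 0)))) (.chk false 0))))) (.part 15835358851376131080191 (.chk false 0) (.split 0 (.part 479 (.chk false 0) (.split 0 (.chk false 0) (.chk false 0))) (.part 494 (.chk false 0) (.split 0 (.chk false 0) (.chk false 0)))))))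
    (by decide +kernel)

theorem p15_4_6 : Ok par f4 Box3.unit (selB 1 C15 8304919948529018978088094486140102375383602608694637256256680714305765861966476753774081) :=
  Ok.run hw hf4 ⟨220,25,25,1,10⟩ 58
    (.chk false 0)
    (by decide +kernel)

theorem p15_5_0 : Ok par f5 (((Box3.unit.r 1).l 1).l 1) (selB 0 (selB 0 (selB 0 C15 948576046393951051799313473916030717203763578919268013863835803255163983575385600) 54686884063264807878499298184922141973585224453410184348073757525452783617) 335607638181918383142125741705188228274255163639333888) :=
  Ok.run hw hf5 ⟨466,25,25,1,10⟩ 58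
    (.part 6857345863861073965229541300586345682108678143 (.chk false 0) (.split 0 (.part 524285 (.chk false 0) (.split 0 (.chk false 0) (.chk false 0))) (.part 8195 (.chk false 0) (.split 1 (.part 61181 (.chk false 0) (.split 0 (.chk false 0) (.split 1 (.part 5 (.chk false 0) (.split 0 (.chk false 0) (.split 1 (.chk false 0) (.chk false 0)))) (.chk false 0)))) (.part 62911 (.chk false 0) (.split 0 (.chk false 0) (.part 2 (.chk false 0) (.split 1 (.chk false 0) (.part 2 (.chk false 0) (.split 0 (.chk false 0) (.split 1 (.chk false 0) (.chk false 0))))))))))))
    (by decide +kernel)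

theorem p15_5_1 : Ok par f5 (((Box3.unit.r 1).l 1).r 1) (selB 0 (selB 0 (selB 0 C15 948576046393951051799313473916030717203763578919268013863835803255163983575385600) 54686884063264807878499298184922141973585224453410184348073757525452783617) 335607638181918383142125741705188228274255163639333888) :=
  Ok.run hw hf5 ⟨468,25,25,1,10⟩ 58
    (.part 22835963083128717027263989029290280922761104391 (.chk false 0) (.split 0 (.part 2198956144119 (.chk false 0) (.split 1 (.part 11 (.chk false 0) (.split 0 (.chk false 0) (.chk false 0))) (.part 14 (.chk false 0) (.split 0 (.split 1 (.chk false 0) (.chk false 0)) (.chk false 0))))) (.part 52160375841 (.chk false 0) (.split 1 (.part 2112606677 (.chk false 0) (.split 0 (.chk false 0) (.split 1 (.part 959 (.chk false 0) (.split 0 (.chk false 0) (.split 1 (.chk false 0) (.chk false 0)))) (.chk false 0)))) (.chk false 0)))))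
    (by decide +kernel)

theorem p15_5_2 : Ok par f5 ((Box3.unit.r 1).l 1) (selB 1 (selB 0 (selB 0 C15 948576046393951051799313473916030717203763578919268013863835803255163983575385600) 54686884063264807878499298184922141973585224453410184348073757525452783617) 335607638181918383142125741705188228274255163639333888) :=
  Ok.run hw hf5 ⟨277,25,25,1,10⟩ 58
    (.chk false 0)
    (by decide +kernel)

theorem p15_5_3 : Ok par f5 ((Box3.unit.r 1).r 1) (selB 0 (selB 0 C15 948576046393951051799313473916030717203763578919268013863835803255163983575385600) 54686884063264807878499298184922141973585224453410184348073757525452783617) :=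
  Ok.run hw hf5 ⟨288,25,25,1,10⟩ 58
    (.chk false 0)
    (by decide +kernel)

theorem p15_5_4 : Ok par f5 (Box3.unit.r 1) (selB 1 (selB 0 C15 948576046393951051799313473916030717203763578919268013863835803255163983575385600) 54686884063264807878499298184922141973585224453410184348073757525452783617) :=
  Ok.run hw hf5 ⟨259,25,25,1,10⟩ 58
    (.chk false 0)
    (by decide +kernel)

theorem p15_5_5 : Ok par f5 (Box3.unit.l 1) (selB 0 C15 948576046393951051799313473916030717203763578919268013863835803255163983575385600) :=
  Ok.run hw hf5 ⟨407,25,25,1,10⟩ 58
    (.part 2207688911400508967947325130558956495537830657309673531261374415075540991 (.chk false 0) (.split 1 (.part 439800423250160 (.chk false 0) (.split 1 (.part 57456 (.chk false 0) (.split 0 (.part 382 (.chk false 0) (.split 1 (.split 0 (.chk false 0) (.chk false 0)) (.chk false 0))) (.chk false 0))) (.part 49151 (.chk false 0) (.split 0 (.chk false 0) (.split 0 (.chk false 0) (.split 1 (.chk false 0) (.chk false 0))))))) (.part 545911787880447 (.chk false 0) (.split 1 (.part 131067 (.chk false 0) (.split 0 (.chk false 0) (.chk false 0))) (.part 131035 (.chk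 false 0) (.split 0 (.chk false 0) (.part 1 (.chk false 0) (.split 1 (.chk false 0) (.chk false 0)))))))))
    (by decide +kernel)

theorem p15_5_6 : Ok par f5 Box3.unit (selB 1 C15 948576046393951051799313473916030717203763578919268013863835803255163983575385600) :=
  Ok.run hw hf5 ⟨221,25,25,1,10⟩ 58
    (.chk false 0)
    (by decide +kernel)

theorem p15_6_0 : Ok par f6 Box3.unit C15 :=
  Ok.run hw hf6 ⟨258,25,25,1,10⟩ 58
    (.part 15914343565113172548972231940698266883214596814359309830574206957328175517296986314244095 (.chk false 0) (.split 0 (.chk false 0) (.chk false 0)))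
    (by decide +kernel)


end Crest.Agent.R163.b4G
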