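import Crest.Agent.R163.Q3.D.b4G.S16
import Crest.Agent.R163.Q3.D.b4G.F0
import Crest.Agent.R163.Q3.D.b4G.F1
import Crest.Agent.R163.Q3.D.b4G.F2
import Crest.Agent.R163.Q3.D.b4G.F3
import Crest.Agent.R163.Q3.D.b4G.F4
import Crest.Agent.R163.Q3.D.b4G.F5
import Crest.Agent.R163.Q3.D.b4G.F6
import Crest.Agent.R163.Q3.D.b4G.F7
import Crest.Agent.R163.Q3.D.b4G.F8
import Crest.Agent.R163.Q3.D.b4G.F9

set_option autoImplicit false
set_option maxRecDepth 100000
set_option linter.all false
set_option Elab.async false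

namespace Crest.Agent.R163.b4G

theorem p16_0_0 : Ok par f0 Box3.unit C16 :=
  Ok.run hw hf0 ⟨258,25,25,1,10⟩ 58
    (.part 2199016963007 (.chk false 0) (.split 0 (.chk false 0) (.chk false 0)))
    (by decide +kernel)

theorem p16_1_0 : Ok par f1 Box3.unit C16 :=
  Ok.run hw hf1 ⟨377,25,25,1,10⟩ 58
    (.part 1924021092352 (.chk false 0) (.split 0 (.part 8912863 (.chk false 0) (.split 0 (.part 23 (.chk false 0) (.split 0 (.part 1 (.chk false 0) (.split 1 (.chk false 0) (.split 0 (.chk false 0) (.chk false 0)))) (.chk false 0))) (.part 47 (.chk false 0) (.split 0 (.split 0 (.chk false 0) (.chk false 0)) (.chk false 0))))) (.part 24740863 (.chk false 0) (.split 0 (.part 58 (.chk false 0) (.split 1 (.chk false 0) (.part 1 (.chk false 0) (.split 0 (.chk false 0) (.chk false 0))))) (.chk false 0)))))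
    (by decide +kernel)

theorem p16_2_0 : Ok par f2 Box3.unit C16 :=
  Ok.run hw hf2 ⟨423,25,25,1,10⟩ 58
    (.part 1838201962495 (.chk false 0) (.split 1 (.part 2 (.chk false 0) (.split 0 (.chk false 0) (.part 1 (.chk false 0) (.split 1 (.part 3 (.chk false 0) (.split 0 (.chk false 0) (.part 1 (.chk false 0) (.split 1 (.chk false 0) (.split 0 (.split 1 (.chk false 0) (.chk false 0)) (.chk false 0)))))) (.part 7 (.chk false 0) (.split 0 (.chk false 0) (.chk false 0))))))) (.chk false 0)))
    (by decide +kernel)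

theorem p16_3_0 : Ok par f3 Box3.unit C16 :=
  Ok.run hw hf3 ⟨407,25,25,1,10⟩ 58
    (.part 1660742008831 (.chk false 0) (.split 1 (.chk false 0) (.split 0 (.chk false 0) (.part 19 (.chk false 0) (.split 1 (.chk false 0) (.split 0 (.chk false 0) (.part 63 (.chk false 0) (.split 1 (.chk false 0) (.split 0 (.chk false 0) (.chk false 0))))))))))
    (by decide +kernel)

theorem p16_4_0 : Ok par f4 (Box3.unit.l 1) (selB 0 C16 1938785042512) :=
  Ok.run hw hf4 ⟨445,25,25,1,10⟩ 58
    (.part 132369 (.chk false 0) (.split 0 (.part 411071 (.chk false 0) (.split 1 (.part 1983 (.chk false 0) (.split 0 (.split 1 (.chk false 0) (.split 0 (.chk false 0) (.split 1 (.chk false 0) (.split 0 (.chk false 0) (.chk false 0))))) (.chk false 0))) (.part 663 (.chk false 0) (.split 0 (.part 9 (.chk false 0) (.split 1 (.part 1 (.chk false 0) (.split 0 (.chk false 0) (.part 1 (.chk false 0) (.split 1 (.chk false 0) (.chk false 0))))) (.chk false 0))) (.chk false 0))))) (.part 8384495 (.chk false 0) (.split 1 (.part 1 (.chk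 false 0) (.split 1 (.split 0 (.chk false 0) (.chk false 0)) (.chk false 0))) (.part 2 (.chk false 0) (.split 0 (.split 1 (.chk false 0) (.chk false 0)) (.chk false 0)))))))
    (by decide +kernel)

theorem p16_4_1 : Ok par f4 (Box3.unit.r 1) (selB 0 C16 1938785042512) :=
  Ok.run hw hf4 ⟨390,25,25,1,10⟩ 58
    (.part 234797807 (.chk false 0) (.split 0 (.part 25 (.chk false 0) (.split 1 (.part 2 (.chk false 0) (.split 0 (.split 1 (.part 1 (.chk false 0) (.split 0 (.chk false 0) (.chk false 0))) (.chk false 0)) (.chk false 0))) (.chk false 0))) (.part 62 (.chk false 0) (.split 1 (.split 1 (.split 0 (.chk false 0) (.chk false 0)) (.chk false 0)) (.chk false 0)))))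
    (by decide +kernel)

theorem p16_4_2 : Ok par f4 Box3.unit (selB 1 C16 1938785042512) :=
  Ok.run hw hf4 ⟨220,25,25,1,10⟩ 58
    (.chk false 0)
    (by decide +kernel)

theorem p16_5_0 : Ok par f5 (Box3.unit.l 1) (selB 0 C16 1109846392832) :=
  Ok.run hw hf5 ⟨456,25,25,1,10⟩ 58
    (.part 34360262656 (.chk false 0) (.split 1 (.part 1266679805 (.chk false 0) (.split 0 (.chk false 0) (.split 1 (.part 207 (.chk false 0) (.split 0 (.chk false 0) (.split 1 (.chk false 0) (.part 1 (.chk false 0) (.split 0 (.chk false 0) (.split 1 (.chk false 0) (.chk false 0))))))) (.part 61 (.chk false 0) (.split 0 (.chk false 0) (.split 1 (.chk false 0) (.part 1 (.chk false 0) (.split 0 (.chk false 0) (.split 1 (.chk false 0) (.chk false 0)))))))))) (.part 16049504259 (.chk false 0) (.split 0 (.chk false 0) (.split 1 (.part 917359 (.chk false 0) (.split 0 (.chk false 0) (.split 1 (.chk false 0) (.part 39 (.chk false 0) (.split 0 (.chk false 0) (.split 1 (.chk false 0) (.chk false 0))))))) (.part 8289023 (.chk false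 0) (.split 0 (.chk false 0) (.split 1 (.part 11 (.chk false 0) (.split 0 (.chk false 0) (.split 1 (.chk false 0) (.chk false 0)))) (.part 7 (.chk false 0) (.split 1 (.chk false 0) (.chk false 0)))))))))))
    (by decide +kernel)

theorem p16_5_1 : Ok par f5 (Box3.unit.r 1) (selB 0 C16 1109846392832) :=
  Ok.run hw hf5 ⟨259,25,25,1,10⟩ 58
    (.chk false 0)
    (by decide +kernel)

theorem p16_5_2 : Ok par f5 Box3.unit (selB 1 C16 1109846392832) :=
  Ok.run hw hf5 ⟨221,25,25,1,10⟩ 58
    (.chk false 0)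
    (by decide +kernel)

theorem p16_6_0 : Ok par f6 Box3.unit C16 :=
  Ok.run hw hf6 ⟨220,25,25,1,10⟩ 58
    (.chk false 0)
    (by decide +kernel)

theorem p16_7_0 : Ok par f7 Box3.unit C16 :=
  Ok.run hw hf7 ⟨381,25,25,1,10⟩ 58
    (.part 2198966108828 (.chk false 0) (.split 0 (.part 3167 (.chk false 0) (.split 1 (.chk false 0) (.part 4 (.chk false 0) (.split 0 (.part 239 (.chk false 0) (.split 1 (.chk false 0) (.split 0 (.chk false 0) (.chk false 0)))) (.chk false 0))))) (.chk false 0)))
    (by decide +kernel)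

theorem p16_8_0 : Ok par f8 Box3.unit C16 :=
  Ok.run hw hf8 ⟨221,25,25,1,10⟩ 58
    (.chk false 0)
    (by decide +kernel)

theorem p16_9_0 : Ok par f9 Box3.unit C16 :=
  Ok.run hw hf9 ⟨221,25,25,1,10⟩ 58
    (.chk false 0)
    (by decide +kernel)


end Crest.Agent.R163.b4G
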