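import Crest.Agent.R163.Q3.D.b4G.S1
import Crest.Agent.R163.Q3.D.b4G.F0
import Crest.Agent.R163.Q3.D.b4G.F1
import Crest.Agent.R163.Q3.D.b4G.F2
import Crest.Agent.R163.Q3.D.b4G.F3
import Crest.Agent.R163.Q3.D.b4G.F4
import Crest.Agent.R163.Q3.D.b4G.F5
import Crest.Agent.R163.Q3.D.b4G.F6
import Crest.Agent.R163.Q3.D.b4G.F7
import Crest.Agent.R163.Q3.D.b4G.F8

set_option autoImplicit false
set_option maxRecDepth 100000
set_option linter.all false
set_option Elab.async false

namespace Crest.Agent.R163.b4G

theorem p1_0_0 : Ok par f0 Box3.unit C1 :=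
  Ok.run hw hf0 ⟨259,25,25,1,10⟩ 59
    (.part 497323236409786642155382248146820840077072124600053270749202543689620397937486509113343 (.chk false 0) (.split 0 (.chk false 0) (.chk false 0)))
    (by decide +kernel)

theorem p1_1_0 : Ok par f1 Box3.unit C1 :=
  Ok.run hw hf1 ⟨352,25,25,1,10⟩ 59
    (.part 497322287840988076366979781484652481562440666461714799548715163666784574423121814093822 (.chk false 0) (.split 0 (.part 30719 (.chk false 0) (.split 0 (.chk false 0) (.chk false 0))) (.part 26839 (.chk false 0) (.split 0 (.chk false 0) (.part 58 (.chk false 0) (.split 1 (.chk false 0) (.split 0 (.chk false 0) (.chk false 0))))))))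
    (by decide +kernel)

theorem p1_2_0 : Ok par f2 Box3.unit C1 :=
  Ok.run hw hf2 ⟨371,25,25,1,10⟩ 59
    (.part 497323236351890597536618838143354530445087351732162187899107597304561205984345030918143 (.chk false 0) (.split 0 (.split 0 (.part 3 (.chk false 0) (.split 1 (.chk false 0) (.chk false 0))) (.part 2 (.chk false 0) (.split 1 (.chk false 0) (.part 2 (.chk false 0) (.split 0 (.split 1 (.chk false 0) (.chk false 0)) (.chk false 0)))))) (.chk false 0)))
    (by decide +kernel)

theorem p1_3_0 : Ok par f3 (Box3.unit.l 0) (selB 1 (selB 0 C1 388981147275515258127778689300481983385820233050013207178247426037688731900560975855615) 42817886029747367058028994374029365415518243) :=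
  Ok.run hw hf3 ⟨259,25,25,1,10⟩ 59
    (.chk false 0)
    (by decide +kernel)

theorem p1_3_1 : Ok par f3 (Box3.unit.l 0) (selB 0 (selB 0 C1 388981147275515258127778689300481983385820233050013207178247426037688731900560975855615) 42817886029747367058028994374029365415518243) :=
  Ok.run hw hf3 ⟨473,25,25,1,10⟩ 59
    (.split 1 (.part 1237937677525678087773093887 (.chk false 0) (.split 0 (.chk false 0) (.chk false 0))) (.part 2361759702187126030336 (.chk false 0) (.split 0 (.part 309485009821341752873176895 (.chk false 0) (.split 1 (.chk false 0) (.split 0 (.part 1022 (.chk false 0) (.split 1 (.chk false 0) (.split 0 (.chk false 0) (.chk false 0)))) (.part 999 (.chk false 0) (.split 1 (.chk false 0) (.split 0 (.chk false 0) (.chk false 0))))))) (.part 241785163634483789847855103 (.chk false 0) (.split 1 (.chk false 0) (.part 32 (.chk false 0) (.split 0 (.part 2025 (.chk false 0) (.split 1 (.chk false 0) (.split 0 (.part 6 (.chk false 0) (.split 1 (.chk false 0) (.split 0 (.chk false 0) (.chk false 0)))) (.chk false 0)))) (.chk false 0))))))))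
    (by decide +kernel)

theorem p1_3_2 : Ok par f3 (Box3.unit.r 0) (selB 0 C1 388981147275515258127778689300481983385820233050013207178247426037688731900560975855615) :=
  Ok.run hw hf3 ⟨326,25,25,1,10⟩ 59
    (.part 33449070786662141053954772186634161601118207 (.chk false 0) (.split 1 (.chk false 0) (.part 47 (.chk false 0) (.split 0 (.chk false 0) (.chk false 0)))))
    (by decide +kernel)

theorem p1_3_3 : Ok par f3 Box3.unit (selB 1 C1 388981147275515258127778689300481983385820233050013207178247426037688731900560975855615) :=
  Ok.run hw hf3 ⟨221,25,25,1,10⟩ 59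
    (.chk false 0)
    (by decide +kernel)

theorem p1_4_0 : Ok par f4 ((Box3.unit.l 1).l 0) (selB 0 C1 497284107802251207394340035800784944223069026379816759787634316828929658756424513093631) :=
  Ok.run hw hf4 ⟨416,25,25,1,10⟩ 59
    (.part 342519312347 (.chk false 0) (.split 0 (.chk false 0) (.part 248 (.chk false 0) (.split 1 (.split 0 (.chk false 0) (.part 5 (.chk false 0) (.split 1 (.split 0 (.chk false 0) (.chk false 0)) (.chk false 0)))) (.chk false 0)))))
    (by decide +kernel)

theorem p1_4_1 : Ok par f4 ((Box3.unit.l 1).r 0) (selB 0 C1 497284107802251207394340035800784944223069026379816759787634316828929658756424513093631) :=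
  Ok.run hw hf4 ⟨550,25,25,1,10⟩ 59
    (.part 261127565861 (.chk false 0) (.split 1 (.part 135168 (.chk false 0) (.split 0 (.part 262109 (.chk false 0) (.split 1 (.split 0 (.chk false 0) (.part 1 (.chk false 0) (.split 1 (.split 0 (.chk false 0) (.split 1 (.split 0 (.chk false 0) (.chk false 0)) (.chk false 0))) (.chk false 0)))) (.chk false 0))) (.part 262007 (.chk false 0) (.split 1 (.split 1 (.split 0 (.split 1 (.split 0 (.chk false 0) (.part 2 (.chk false 0) (.split 1 (.split 0 (.split 0 (.chk false 0) (.chk false 0)) (.chk false 0)) (.chk false 0)))) (.chk false 0)) (.chk false 0)) (.chk false 0)) (.chk false 0))))) (.chk false 0)))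
    (by decide +kernel)

theorem p1_4_2 : Ok par f4 (Box3.unit.r 1) (selB 0 C1 497284107802251207394340035800784944223069026379816759787634316828929658756424513093631) :=
  Ok.run hw hf4 ⟨259,25,25,1,10⟩ 59
    (.chk false 0)
    (by decide +kernel)

theorem p1_4_3 : Ok par f4 Box3.unit (selB 1 C1 497284107802251207394340035800784944223069026379816759787634316828929658756424513093631) :=
  Ok.run hw hf4 ⟨221,25,25,1,10⟩ 59
    (.chk false 0)
    (by decide +kernel)

theorem p1_5_0 : Ok par f5 (Box3.unit.l 1) (selB 0 C1 495441038778147460414071314704910092522248903700778614830979892299444608219545752878975) :=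
  Ok.run hw hf5 ⟨448,25,25,1,10⟩ 59
    (.part 26180690172023144956 (.chk false 0) (.split 1 (.split 1 (.part 2 (.chk false 0) (.split 0 (.part 1097152220471 (.chk false 0) (.split 1 (.split 0 (.part 8059 (.chk false 0) (.split 0 (.chk false 0) (.chk false 0))) (.part 8167 (.chk false 0) (.split 1 (.split 0 (.chk false 0) (.chk false 0)) (.chk false 0)))) (.chk false 0))) (.part 1099478073087 (.chk false 0) (.split 1 (.split 1 (.split 0 (.part 1 (.chk false 0) (.split 0 (.chk false 0) (.chk false 0))) (.chk false 0)) (.chk false 0)) (.chk false 0))))) (.part 2199023255548 (.chk false 0) (.split 0 (.chk false 0) (.chk false 0)))) (.part 2199023255549 (.chk false 0) (.split 0 (.chk false 0) (.chk false 0)))))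
    (by decide +kernel)

theorem p1_5_1 : Ok par f5 (Box3.unit.r 1) (selB 0 C1 495441038778147460414071314704910092522248903700778614830979892299444608219545752878975) :=
  Ok.run hw hf5 ⟨327,25,25,1,10⟩ 59
    (.part 142800060018681970349 (.chk false 0) (.split 0 (.part 3583 (.chk false 0) (.split 0 (.chk false 0) (.chk false 0))) (.part 1023 (.chk false 0) (.split 1 (.chk false 0) (.chk false 0)))))
    (by decide +kernel)

theorem p1_5_2 : Ok par f5 Box3.unit (selB 1 C1 495441038778147460414071314704910092522248903700778614830979892299444608219545752878975) :=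
  Ok.run hw hf5 ⟨222,25,25,1,10⟩ 59
    (.chk false 0)
    (by decide +kernel)

theorem p1_6_0 : Ok par f6 Box3.unit C1 :=
  Ok.run hw hf6 ⟨221,25,25,1,10⟩ 59
    (.chk false 0)
    (by decide +kernel)

theorem p1_7_0 : Ok par f7 Box3.unit C1 :=
  Ok.run hw hf7 ⟨221,25,25,1,10⟩ 59
    (.chk false 0)
    (by decide +kernel)

theorem p1_8_0 : Ok par f8 ((Box3.unit.l 1).l 0) (selB 0 (selB 0 C1 373143131247031210597970112252383071520537455254334460658910007873024578612182604758911) 3039923411224826838657723134105712592760182808283143) :=
  Ok.run hw hf8 ⟨472,25,25,1,10⟩ 59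
    (.part 1416179454472843330562997495041033928810954746 (.chk false 0) (.split 0 (.chk false 0) (.part 17333092534 (.chk false 0) (.split 1 (.chk false 0) (.part 1692438 (.chk false 0) (.split 0 (.chk false 0) (.part 1083 (.chk false 0) (.split 1 (.chk false 0) (.part 784 (.chk false 0) (.split 1 (.part 79 (.chk false 0) (.split 0 (.chk false 0) (.split 1 (.part 2 (.chk false 0) (.split 0 (.chk false 0) (.chk false 0))) (.part 2 (.chk false 0) (.split 0 (.chk false 0) (.chk false 0)))))) (.part 124 (.chk false 0) (.split 0 (.part 1 (.chk false 0) (.split 0 (.chk false 0) (.split 1 (.chk false 0) (.chk false 0)))) (.chk false 0)))))))))))))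
    (by decide +kernel)

theorem p1_8_1 : Ok par f8 ((Box3.unit.l 1).r 0) (selB 0 (selB 0 C1 373143131247031210597970112252383071520537455254334460658910007873024578612182604758911) 3039923411224826838657723134105712592760182808283143) :=
  Ok.run hw hf8 ⟨426,25,25,1,10⟩ 59
    (.part 2810047700801440599202422133195651570695371775 (.chk false 0) (.split 1 (.chk false 0) (.part 31095257408 (.chk false 0) (.split 0 (.part 4547 (.chk false 0) (.split 1 (.part 2031 (.chk false 0) (.split 0 (.split 1 (.chk false 0) (.chk false 0)) (.chk false 0))) (.part 2044 (.chk false 0) (.split 0 (.split 1 (.part 2 (.chk false 0) (.split 0 (.chk false 0) (.chk false 0))) (.part 1 (.chk false 0) (.split 0 (.chk false 0) (.chk false 0)))) (.chk false 0))))) (.chk false 0)))))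
    (by decide +kernel)

theorem p1_8_2 : Ok par f8 (Box3.unit.l 1) (selB 1 (selB 0 C1 373143131247031210597970112252383071520537455254334460658910007873024578612182604758911) 3039923411224826838657723134105712592760182808283143) :=
  Ok.run hw hf8 ⟨260,25,25,1,10⟩ 59
    (.chk false 0)
    (by decide +kernel)

theorem p1_8_3 : Ok par f8 ((Box3.unit.r 1).l 0) (selB 0 (selB 0 C1 373143131247031210597970112252383071520537455254334460658910007873024578612182604758911) 3338078343226355447194819042064466287328231591772160) :=
  Ok.run hw hf8 ⟨472,25,25,1,10⟩ 59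
    (.part 171501625445697720027354438147765807579007 (.chk false 0) (.split 0 (.chk false 0) (.part 16897642497 (.chk false 0) (.split 1 (.part 128 (.chk false 0) (.split 0 (.chk false 0) (.part 82432 (.chk false 0) (.split 1 (.part 8415 (.chk false 0) (.split 0 (.part 31 (.chk false 0) (.split 1 (.chk false 0) (.chk false 0))) (.part 2 (.chk false 0) (.split 1 (.part 23 (.chk false 0) (.split 0 (.split 1 (.chk false 0) (.chk false 0)) (.chk false 0))) (.part 25 (.chk false 0) (.split 0 (.part 2 (.chk false 0) (.split 1 (.chk false 0) (.chk false 0))) (.chk false 0))))))) (.chk false 0))))) (.chk false 0)))))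
    (by decide +kernel)


end Crest.Agent.R163.b4G
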