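import Crest.Agent.R163.Q3.D.b4G.S2
import Crest.Agent.R163.Q3.D.b4G.F0
import Crest.Agent.R163.Q3.D.b4G.F1
import Crest.Agent.R163.Q3.D.b4G.F2
import Crest.Agent.R163.Q3.D.b4G.F3
import Crest.Agent.R163.Q3.D.b4G.F4
import Crest.Agent.R163.Q3.D.b4G.F5
import Crest.Agent.R163.Q3.D.b4G.F6
import Crest.Agent.R163.Q3.D.b4G.F7
import Crest.Agent.R163.Q3.D.b4G.F8
import Crest.Agent.R163.Q3.D.b4G.F9

set_option autoImplicit false
set_option maxRecDepth 100000
set_option linter.all false
set_option Elab.async false

namespace Crest.Agent.R163.b4G

theorem p2_0_0 : Ok par f0 Box3.unit C2 :=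
  Ok.run hw hf0 ⟨220,25,25,1,10⟩ 58
    (.chk false 0)
    (by decide +kernel)

theorem p2_1_0 : Ok par f1 Box3.unit C2 :=
  Ok.run hw hf1 ⟨325,25,25,1,10⟩ 58
    (.part 31828687130222726595155794459280420270771259489612914539135636443294886367796265673031679 (.chk false 0) (.split 0 (.chk false 0) (.part 23 (.chk false 0) (.split 0 (.chk false 0) (.part 1 (.chk false 0) (.split 1 (.chk false 0) (.chk false 0)))))))
    (by decide +kernel)

theorem p2_2_0 : Ok par f2 Box3.unit C2 :=
  Ok.run hw hf2 ⟨325,25,25,1,10⟩ 58
    (.part 31735439023399510102540329709868977273990622536756300768274081712612581235781022376787963 (.chk false 0) (.split 0 (.part 119 (.chk false 0) (.split 0 (.split 1 (.chk false 0) (.chk false 0)) (.chk false 0))) (.chk false 0)))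
    (by decide +kernel)

theorem p2_3_0 : Ok par f3 Box3.unit C2 :=
  Ok.run hw hf3 ⟨370,25,25,1,10⟩ 58
    (.part 31580021718952477272235827625106033098639160107622110383873349154279872470018692982226960 (.chk false 0) (.split 0 (.part 2854495385411270645781091390589465649769079279 (.chk false 0) (.split 1 (.chk false 0) (.split 0 (.chk false 0) (.part 225 (.chk false 0) (.split 1 (.chk false 0) (.split 0 (.chk false 0) (.chk false 0))))))) (.part 1516441065506452769938644183661164033364721343 (.chk false 0) (.split 1 (.chk false 0) (.part 273277896961 (.chk false 0) (.split 0 (.chk false 0) (.chk false 0)))))))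
    (by decide +kernel)

theorem p2_4_0 : Ok par f4 Box3.unit C2 :=
  Ok.run hw hf4 ⟨354,25,25,1,10⟩ 58
    (.part 29077867978716659080042058555624255308947701067315333119240725918672482556280762894647285 (.chk false 0) (.split 1 (.split 0 (.part 66977791 (.chk false 0) (.split 0 (.chk false 0) (.chk false 0))) (.part 66305230 (.chk false 0) (.split 1 (.part 2 (.chk false 0) (.split 0 (.chk false 0) (.chk false 0))) (.chk false 0)))) (.chk false 0)))
    (by decide +kernel)

theorem p2_5_0 : Ok par f5 Box3.unit (selB 1 C2 20436148021611870500025642710208984312061367738783725878587571068998585207009823119376318) :=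
  Ok.run hw hf5 ⟨221,25,25,1,10⟩ 58
    (.chk false 0)
    (by decide +kernel)

theorem p2_5_1 : Ok par f5 Box3.unit (selB 0 C2 20436148021611870500025642710208984312061367738783725878587571068998585207009823119376318) :=
  Ok.run hw hf5 ⟨447,25,25,1,10⟩ 58
    (.split 1 (.part 4831651755108065657273341 (.chk false 0) (.split 1 (.split 1 (.split 0 (.part 4208942295 (.chk false 0) (.split 0 (.chk false 0) (.part 383 (.chk false 0) (.split 1 (.split 1 (.split 0 (.chk false 0) (.chk false 0)) (.chk false 0)) (.chk false 0))))) (.chk false 0)) (.chk false 0)) (.chk false 0))) (.part 4419464477569768951377807 (.chk false 0) (.split 1 (.part 16777210 (.chk false 0) (.split 0 (.chk false 0) (.chk false 0))) (.part 16228088 (.chk false 0) (.split 0 (.chk false 0) (.part 7 (.chk false 0) (.split 1 (.chk false 0) (.part 7 (.chk false 0) (.split 1 (.chk false 0) (.chk false 0))))))))))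
    (by decide +kernel)

theorem p2_6_0 : Ok par f6 Box3.unit C2 :=
  Ok.run hw hf6 ⟨220,25,25,1,10⟩ 58
    (.chk false 0)
    (by decide +kernel)

theorem p2_7_0 : Ok par f7 Box3.unit C2 :=
  Ok.run hw hf7 ⟨325,25,25,1,10⟩ 58
    (.part 31580021954887919066976722049263471411798637864342910169943137819731764134889906549804031 (.chk false 0) (.split 0 (.chk false 0) (.part 75221290224 (.chk false 0) (.split 1 (.chk false 0) (.split 0 (.chk false 0) (.chk false 0))))))
    (by decide +kernel)

theorem p2_8_0 : Ok par f8 (Box3.unit.l 1) (selB 0 C2 31703381199865203269804556388079807325551179679600281690335849704955777544540474998505476) :=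
  Ok.run hw hf8 ⟨406,25,25,1,10⟩ 58
    (.part 241918571963057182937468832143446776410252771332 (.chk false 0) (.split 0 (.part 17070638068797627907295890935191004295983133 (.chk false 0) (.split 1 (.chk false 0) (.part 5200004290129598617857 (.chk false 0) (.split 0 (.chk false 0) (.part 35735202808834 (.chk false 0) (.split 1 (.part 10740346623 (.chk false 0) (.split 0 (.chk false 0) (.part 4181759 (.chk false 0) (.split 1 (.chk false 0) (.chk false 0))))) (.part 1099511627651 (.chk false 0) (.split 0 (.chk false 0) (.part 30 (.chk false 0) (.split 0 (.chk false 0) (.chk false 0))))))))))) (.part 22297335727403028688669400636830128543858461 (.chk false 0) (.split 1 (.chk false 0) (.chk false 0)))))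
    (by decide +kernel)

theorem p2_8_1 : Ok par f8 (Box3.unit.r 1) (selB 0 C2 31703381199865203269804556388079807325551179679600281690335849704955777544540474998505476) :=
  Ok.run hw hf8 ⟨326,25,25,1,10⟩ 58
    (.part 93533250286965374018654221006842817454417824776230 (.chk false 0) (.split 0 (.part 3351169673977854 (.chk false 0) (.split 0 (.chk false 0) (.chk false 0))) (.chk false 0)))
    (by decide +kernel)

theorem p2_8_2 : Ok par f8 Box3.unit (selB 1 C2 31703381199865203269804556388079807325551179679600281690335849704955777544540474998505476) :=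
  Ok.run hw hf8 ⟨221,25,25,1,10⟩ 58
    (.chk false 0)
    (by decide +kernel)

theorem p2_9_0 : Ok par f9 Box3.unit C2 :=
  Ok.run hw hf9 ⟨288,25,25,1,10⟩ 58
    (.part 31827715795780232233409004150443122006975872442035541546796412829573408788497300237317247 (.chk false 0) (.split 0 (.part 511 (.chk false 0) (.split 0 (.chk false 0) (.chk false 0))) (.chk false 0)))
    (by decide +kernel)


end Crest.Agent.R163.b4G
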