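import Crest.Agent.R163.Q3.D.b4G.S3
import Crest.Agent.R163.Q3.D.b4G.F0
import Crest.Agent.R163.Q3.D.b4G.F1
import Crest.Agent.R163.Q3.D.b4G.F2
import Crest.Agent.R163.Q3.D.b4G.F3
import Crest.Agent.R163.Q3.D.b4G.F4
import Crest.Agent.R163.Q3.D.b4G.F5
import Crest.Agent.R163.Q3.D.b4G.F6
import Crest.Agent.R163.Q3.D.b4G.F7
import Crest.Agent.R163.Q3.D.b4G.F8
import Crest.Agent.R163.Q3.D.b4G.F9

set_option autoImplicit false
set_option maxRecDepth 100000
set_option linter.all false
set_option Elab.async false

namespace Crest.Agent.R163.b4G

theorem p3_0_0 : Ok par f0 Box3.unit C3 :=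
  Ok.run hw hf0 ⟨407,25,25,1,10⟩ 58
    (.part 124330809102446660538845562036705210025114037699323637080158145064560836182461820960767 (.chk false 0) (.split 0 (.chk false 0) (.part 1 (.chk false 0) (.split 0 (.chk false 0) (.split 1 (.chk false 0) (.part 1 (.chk false 0) (.split 1 (.chk false 0) (.split 0 (.chk false 0) (.split 1 (.chk false 0) (.chk false 0))))))))))
    (by decide +kernel)

theorem p3_1_0 : Ok par f1 Box3.unit C3 :=
  Ok.run hw hf1 ⟨325,25,25,1,10⟩ 58
    (.part 124330808969466683055365243854947906835297538325576035027116378827989435745943687266302 (.chk false 0) (.split 0 (.chk false 0) (.part 765 (.chk false 0) (.split 1 (.part 2 (.chk false 0) (.split 0 (.chk false 0) (.chk false 0))) (.part 1 (.chk false 0) (.split 0 (.chk false 0) (.chk false 0)))))))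
    (by decide +kernel)

theorem p3_2_0 : Ok par f2 Box3.unit C3 :=
  Ok.run hw hf2 ⟨296,25,25,1,10⟩ 58
    (.part 124330809102446660538845356348635544874358768328189109691302871381306670055650425307135 (.chk false 0) (.split 0 (.split 1 (.chk false 0) (.chk false 0)) (.chk false 0)))
    (by decide +kernel)

theorem p3_3_0 : Ok par f3 Box3.unit C3 :=
  Ok.run hw hf3 ⟨325,25,25,1,10⟩ 58
    (.part 72213634526838979517209383531004091592001652128045835106936400069990235657735992541655 (.chk false 0) (.split 0 (.part 45671926161253009660375823341374133330321080319 (.chk false 0) (.split 1 (.chk false 0) (.part 28 (.chk false 0) (.split 0 (.chk false 0) (.chk false 0))))) (.part 45582723185713496629189234693360561638979103723 (.chk false 0) (.split 1 (.chk false 0) (.part 524081 (.chk false 0) (.split 0 (.chk false 0) (.chk false 0)))))))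
    (by decide +kernel)

theorem p3_4_0 : Ok par f4 Box3.unit C3 :=
  Ok.run hw hf4 ⟨432,25,25,1,10⟩ 58
    (.part 124209391804453090687578626488735280417692021748254383019011830902881481985481221603319 (.chk false 0) (.split 1 (.split 0 (.part 1073725439 (.chk false 0) (.split 0 (.chk false 0) (.chk false 0))) (.part 114813549 (.chk false 0) (.split 1 (.split 0 (.chk false 0) (.part 4085 (.chk false 0) (.split 1 (.split 1 (.split 0 (.chk false 0) (.chk false 0)) (.chk false 0)) (.chk false 0)))) (.chk false 0)))) (.chk false 0)))
    (by decide +kernel)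

theorem p3_5_0 : Ok par f5 (((Box3.unit.l 1).l 1).l 0) (selB 0 (selB 0 (selB 0 C3 910732632393226489209778888050356533448879021174472678170309288566977098281867322698) 633692401170917991585805605226179133049403949979) 32) :=
  Ok.run hw hf5 ⟨466,25,25,1,10⟩ 58
    (.part 5185427511434919899232724953 (.chk false 0) (.split 1 (.part 19353567232 (.chk false 0) (.split 0 (.part 240518168575 (.chk false 0) (.split 1 (.split 0 (.chk false 0) (.split 1 (.chk false 0) (.chk false 0))) (.chk false 0))) (.part 135291398111 (.chk false 0) (.split 1 (.part 57 (.chk false 0) (.split 0 (.chk false 0) (.split 1 (.split 0 (.chk false 0) (.chk false 0)) (.chk false 0)))) (.part 47 (.chk false 0) (.split 0 (.chk false 0) (.split 1 (.chk false 0) (.chk false 0)))))))) (.chk false 0)))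
    (by decide +kernel)

theorem p3_5_1 : Ok par f5 (((Box3.unit.l 1).l 1).r 0) (selB 0 (selB 0 (selB 0 C3 910732632393226489209778888050356533448879021174472678170309288566977098281867322698) 633692401170917991585805605226179133049403949979) 32) :=
  Ok.run hw hf5 ⟨492,25,25,1,10⟩ 58
    (.part 315199586739331408903454654463 (.chk false 0) (.split 1 (.part 22281960 (.chk false 0) (.split 1 (.chk false 0) (.part 191 (.chk false 0) (.split 0 (.part 2 (.chk false 0) (.split 1 (.chk false 0) (.split 1 (.split 0 (.chk false 0) (.split 1 (.chk false 0) (.chk false 0))) (.chk false 0)))) (.chk false 0))))) (.chk false 0)))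
    (by decide +kernel)

theorem p3_5_2 : Ok par f5 ((Box3.unit.l 1).l 1) (selB 1 (selB 0 (selB 0 C3 910732632393226489209778888050356533448879021174472678170309288566977098281867322698) 633692401170917991585805605226179133049403949979) 32) :=
  Ok.run hw hf5 ⟨288,25,25,1,10⟩ 58
    (.chk false 0)
    (by decide +kernel)

theorem p3_5_3 : Ok par f5 ((Box3.unit.l 1).r 1) (selB 0 (selB 0 C3 910732632393226489209778888050356533448879021174472678170309288566977098281867322698) 633692401170917991585805605226179133049403949979) :=
  Ok.run hw hf5 ⟨277,25,25,1,10⟩ 58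
    (.chk false 0)
    (by decide +kernel)

theorem p3_5_4 : Ok par f5 (Box3.unit.l 1) (selB 1 (selB 0 C3 910732632393226489209778888050356533448879021174472678170309288566977098281867322698) 633692401170917991585805605226179133049403949979) :=
  Ok.run hw hf5 ⟨259,25,25,1,10⟩ 58
    (.chk false 0)
    (by decide +kernel)

theorem p3_5_5 : Ok par f5 (Box3.unit.r 1) (selB 0 C3 910732632393226489209778888050356533448879021174472678170309288566977098281867322698) :=
  Ok.run hw hf5 ⟨353,25,25,1,10⟩ 58
    (.part 742202602560840760207384347819942743726465211694206 (.chk false 0) (.split 1 (.chk false 0) (.part 544206451577 (.chk false 0) (.split 0 (.chk false 0) (.part 12968 (.chk false 0) (.split 1 (.chk false 0) (.chk false 0)))))))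
    (by decide +kernel)

theorem p3_5_6 : Ok par f5 Box3.unit (selB 1 C3 910732632393226489209778888050356533448879021174472678170309288566977098281867322698) :=
  Ok.run hw hf5 ⟨221,25,25,1,10⟩ 58
    (.chk false 0)
    (by decide +kernel)

theorem p3_6_0 : Ok par f6 Box3.unit C3 :=
  Ok.run hw hf6 ⟨220,25,25,1,10⟩ 58
    (.chk false 0)
    (by decide +kernel)

theorem p3_7_0 : Ok par f7 Box3.unit C3 :=
  Ok.run hw hf7 ⟨325,25,25,1,10⟩ 58
    (.part 124209392267734418868330409954884215559513651743917907730988016729840621980429980794879 (.chk false 0) (.split 0 (.chk false 0) (.part 15527931 (.chk false 0) (.split 1 (.chk false 0) (.split 0 (.chk false 0) (.chk false 0))))))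
    (by decide +kernel)

theorem p3_8_0 : Ok par f8 (Box3.unit.l 1) (selB 0 C3 304608995034463228494906670473276142808175174850589333070255708639556709230332347846) :=
  Ok.run hw hf8 ⟨411,25,25,1,10⟩ 58
    (.part 11695313783169153274188891082408263825359175680002 (.chk false 0) (.split 0 (.part 276307241030512103745356009722216418843509 (.chk false 0) (.split 1 (.part 15723012979912703 (.chk false 0) (.split 0 (.chk false 0) (.part 502 (.chk false 0) (.split 1 (.chk false 0) (.part 4 (.chk false 0) (.split 0 (.chk false 0) (.part 1 (.chk false 0) (.split 1 (.chk false 0) (.chk false 0))))))))) (.part 17956945736450043 (.chk false 0) (.split 0 (.chk false 0) (.part 2043 (.chk false 0) (.split 1 (.split 0 (.chk false 0) (.chk false 0)) (.chk false 0))))))) (.part 347088014258089582094339213941153237794807 (.chk false 0) (.split 1 (.chk false 0) (.chk false 0)))))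
    (by decide +kernel)

theorem p3_8_1 : Ok par f8 (Box3.unit.r 1) (selB 0 C3 304608995034463228494906670473276142808175174850589333070255708639556709230332347846) :=
  Ok.run hw hf8 ⟨326,25,25,1,10⟩ 58
    (.part 23383914692866288699580092368624919383343307423422 (.chk false 0) (.split 0 (.part 1556347 (.chk false 0) (.split 0 (.chk false 0) (.chk false 0))) (.chk false 0)))
    (by decide +kernel)

theorem p3_8_2 : Ok par f8 Box3.unit (selB 1 C3 304608995034463228494906670473276142808175174850589333070255708639556709230332347846) :=
  Ok.run hw hf8 ⟨221,25,25,1,10⟩ 58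
    (.chk false 0)
    (by decide +kernel)

theorem p3_9_0 : Ok par f9 Box3.unit C3 :=
  Ok.run hw hf9 ⟨221,25,25,1,10⟩ 58
    (.chk false 0)
    (by decide +kernel)


end Crest.Agent.R163.b4G
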