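import Crest.Agent.R163.Q3.D.b4G.S4
import Crest.Agent.R163.Q3.D.b4G.F0
import Crest.Agent.R163.Q3.D.b4G.F1
import Crest.Agent.R163.Q3.D.b4G.F2
import Crest.Agent.R163.Q3.D.b4G.F3
import Crest.Agent.R163.Q3.D.b4G.F4
import Crest.Agent.R163.Q3.D.b4G.F5
import Crest.Agent.R163.Q3.D.b4G.F6
import Crest.Agent.R163.Q3.D.b4G.F7
import Crest.Agent.R163.Q3.D.b4G.F8
import Crest.Agent.R163.Q3.D.b4G.F9

set_option autoImplicit false
set_option maxRecDepth 100000
set_option linter.all false
set_option Elab.async false

namespace Crest.Agent.R163.b4G

theorem p4_0_0 : Ok par f0 Box3.unit C4 :=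
  Ok.run hw hf0 ⟨381,25,25,1,10⟩ 58
    (.part 509258994083621521567111422102344246023723252165474808712678858492645574544912586645700607 (.chk false 0) (.split 0 (.chk false 0) (.part 5 (.chk false 0) (.split 1 (.chk false 0) (.split 0 (.chk false 0) (.split 1 (.split 0 (.chk false 0) (.chk false 0)) (.split 0 (.chk false 0) (.chk false 0))))))))
    (by decide +kernel)

theorem p4_1_0 : Ok par f1 Box3.unit C4 :=
  Ok.run hw hf1 ⟨258,25,25,1,10⟩ 58
    (.part 509258994083621518033417292545575881096272096925071844704434662801963739248588764940861431 (.chk false 0) (.split 0 (.chk false 0) (.chk false 0)))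
    (by decide +kernel)

theorem p4_2_0 : Ok par f2 Box3.unit C4 :=
  Ok.run hw hf2 ⟨258,25,25,1,10⟩ 58
    (.part 509258994083621521567111422102344515742938444562262328925482677933648387041008221608214527 (.chk false 0) (.split 0 (.chk false 0) (.chk false 0)))
    (by decide +kernel)

theorem p4_3_0 : Ok par f3 Box3.unit C4 :=
  Ok.run hw hf3 ⟨358,25,25,1,10⟩ 58
    (.part 496265149315199075509605881533497615197071906186795960882743913265705074791780453877491066 (.chk false 0) (.split 0 (.part 20282216175446740462647344347135 (.chk false 0) (.split 1 (.part 126 (.chk false 0) (.split 0 (.chk false 0) (.chk false 0))) (.part 122 (.chk false 0) (.split 0 (.chk false 0) (.chk false 0))))) (.part 20271074715093165425511299538935 (.chk false 0) (.split 1 (.part 399 (.chk false 0) (.split 0 (.split 1 (.chk false 0) (.part 2 (.chk false 0) (.split 0 (.chk false 0) (.chk false 0)))) (.chk false 0))) (.part 495 (.chk false 0) (.split 0 (.chk false 0) (.chk false 0)))))))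
    (by decide +kernel)

theorem p4_4_0 : Ok par f4 Box3.unit C4 :=
  Ok.run hw hf4 ⟨354,25,25,1,10⟩ 58
    (.part 501301492198661065585530594379588955615671882066777990734006046815085229725957609956048634 (.chk false 0) (.split 1 (.part 8 (.chk false 0) (.split 0 (.part 4398046511039 (.chk false 0) (.split 0 (.chk false 0) (.chk false 0))) (.part 3538564228607 (.chk false 0) (.split 1 (.split 0 (.chk false 0) (.chk false 0)) (.chk false 0))))) (.part 8796093022199 (.chk false 0) (.split 0 (.chk false 0) (.chk false 0)))))
    (by decide +kernel)

theorem p4_5_0 : Ok par f5 (((Box3.unit.l 1).l 1).l 0) (selB 0 (selB 0 (selB 0 C4 286955753087766284027045595952914675987668622282083096768050785837291072598245951936004354) 257922777799704108716606456972689660101419949915657289912909951) 120235003055203079135803999488) :=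
  Ok.run hw hf5 ⟨491,25,25,1,10⟩ 58
    (.part 59163653539274100566150917 (.chk false 0) (.split 1 (.part 42896057519105 (.chk false 0) (.split 0 (.part 50772950705 (.chk false 0) (.split 1 (.part 28163 (.chk false 0) (.split 0 (.chk false 0) (.part 25 (.chk false 0) (.split 1 (.part 29 (.chk false 0) (.split 0 (.chk false 0) (.chk false 0))) (.part 14 (.chk false 0) (.split 0 (.chk false 0) (.chk false 0))))))) (.part 12287 (.chk false 0) (.split 0 (.chk false 0) (.chk false 0))))) (.part 68643905535 (.chk false 0) (.split 1 (.part 13 (.chk false 0) (.split 0 (.split 1 (.chk false 0) (.chk false 0)) (.chk false 0))) (.part 14 (.chk false 0) (.split 0 (.split 1 (.chk false 0) (.split 0 (.chk false 0) (.split 1 (.chk false 0) (.chk false 0)))) (.chk false 0))))))) (.part 1829578754490367 (.chk false 0) (.split 0 (.chk false 0) (.part 12 (.chk false 0) (.split 1 (.chk false 0) (.chk false 0)))))))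
    (by decide +kernel)

theorem p4_5_1 : Ok par f5 (((Box3.unit.l 1).l 1).r 0) (selB 0 (selB 0 (selB 0 C4 286955753087766284027045595952914675987668622282083096768050785837291072598245951936004354) 257922777799704108716606456972689660101419949915657289912909951) 120235003055203079135803999488) :=
  Ok.run hw hf5 ⟨378,25,25,1,10⟩ 58
    (.part 309428853356016363803754490 (.chk false 0) (.split 1 (.part 536868863 (.chk false 0) (.split 1 (.chk false 0) (.chk false 0))) (.chk false 0)))
    (by decide +kernel)

theorem p4_5_2 : Ok par f5 ((Box3.unit.l 1).l 1) (selB 1 (selB 0 (selB 0 C4 286955753087766284027045595952914675987668622282083096768050785837291072598245951936004354) 257922777799704108716606456972689660101419949915657289912909951) 120235003055203079135803999488) :=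
  Ok.run hw hf5 ⟨288,25,25,1,10⟩ 58
    (.chk false 0)
    (by decide +kernel)

theorem p4_5_3 : Ok par f5 ((Box3.unit.l 1).r 1) (selB 0 (selB 0 C4 286955753087766284027045595952914675987668622282083096768050785837291072598245951936004354) 257922777799704108716606456972689660101419949915657289912909951) :=
  Ok.run hw hf5 ⟨315,25,25,1,10⟩ 58
    (.part 1267650600228229401496703204863 (.chk false 0) (.split 0 (.chk false 0) (.chk false 0)))
    (by decide +kernel)

theorem p4_5_4 : Ok par f5 (Box3.unit.l 1) (selB 1 (selB 0 C4 286955753087766284027045595952914675987668622282083096768050785837291072598245951936004354) 257922777799704108716606456972689660101419949915657289912909951) :=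
  Ok.run hw hf5 ⟨259,25,25,1,10⟩ 58
    (.chk false 0)
    (by decide +kernel)

theorem p4_5_5 : Ok par f5 (Box3.unit.r 1) (selB 0 C4 286955753087766284027045595952914675987668622282083096768050785837291072598245951936004354) :=
  Ok.run hw hf5 ⟨397,25,25,1,10⟩ 58
    (.part 979341884944618222026514651680786177427053161171092832163723198 (.chk false 0) (.split 1 (.part 618970019066229385146138583 (.chk false 0) (.split 0 (.chk false 0) (.part 1 (.chk false 0) (.split 1 (.chk false 0) (.part 2 (.chk false 0) (.split 1 (.chk false 0) (.split 0 (.chk false 0) (.chk false 0)))))))) (.part 272034259948663820458320915 (.chk false 0) (.split 0 (.part 70231303127039 (.chk false 0) (.split 1 (.chk false 0) (.part 1 (.chk false 0) (.split 0 (.chk false 0) (.chk false 0))))) (.part 70363373041903 (.chk false 0) (.split 1 (.chk false 0) (.chk false 0)))))))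
    (by decide +kernel)

theorem p4_5_6 : Ok par f5 Box3.unit (selB 1 C4 286955753087766284027045595952914675987668622282083096768050785837291072598245951936004354) :=
  Ok.run hw hf5 ⟨221,25,25,1,10⟩ 58
    (.chk false 0)
    (by decide +kernel)

theorem p4_6_0 : Ok par f6 Box3.unit C4 :=
  Ok.run hw hf6 ⟨258,25,25,1,10⟩ 58
    (.part 509258994083621521567111422102344540262867098416484062659035112338595324940834176512294911 (.chk false 0) (.split 0 (.chk false 0) (.chk false 0)))
    (by decide +kernel)

theorem p4_7_0 : Ok par f7 Box3.unit C4 :=
  Ok.run hw hf7 ⟨258,25,25,1,10⟩ 58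
    (.part 445601558758589481056355659505057168932547031482677960413692403187178683102255464933490687 (.chk false 0) (.split 0 (.chk false 0) (.chk false 0)))
    (by decide +kernel)

theorem p4_8_0 : Ok par f8 Box3.unit C4 :=
  Ok.run hw hf8 ⟨370,25,25,1,10⟩ 58
    (.part 316840443912320802581951268809564847735591093788673447021907152419760833218450641198648703 (.chk false 0) (.split 1 (.part 247598001391415764944276580039 (.chk false 0) (.split 0 (.part 4835680147968356621740414 (.chk false 0) (.split 0 (.chk false 0) (.part 2038 (.chk false 0) (.split 1 (.part 1 (.chk false 0) (.split 1 (.chk false 0) (.chk false 0))) (.chk false 0))))) (.chk false 0))) (.part 5192291906765225733777450520735871 (.chk false 0) (.split 0 (.part 4067 (.chk false 0) (.split 0 (.chk false 0) (.chk false 0))) (.chk false 0)))))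
    (by decide +kernel)

theorem p4_9_0 : Ok par f9 Box3.unit C4 :=
  Ok.run hw hf9 ⟨288,25,25,1,10⟩ 58
    (.part 509258994083621521567111422102344540262867098416484062659035112338595324940692339545866239 (.chk false 0) (.split 0 (.part 1 (.chk false 0) (.split 0 (.chk false 0) (.chk false 0))) (.chk false 0)))
    (by decide +kernel)


end Crest.Agent.R163.b4G
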