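import Crest.Agent.R163.Q3.D.b4G.S5
import Crest.Agent.R163.Q3.D.b4G.F0
import Crest.Agent.R163.Q3.D.b4G.F1
import Crest.Agent.R163.Q3.D.b4G.F2
import Crest.Agent.R163.Q3.D.b4G.F3
import Crest.Agent.R163.Q3.D.b4G.F4
import Crest.Agent.R163.Q3.D.b4G.F5
import Crest.Agent.R163.Q3.D.b4G.F6
import Crest.Agent.R163.Q3.D.b4G.F7
import Crest.Agent.R163.Q3.D.b4G.F8
import Crest.Agent.R163.Q3.D.b4G.F9

set_option autoImplicit false
set_option maxRecDepth 100000
set_option linter.all false
set_option Elab.async false

namespace Crest.Agent.R163.b4G

theorem p5_0_0 : Ok par f0 Box3.unit C5 :=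
  Ok.run hw hf0 ⟨314,25,25,1,10⟩ 59
    (.part 994646472819573063454881398995600482288724708729880956445440844333946922981282375794683 (.chk false 0) (.split 0 (.chk false 0) (.part 6 (.chk false 0) (.split 0 (.split 1 (.chk false 0) (.chk false 0)) (.chk false 0)))))
    (by decide +kernel)

theorem p5_1_0 : Ok par f1 Box3.unit C5 :=
  Ok.run hw hf1 ⟨259,25,25,1,10⟩ 59
    (.part 994646472819573284310764496241855590883972185293050172139464705853400774631943628128255 (.chk false 0) (.split 0 (.chk false 0) (.chk false 0)))
    (by decide +kernel)

theorem p5_2_0 : Ok par f2 Box3.unit C5 :=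
  Ok.run hw hf2 ⟨259,25,25,1,10⟩ 59
    (.part 994646472819460206098618679696546816665323888920781582268635646555882670663132868771839 (.chk false 0) (.split 0 (.chk false 0) (.chk false 0)))
    (by decide +kernel)

theorem p5_3_0 : Ok par f3 Box3.unit C5 :=
  Ok.run hw hf3 ⟨380,25,25,1,10⟩ 59
    (.part 807652294142733707290238647299182266764743192409881913101620279554166222916043745019327 (.chk false 0) (.split 0 (.part 2658455753885344203014601338318225295 (.chk false 0) (.split 1 (.part 119 (.chk false 0) (.split 0 (.chk false 0) (.chk false 0))) (.part 109 (.chk false 0) (.split 0 (.chk false 0) (.chk false 0))))) (.part 2636303005049067178460983863642421035 (.chk false 0) (.split 1 (.part 524249 (.chk false 0) (.split 0 (.split 1 (.chk false 0) (.part 5 (.chk false 0) (.split 0 (.split 1 (.chk false 0) (.chk false 0)) (.chk false 0)))) (.chk false 0))) (.part 524283 (.chk false 0) (.split 0 (.split 1 (.split 0 (.chk false 0) (.chk false 0)) (.chk false 0)) (.chk false 0)))))))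
    (by decide +kernel)

theorem p5_4_0 : Ok par f4 Box3.unit C5 :=
  Ok.run hw hf4 ⟨433,25,25,1,10⟩ 59
    (.part 803801884499182865165966871887779930686450492786045971649462120423264970872858793213885 (.chk false 0) (.split 1 (.part 18036389279007744 (.chk false 0) (.split 0 (.part 590295810358705635327 (.chk false 0) (.split 0 (.chk false 0) (.chk false 0))) (.part 6531485111290034013 (.chk false 0) (.split 1 (.part 16416 (.chk false 0) (.split 0 (.chk false 0) (.part 264241151 (.chk false 0) (.split 1 (.split 0 (.chk false 0) (.split 1 (.chk false 0) (.chk false 0))) (.chk false 0))))) (.chk false 0))))) (.chk false 0)))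
    (by decide +kernel)

theorem p5_5_0 : Ok par f5 (((Box3.unit.l 1).l 1).l 0) (selB 0 (selB 0 (selB 0 C5 505096761390451615733561786281762374450571957134773553662948839559305302433747024479273) 6467597009311642006512450609340231049878577630137700485934188343672815) 20448697502689899165488648208) :=
  Ok.run hw hf5 ⟨449,25,25,1,10⟩ 59
    (.part 58817855732808451855 (.chk false 0) (.split 1 (.part 196941628571667 (.chk false 0) (.split 0 (.part 425377562 (.chk false 0) (.split 1 (.part 7932 (.chk false 0) (.split 0 (.chk false 0) (.chk false 0))) (.part 6119 (.chk false 0) (.split 0 (.chk false 0) (.chk false 0))))) (.part 935329279 (.chk false 0) (.split 1 (.chk false 0) (.part 5 (.chk false 0) (.split 0 (.chk false 0) (.chk false 0))))))) (.part 242983470554415 (.chk false 0) (.split 0 (.part 7167 (.chk false 0) (.split 1 (.split 0 (.chk false 0) (.split 1 (.chk false 0) (.chk false 0))) (.chk false 0))) (.part 5630 (.chk false 0) (.split 1 (.part 4 (.chk false 0) (.split 0 (.split 1 (.chk false 0) (.chk false 0)) (.chk false 0))) (.chk false 0)))))))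
    (by decide +kernel)

theorem p5_5_1 : Ok par f5 (((Box3.unit.l 1).l 1).r 0) (selB 0 (selB 0 (selB 0 C5 505096761390451615733561786281762374450571957134773553662948839559305302433747024479273) 6467597009311642006512450609340231049878577630137700485934188343672815) 20448697502689899165488648208) :=
  Ok.run hw hf5 ⟨430,25,25,1,10⟩ 59
    (.part 4589672124140983156209 (.chk false 0) (.split 1 (.chk false 0) (.part 524223 (.chk false 0) (.split 0 (.chk false 0) (.split 0 (.chk false 0) (.split 1 (.chk false 0) (.chk false 0)))))))
    (by decide +kernel)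

theorem p5_5_2 : Ok par f5 ((Box3.unit.l 1).l 1) (selB 1 (selB 0 (selB 0 C5 505096761390451615733561786281762374450571957134773553662948839559305302433747024479273) 6467597009311642006512450609340231049878577630137700485934188343672815) 20448697502689899165488648208) :=
  Ok.run hw hf5 ⟨289,25,25,1,10⟩ 59
    (.chk false 0)
    (by decide +kernel)

theorem p5_5_3 : Ok par f5 ((Box3.unit.l 1).r 1) (selB 0 (selB 0 C5 505096761390451615733561786281762374450571957134773553662948839559305302433747024479273) 6467597009311642006512450609340231049878577630137700485934188343672815) :=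
  Ok.run hw hf5 ⟨278,25,25,1,10⟩ 59
    (.chk false 0)
    (by decide +kernel)

theorem p5_5_4 : Ok par f5 (Box3.unit.l 1) (selB 1 (selB 0 C5 505096761390451615733561786281762374450571957134773553662948839559305302433747024479273) 6467597009311642006512450609340231049878577630137700485934188343672815) :=
  Ok.run hw hf5 ⟨260,25,25,1,10⟩ 59
    (.chk false 0)
    (by decide +kernel)

theorem p5_5_5 : Ok par f5 (Box3.unit.r 1) (selB 1 (selB 0 C5 505096761390451615733561786281762374450571957134773553662948839559305302433747024479273) 132899269579944031975262859671959653533712775581201964345915053920584340) :=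
  Ok.run hw hf5 ⟨260,25,25,1,10⟩ 59
    (.chk false 0)
    (by decide +kernel)

theorem p5_5_6 : Ok par f5 (Box3.unit.r 1) (selB 0 (selB 0 C5 505096761390451615733561786281762374450571957134773553662948839559305302433747024479273) 132899269579944031975262859671959653533712775581201964345915053920584340) :=
  Ok.run hw hf5 ⟨448,25,25,1,10⟩ 59
    (.split 1 (.part 356811923176489970090486174337867182937997311 (.chk false 0) (.split 0 (.chk false 0) (.split 1 (.chk false 0) (.chk false 0)))) (.part 181835964245357152015145048904121991477911523 (.chk false 0) (.split 0 (.part 7996105385998016511 (.chk false 0) (.split 1 (.chk false 0) (.part 505 (.chk false 0) (.split 1 (.chk false 0) (.part 2 (.chk false 0) (.split 0 (.chk false 0) (.split 1 (.split 0 (.chk false 0) (.chk false 0)) (.split 0 (.chk false 0) (.chk false 0))))))))) (.part 9095542262837714939 (.chk false 0) (.split 1 (.part 16381 (.chk false 0) (.split 1 (.chk false 0) (.split 1 (.chk false 0) (.split 0 (.chk false 0) (.chk false 0))))) (.part 16381 (.chk false 0) (.split 1 (.chk false 0) (.chk false 0))))))))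
    (by decide +kernel)

theorem p5_5_7 : Ok par f5 Box3.unit (selB 1 C5 505096761390451615733561786281762374450571957134773553662948839559305302433747024479273) :=
  Ok.run hw hf5 ⟨222,25,25,1,10⟩ 59
    (.chk false 0)
    (by decide +kernel)

theorem p5_6_0 : Ok par f6 Box3.unit C5 :=
  Ok.run hw hf6 ⟨259,25,25,1,10⟩ 59
    (.part 994646235677374526287196268820264382408077018097766839649052800977186945818977248477183 (.chk false 0) (.split 1 (.chk false 0) (.chk false 0)))
    (by decide +kernel)

theorem p5_7_0 : Ok par f7 Box3.unit C5 :=
  Ok.run hw hf7 ⟨259,25,25,1,10⟩ 59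
    (.part 808141822429443082236817138563293777438997088226173646349313443126224679976711571373503 (.chk false 0) (.split 0 (.chk false 0) (.chk false 0)))
    (by decide +kernel)

theorem p5_8_0 : Ok par f8 Box3.unit C5 :=
  Ok.run hw hf8 ⟨327,25,25,1,10⟩ 59
    (.part 994156292480414100835001760440724864935830986506382184289437672419443316976334161899007 (.chk false 0) (.split 1 (.part 6817273321889838 (.chk false 0) (.split 0 (.part 72813117438 (.chk false 0) (.split 0 (.chk false 0) (.chk false 0))) (.chk false 0))) (.part 36028797018963966 (.chk false 0) (.split 0 (.chk false 0) (.chk false 0)))))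
    (by decide +kernel)

theorem p5_9_0 : Ok par f9 Box3.unit C5 :=
  Ok.run hw hf9 ⟨222,25,25,1,10⟩ 59
    (.chk false 0)
    (by decide +kernel)


end Crest.Agent.R163.b4G
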