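import Crest.Agent.R163.Q3.D.b4G.S6
import Crest.Agent.R163.Q3.D.b4G.F0
import Crest.Agent.R163.Q3.D.b4G.F1
import Crest.Agent.R163.Q3.D.b4G.F2
import Crest.Agent.R163.Q3.D.b4G.F3
import Crest.Agent.R163.Q3.D.b4G.F4
import Crest.Agent.R163.Q3.D.b4G.F5
import Crest.Agent.R163.Q3.D.b4G.F6
import Crest.Agent.R163.Q3.D.b4G.F7
import Crest.Agent.R163.Q3.D.b4G.F8
import Crest.Agent.R163.Q3.D.b4G.F9

set_option autoImplicit false
set_option maxRecDepth 100000
set_option linter.all false
set_option Elab.async false

namespace Crest.Agent.R163.b4G

theorem p6_0_0 : Ok par f0 Box3.unit C6 :=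
  Ok.run hw hf0 ⟨376,25,25,1,10⟩ 58
    (.part 15914343565113172548972231940698266883214596825515126958092311959380647445598074610515967 (.chk false 0) (.split 0 (.chk false 0) (.part 1 (.chk false 0) (.split 0 (.split 1 (.chk false 0) (.chk false 0)) (.split 1 (.chk false 0) (.split 0 (.split 1 (.chk false 0) (.chk false 0)) (.chk false 0)))))))
    (by decide +kernel)

theorem p6_1_0 : Ok par f1 Box3.unit C6 :=
  Ok.run hw hf1 ⟨258,25,25,1,10⟩ 58
    (.part 15914343565113172548972231940698266835322649671818769231437734158093922292447920009510911 (.chk false 0) (.split 0 (.chk false 0) (.chk false 0)))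
    (by decide +kernel)

theorem p6_2_0 : Ok par f2 Box3.unit C6 :=
  Ok.run hw hf2 ⟨296,25,25,1,10⟩ 58
    (.part 15914343565113172517914373380140729839758195445268512422064856885814364406169672502738943 (.chk false 0) (.split 0 (.part 7 (.chk false 0) (.split 1 (.chk false 0) (.chk false 0))) (.chk false 0)))
    (by decide +kernel)

theorem p6_3_0 : Ok par f3 Box3.unit C6 :=
  Ok.run hw hf3 ⟨343,25,25,1,10⟩ 58
    (.part 12076126335993513768348684085531567903475849417895636276232356809210455515892004463570951 (.chk false 0) (.split 0 (.part 2854495385411919762116571938898990272765484031 (.chk false 0) (.split 1 (.chk false 0) (.chk false 0))) (.part 2854493937716478852849520102276503313791278079 (.chk false 0) (.split 1 (.part 94205 (.chk false 0) (.split 1 (.chk false 0) (.part 3 (.chk false 0) (.split 0 (.chk false 0) (.chk false 0))))) (.part 98303 (.chk false 0) (.split 0 (.chk false 0) (.chk false 0)))))))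
    (by decide +kernel)

theorem p6_4_0 : Ok par f4 Box3.unit (selB 1 C6 11991230273251760391089694162715329028915097287653550751139245323118919278614436330263151) :=
  Ok.run hw hf4 ⟨220,25,25,1,10⟩ 58
    (.chk false 0)
    (by decide +kernel)

theorem p6_4_1 : Ok par f4 Box3.unit (selB 0 C6 11991230273251760391089694162715329028915097287653550751139245323118919278614436330263151) :=
  Ok.run hw hf4 ⟨458,25,25,1,10⟩ 58
    (.split 1 (.part 8464869590800721459021312 (.chk false 0) (.split 0 (.part 19807040628565943660897632255 (.chk false 0) (.split 0 (.chk false 0) (.chk false 0))) (.part 6234705609946451377526112 (.chk false 0) (.split 1 (.part 18737369187270787088 (.chk false 0) (.split 0 (.chk false 0) (.part 103552527411576055 (.chk false 0) (.split 1 (.part 71334 (.chk false 0) (.split 0 (.chk false 0) (.part 860 (.chk false 0) (.split 1 (.part 14 (.chk false 0) (.split 0 (.chk false 0) (.chk false 0))) (.chk false 0))))) (.chk false 0))))) (.chk false 0))))) (.chk false 0))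
    (by decide +kernel)

theorem p6_5_0 : Ok par f5 (Box3.unit.l 1) (selB 1 (selB 0 C6 11951299039823021461978031158649314224578370718096029557681681689062969296649637917380612) 5789736876826075462284886977220661778483027770211307186669163912465668372699) :=
  Ok.run hw hf5 ⟨259,25,25,1,10⟩ 58
    (.chk false 0)
    (by decide +kernel)

theorem p6_5_1 : Ok par f5 (Box3.unit.l 1) (selB 0 (selB 0 C6 11951299039823021461978031158649314224578370718096029557681681689062969296649637917380612) 5789736876826075462284886977220661778483027770211307186669163912465668372699) :=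
  Ok.run hw hf5 ⟨431,25,25,1,10⟩ 58
    (.split 1 (.part 9906155565702654532801564704 (.chk false 0) (.split 0 (.part 143034889042091773091 (.chk false 0) (.split 1 (.part 491989701648455 (.chk false 0) (.split 0 (.part 7601519 (.chk false 0) (.split 1 (.chk false 0) (.part 15 (.chk false 0) (.split 0 (.chk false 0) (.chk false 0))))) (.part 8388095 (.chk false 0) (.split 1 (.chk false 0) (.split 0 (.chk false 0) (.chk false 0)))))) (.part 815837357273071 (.chk false 0) (.split 0 (.part 111 (.chk false 0) (.split 1 (.chk false 0) (.chk false 0))) (.part 187 (.chk false 0) (.split 1 (.chk false 0) (.chk false 0))))))) (.part 9412379105191085990876 (.chk false 0) (.split 1 (.chk false 0) (.chk false 0))))) (.chk false 0))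
    (by decide +kernel)

theorem p6_5_2 : Ok par f5 (Box3.unit.r 1) (selB 0 C6 11951299039823021461978031158649314224578370718096029557681681689062969296649637917380612) :=
  Ok.run hw hf5 ⟨400,25,25,1,10⟩ 58
    (.part 862725418915934371028966366696676368445782230882725347853187856024613 (.chk false 0) (.split 1 (.chk false 0) (.part 22641740635335795175322044519259710370396824802183548333 (.chk false 0) (.split 1 (.part 4722366460054778937335 (.chk false 0) (.split 0 (.chk false 0) (.part 28 (.chk false 0) (.split 1 (.part 2 (.chk false 0) (.split 0 (.chk false 0) (.chk false 0))) (.chk false 0))))) (.part 3543921462790090788846 (.chk false 0) (.split 0 (.part 549754765311 (.chk false 0) (.split 0 (.chk false 0) (.chk false 0))) (.chk false 0)))))))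
    (by decide +kernel)

theorem p6_5_3 : Ok par f5 Box3.unit (selB 1 C6 11951299039823021461978031158649314224578370718096029557681681689062969296649637917380612) :=
  Ok.run hw hf5 ⟨221,25,25,1,10⟩ 58
    (.chk false 0)
    (by decide +kernel)

theorem p6_6_0 : Ok par f6 Box3.unit C6 :=
  Ok.run hw hf6 ⟨296,25,25,1,10⟩ 58
    (.part 15914343563260499121175172813921131123075590299862807203444598235949782560274457942818815 (.chk false 0) (.split 1 (.split 0 (.chk false 0) (.chk false 0)) (.chk false 0)))
    (by decide +kernel)

theorem p6_7_0 : Ok par f7 Box3.unit C6 :=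
  Ok.run hw hf7 ⟨258,25,25,1,10⟩ 58
    (.part 12085160505721424188020655642316702421187904604155934033344397583283653878799458145139183 (.chk false 0) (.split 0 (.chk false 0) (.chk false 0)))
    (by decide +kernel)

theorem p6_8_0 : Ok par f8 Box3.unit C6 :=
  Ok.run hw hf8 ⟨356,25,25,1,10⟩ 58
    (.part 15914343535412472506623848345020154538837283561710947777191082854190012408873326468923383 (.chk false 0) (.split 0 (.part 1409233 (.chk false 0) (.split 1 (.part 8171 (.chk false 0) (.split 0 (.part 2 (.chk false 0) (.split 1 (.chk false 0) (.chk false 0))) (.chk false 0))) (.chk false 0))) (.chk false 0)))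
    (by decide +kernel)

theorem p6_9_0 : Ok par f9 Box3.unit C6 :=
  Ok.run hw hf9 ⟨221,25,25,1,10⟩ 58
    (.chk false 0)
    (by decide +kernel)


end Crest.Agent.R163.b4G
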