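import Crest.Agent.R163.Q3.D.b4G.S7
import Crest.Agent.R163.Q3.D.b4G.F0
import Crest.Agent.R163.Q3.D.b4G.F1
import Crest.Agent.R163.Q3.D.b4G.F2
import Crest.Agent.R163.Q3.D.b4G.F3
import Crest.Agent.R163.Q3.D.b4G.F4
import Crest.Agent.R163.Q3.D.b4G.F5
import Crest.Agent.R163.Q3.D.b4G.F6
import Crest.Agent.R163.Q3.D.b4G.F7
import Crest.Agent.R163.Q3.D.b4G.F8
import Crest.Agent.R163.Q3.D.b4G.F9

set_option autoImplicit false
set_option maxRecDepth 100000
set_option linter.all false
set_option Elab.async false

namespace Crest.Agent.R163.b4G

theorem p7_0_0 : Ok par f0 Box3.unit C7 :=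
  Ok.run hw hf0 ⟨297,25,25,1,10⟩ 59
    (.part 509258994083621521567111422102244106635100911524262690028263789675937613466746457155436541 (.chk false 0) (.split 0 (.chk false 0) (.part 3 (.chk false 0) (.split 1 (.chk false 0) (.chk false 0)))))
    (by decide +kernel)

theorem p7_1_0 : Ok par f1 Box3.unit C7 :=
  Ok.run hw hf1 ⟨326,25,25,1,10⟩ 59
    (.part 509258994083389937388636789711296531037317348816334756139744065892407488488679077188730727 (.chk false 0) (.split 0 (.chk false 0) (.part 507 (.chk false 0) (.split 1 (.chk false 0) (.split 0 (.chk false 0) (.chk false 0))))))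
    (by decide +kernel)

theorem p7_2_0 : Ok par f2 Box3.unit C7 :=
  Ok.run hw hf2 ⟨326,25,25,1,10⟩ 59
    (.part 509258994082666236830903563476441106260344005834587907500643695563831074425615154126258175 (.chk false 0) (.split 0 (.part 6 (.chk false 0) (.split 1 (.chk false 0) (.part 1 (.chk false 0) (.split 0 (.chk false 0) (.chk false 0))))) (.chk false 0)))
    (by decide +kernel)

theorem p7_3_0 : Ok par f3 Box3.unit C7 :=
  Ok.run hw hf3 ⟨326,25,25,1,10⟩ 59
    (.part 265069460391391123112340130316708778328588309875661097992218159961320068994724580339859455 (.chk false 0) (.split 0 (.part 11150372599265311570767859135198280846147583 (.chk false 0) (.split 1 (.chk false 0) (.chk false 0))) (.part 11147627743454004810143716562197930131324651 (.chk false 0) (.split 1 (.part 3582 (.chk false 0) (.split 1 (.chk false 0) (.chk false 0))) (.chk false 0)))))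
    (by decide +kernel)

theorem p7_4_0 : Ok par f4 (Box3.unit.l 1) (selB 0 C7 288926076554174180671257144000449793850905704290908336310874159372260140294944705216494590) :=
  Ok.run hw hf4 ⟨528,25,25,1,10⟩ 59
    (.part 673632828583236111456395067656 (.chk false 0) (.split 0 (.chk false 0) (.part 9908361431681902313152184343 (.chk false 0) (.split 1 (.part 9011735814554628 (.chk false 0) (.split 0 (.chk false 0) (.part 575614947212355703 (.chk false 0) (.split 1 (.part 18468 (.chk false 0) (.split 0 (.chk false 0) (.part 1396 (.chk false 0) (.split 1 (.part 10 (.chk false 0) (.split 0 (.part 4 (.chk false 0) (.split 1 (.part 2 (.chk false 0) (.split 0 (.split 1 (.chk false 0) (.chk false 0)) (.chk false 0))) (.chk false 0))) (.chk false 0))) (.chk false 0))))) (.chk false 0))))) (.chk false 0)))))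
    (by decide +kernel)

theorem p7_4_1 : Ok par f4 (Box3.unit.r 1) (selB 0 C7 288926076554174180671257144000449793850905704290908336310874159372260140294944705216494590) :=
  Ok.run hw hf4 ⟨259,25,25,1,10⟩ 59
    (.chk false 0)
    (by decide +kernel)

theorem p7_4_2 : Ok par f4 Box3.unit (selB 1 C7 288926076554174180671257144000449793850905704290908336310874159372260140294944705216494590) :=
  Ok.run hw hf4 ⟨221,25,25,1,10⟩ 59
    (.chk false 0)
    (by decide +kernel)

theorem p7_5_0 : Ok par f5 (Box3.unit.l 1) (selB 1 (selB 0 C7 254633443089970178536413310932140050093782724582459598058998093250931384089411900233777408) 28947639828563782133050672395114095013209861301813323602958129060621326221311) :=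
  Ok.run hw hf5 ⟨260,25,25,1,10⟩ 59
    (.chk false 0)
    (by decide +kernel)

theorem p7_5_1 : Ok par f5 (Box3.unit.l 1) (selB 0 (selB 0 C7 254633443089970178536413310932140050093782724582459598058998093250931384089411900233777408) 28947639828563782133050672395114095013209861301813323602958129060621326221311) :=
  Ok.run hw hf5 ⟨435,25,25,1,10⟩ 59
    (.split 1 (.part 33483250131208005222943 (.chk false 0) (.split 0 (.part 564917464391941 (.chk false 0) (.split 1 (.part 8506532207 (.chk false 0) (.split 0 (.part 2042 (.chk false 0) (.split 0 (.part 13 (.chk false 0) (.split 1 (.chk false 0) (.chk false 0))) (.chk false 0))) (.chk false 0))) (.part 8573026297 (.chk false 0) (.split 0 (.chk false 0) (.part 11 (.chk false 0) (.split 1 (.chk false 0) (.chk false 0))))))) (.part 1970316246499327 (.chk false 0) (.split 1 (.chk false 0) (.chk false 0))))) (.part 4835703278458516497498111 (.chk false 0) (.split 1 (.chk false 0) (.part 1 (.chk false 0) (.split 0 (.chk false 0) (.split 1 (.chk false 0) (.split 0 (.split 1 (.chk false 0) (.chk false 0)) (.chk false 0))))))))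
    (by decide +kernel)

theorem p7_5_2 : Ok par f5 ((Box3.unit.r 1).l 1) (selB 0 (selB 0 C7 254633443089970178536413310932140050093782724582459598058998093250931384089411900233777408) 32686736479099938974549198967912194798198473817280572505940182263759258998) :=
  Ok.run hw hf5 ⟨388,25,25,1,10⟩ 59
    (.part 100433627672650787432109773414556598747883262060631718625279 (.chk false 0) (.split 0 (.part 247 (.chk false 0) (.split 0 (.chk false 0) (.split 1 (.chk false 0) (.split 0 (.chk false 0) (.chk false 0))))) (.part 43 (.chk false 0) (.split 1 (.chk false 0) (.chk false 0)))))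
    (by decide +kernel)

theorem p7_5_3 : Ok par f5 ((Box3.unit.r 1).r 1) (selB 0 (selB 0 C7 254633443089970178536413310932140050093782724582459598058998093250931384089411900233777408) 32686736479099938974549198967912194798198473817280572505940182263759258998) :=
  Ok.run hw hf5 ⟨408,25,25,1,10⟩ 59
    (.part 23301295188416142144334269546916597005686639652403394641855 (.chk false 0) (.split 0 (.part 93332945450398073093106 (.chk false 0) (.split 1 (.part 8388591 (.chk false 0) (.split 0 (.chk false 0) (.split 0 (.chk false 0) (.chk false 0)))) (.part 3669499 (.chk false 0) (.split 0 (.part 11 (.chk false 0) (.split 1 (.chk false 0) (.chk false 0))) (.part 13 (.chk false 0) (.split 0 (.chk false 0) (.chk false 0))))))) (.part 244304052189475701750778 (.chk false 0) (.split 1 (.chk false 0) (.chk false 0)))))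
    (by decide +kernel)

theorem p7_5_4 : Ok par f5 (Box3.unit.r 1) (selB 1 (selB 0 C7 254633443089970178536413310932140050093782724582459598058998093250931384089411900233777408) 32686736479099938974549198967912194798198473817280572505940182263759258998) :=
  Ok.run hw hf5 ⟨260,25,25,1,10⟩ 59
    (.chk false 0)
    (by decide +kernel)

theorem p7_5_5 : Ok par f5 Box3.unit (selB 1 C7 254633443089970178536413310932140050093782724582459598058998093250931384089411900233777408) :=
  Ok.run hw hf5 ⟨222,25,25,1,10⟩ 59
    (.chk false 0)
    (by decide +kernel)

theorem p7_6_0 : Ok par f6 Box3.unit C7 :=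
  Ok.run hw hf6 ⟨326,25,25,1,10⟩ 59
    (.part 509258994083389937388635841900671514022637067531784879195739692687806516036040669377068927 (.chk false 0) (.split 0 (.chk false 0) (.part 71 (.chk false 0) (.split 1 (.chk false 0) (.part 13 (.chk false 0) (.split 0 (.chk false 0) (.chk false 0)))))))
    (by decide +kernel)

theorem p7_7_0 : Ok par f7 Box3.unit C7 :=
  Ok.run hw hf7 ⟨259,25,25,1,10⟩ 59
    (.part 269048046979260240345346559148772209773040400181411684752632263246798064358967904506478463 (.chk false 0) (.split 0 (.chk false 0) (.chk false 0)))
    (by decide +kernel)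

theorem p7_8_0 : Ok par f8 Box3.unit C7 :=
  Ok.run hw hf8 ⟨298,25,25,1,10⟩ 59
    (.part 509258994083621521567104678824668637960506341643695974435532220811982528942169449513877503 (.chk false 0) (.split 0 (.part 536 (.chk false 0) (.split 1 (.chk false 0) (.chk false 0))) (.chk false 0)))
    (by decide +kernel)

theorem p7_9_0 : Ok par f9 Box3.unit C7 :=
  Ok.run hw hf9 ⟨260,25,25,1,10⟩ 59
    (.part 509258994083621521567111422102344540262867098416484062659033842212115018140672130044395519 (.chk false 0) (.split 0 (.chk false 0) (.chk false 0)))
    (by decide +kernel)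


end Crest.Agent.R163.b4G
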