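import Crest.Agent.R163.Q3.D.b4G.S8
import Crest.Agent.R163.Q3.D.b4G.F0
import Crest.Agent.R163.Q3.D.b4G.F1
import Crest.Agent.R163.Q3.D.b4G.F2
import Crest.Agent.R163.Q3.D.b4G.F3
import Crest.Agent.R163.Q3.D.b4G.F4
import Crest.Agent.R163.Q3.D.b4G.F5
import Crest.Agent.R163.Q3.D.b4G.F6
import Crest.Agent.R163.Q3.D.b4G.F7
import Crest.Agent.R163.Q3.D.b4G.F8
import Crest.Agent.R163.Q3.D.b4G.F9

set_option autoImplicit false
set_option maxRecDepth 100000
set_option linter.all false
set_option Elab.async false

namespace Crest.Agent.R163.b4G

theorem p8_0_0 : Ok par f0 Box3.unit C8 :=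
  Ok.run hw hf0 ⟨296,25,25,1,10⟩ 58
    (.part 509258994083621521567111422076633531554723254007812669171191916981170421783248498518392831 (.chk false 0) (.split 0 (.chk false 0) (.part 5 (.chk false 0) (.split 1 (.chk false 0) (.chk false 0)))))
    (by decide +kernel)

theorem p8_1_0 : Ok par f1 Box3.unit C8 :=
  Ok.run hw hf1 ⟨258,25,25,1,10⟩ 58
    (.part 509258994083621521567111418811335425620455014106545697544334102373123593673674448766500863 (.chk false 0) (.split 0 (.chk false 0) (.chk false 0)))
    (by decide +kernel)

theorem p8_2_0 : Ok par f2 Box3.unit C8 :=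
  Ok.run hw hf2 ⟨220,25,25,1,10⟩ 58
    (.chk false 0)
    (by decide +kernel)

theorem p8_3_0 : Ok par f3 Box3.unit C8 :=
  Ok.run hw hf3 ⟨325,25,25,1,10⟩ 58
    (.part 254702347317981503679994536863749491242525553661218560776665842911105425933585234473719952 (.chk false 0) (.split 0 (.part 5986310706507335817666427957497962326684770725003263 (.chk false 0) (.split 1 (.chk false 0) (.chk false 0))) (.part 5986310706504947776495250618474730272775378812461055 (.chk false 0) (.split 1 (.part 2080511 (.chk false 0) (.split 1 (.chk false 0) (.chk false 0))) (.part 1833983 (.chk false 0) (.split 0 (.chk false 0) (.chk false 0)))))))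
    (by decide +kernel)

theorem p8_4_0 : Ok par f4 (Box3.unit.l 1) (selB 0 C8 254644073654043362839016588393012305118669347532221444126521055687281144564534396084764054) :=
  Ok.run hw hf4 ⟨458,25,25,1,10⟩ 58
    (.part 5074473768622026018528050544640 (.chk false 0) (.split 0 (.chk false 0) (.part 77977117335756063794957458 (.chk false 0) (.split 1 (.part 302231454903658904354968 (.chk false 0) (.split 0 (.chk false 0) (.part 4129875457467857926397 (.chk false 0) (.split 1 (.part 2422374464 (.chk false 0) (.split 0 (.chk false 0) (.part 35306366 (.chk false 0) (.split 1 (.part 429 (.chk false 0) (.split 0 (.chk false 0) (.chk false 0))) (.chk false 0))))) (.chk false 0))))) (.chk false 0)))))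
    (by decide +kernel)

theorem p8_4_1 : Ok par f4 (Box3.unit.r 1) (selB 0 C8 254644073654043362839016588393012305118669347532221444126521055687281144564534396084764054) :=
  Ok.run hw hf4 ⟨287,25,25,1,10⟩ 58
    (.part 1298074214624262174166884791877631 (.chk false 0) (.split 1 (.chk false 0) (.chk false 0)))
    (by decide +kernel)

theorem p8_4_2 : Ok par f4 Box3.unit (selB 1 C8 254644073654043362839016588393012305118669347532221444126521055687281144564534396084764054) :=
  Ok.run hw hf4 ⟨220,25,25,1,10⟩ 58
    (.chk false 0)
    (by decide +kernel)

theorem p8_5_0 : Ok par f5 (Box3.unit.r 1) (selB 1 (selB 0 C8 254631439784811061487823364051919259283507952150592756046077269993811422086806938869569664) 3548792132464557825818112558759056098241165662738318024960824311826300944) :=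
  Ok.run hw hf5 ⟨259,25,25,1,10⟩ 58
    (.chk false 0)
    (by decide +kernel)

theorem p8_5_1 : Ok par f5 (Box3.unit.r 1) (selB 0 (selB 0 C8 254631439784811061487823364051919259283507952150592756046077269993811422086806938869569664) 3548792132464557825818112558759056098241165662738318024960824311826300944) :=
  Ok.run hw hf5 ⟨402,25,25,1,10⟩ 58
    (.split 1 (.part 51422017416240920764948198061532150064863118285582203109621759 (.chk false 0) (.split 0 (.chk false 0) (.part 29 (.chk false 0) (.split 1 (.chk false 0) (.chk false 0))))) (.part 27319753232239777478185888226395140667232663302532447997735182 (.chk false 0) (.split 1 (.part 144064568405615079524018976959 (.chk false 0) (.split 0 (.part 6375178239 (.chk false 0) (.split 1 (.chk false 0) (.part 6 (.chk false 0) (.split 0 (.chk false 0) (.chk false 0))))) (.part 8585609215 (.chk false 0) (.split 1 (.chk false 0) (.chk false 0))))) (.part 311922166494737685650966834966 (.chk false 0) (.split 0 (.part 7095 (.chk false 0) (.split 0 (.chk false 0) (.chk false 0))) (.chk false 0))))))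
    (by decide +kernel)

theorem p8_5_2 : Ok par f5 (Box3.unit.l 1) (selB 0 C8 254631439784811061487823364051919259283507952150592756046077269993811422086806938869569664) :=
  Ok.run hw hf5 ⟨434,25,25,1,10⟩ 58
    (.part 200815569026658026722331915714975569955131691154182300605465647249147923521899 (.chk false 0) (.split 1 (.part 29253222438259376140673 (.chk false 0) (.split 0 (.part 72259502882119 (.chk false 0) (.split 1 (.part 267364344 (.chk false 0) (.split 0 (.part 509 (.chk false 0) (.split 0 (.split 1 (.chk false 0) (.chk false 0)) (.chk false 0))) (.chk false 0))) (.part 251461599 (.chk false 0) (.split 0 (.part 53 (.chk false 0) (.split 1 (.split 0 (.chk false 0) (.chk false 0)) (.chk false 0))) (.chk false 0))))) (.part 562881221360829 (.chk false 0) (.split 1 (.chk false 0) (.chk false 0))))) (.chk false 0)))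
    (by decide +kernel)

theorem p8_5_3 : Ok par f5 Box3.unit (selB 1 C8 254631439784811061487823364051919259283507952150592756046077269993811422086806938869569664) :=
  Ok.run hw hf5 ⟨221,25,25,1,10⟩ 58
    (.chk false 0)
    (by decide +kernel)

theorem p8_6_0 : Ok par f6 Box3.unit C8 :=
  Ok.run hw hf6 ⟨354,25,25,1,10⟩ 58
    (.part 509258994083621519351637361518230874534001048690998104535291534348697761035221173408890879 (.chk false 0) (.split 0 (.chk false 0) (.part 19236 (.chk false 0) (.split 1 (.part 414 (.chk false 0) (.split 0 (.chk false 0) (.part 5 (.chk false 0) (.split 1 (.chk false 0) (.chk false 0))))) (.part 444 (.chk false 0) (.split 0 (.chk false 0) (.part 6 (.chk false 0) (.split 0 (.chk false 0) (.chk false 0)))))))))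
    (by decide +kernel)

theorem p8_7_0 : Ok par f7 Box3.unit C8 :=
  Ok.run hw hf7 ⟨370,25,25,1,10⟩ 58
    (.part 258964599179945762290242813451088879676105787034475692971978023553040425131412752252747678 (.chk false 0) (.split 0 (.part 5316911963330205011409914584385978367 (.chk false 0) (.split 1 (.chk false 0) (.split 0 (.chk false 0) (.chk false 0)))) (.part 5233794033520649311191357494854090751 (.chk false 0) (.split 1 (.chk false 0) (.split 0 (.part 127 (.chk false 0) (.split 1 (.chk false 0) (.split 0 (.chk false 0) (.chk false 0)))) (.chk false 0))))))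
    (by decide +kernel)

theorem p8_8_0 : Ok par f8 Box3.unit C8 :=
  Ok.run hw hf8 ⟨297,25,25,1,10⟩ 58
    (.part 509258994083621521567111422102344540262867097702860216306055171799780933587094388732854271 (.chk false 0) (.split 0 (.part 12 (.chk false 0) (.split 1 (.chk false 0) (.chk false 0))) (.chk false 0)))
    (by decide +kernel)

theorem p8_9_0 : Ok par f9 Box3.unit C8 :=
  Ok.run hw hf9 ⟨221,25,25,1,10⟩ 58
    (.chk false 0)
    (by decide +kernel)


end Crest.Agent.R163.b4G
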