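import Crest.Agent.R163.Q3.D.b4G.S9
import Crest.Agent.R163.Q3.D.b4G.F0
import Crest.Agent.R163.Q3.D.b4G.F1
import Crest.Agent.R163.Q3.D.b4G.F2
import Crest.Agent.R163.Q3.D.b4G.F3
import Crest.Agent.R163.Q3.D.b4G.F4
import Crest.Agent.R163.Q3.D.b4G.F5
import Crest.Agent.R163.Q3.D.b4G.F6
import Crest.Agent.R163.Q3.D.b4G.F7
import Crest.Agent.R163.Q3.D.b4G.F8
import Crest.Agent.R163.Q3.D.b4G.F9

set_option autoImplicit false
set_option maxRecDepth 100000
set_option linter.all false
set_option Elab.async false

namespace Crest.Agent.R163.b4G

theorem p9_0_0 : Ok par f0 Box3.unit C9 :=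
  Ok.run hw hf0 ⟨428,25,25,1,10⟩ 58
    (.part 994646472819573284310764084917502349899401762852394478631318568438860970401859792535543 (.chk false 0) (.split 0 (.chk false 0) (.split 1 (.chk false 0) (.part 5 (.chk false 0) (.split 0 (.chk false 0) (.split 1 (.chk false 0) (.split 0 (.split 1 (.chk false 0) (.split 0 (.chk false 0) (.chk false 0))) (.chk false 0))))))))
    (by decide +kernel)

theorem p9_1_0 : Ok par f1 Box3.unit C9 :=
  Ok.run hw hf1 ⟨287,25,25,1,10⟩ 58
    (.part 994646472819573284310764496293641680200912301594689951815445341008343265820943094644607 (.chk false 0) (.split 0 (.chk false 0) (.part 3 (.chk false 0) (.split 0 (.chk false 0) (.chk false 0)))))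
    (by decide +kernel)

theorem p9_2_0 : Ok par f2 Box3.unit C9 :=
  Ok.run hw hf2 ⟨220,25,25,1,10⟩ 58
    (.chk false 0)
    (by decide +kernel)

theorem p9_3_0 : Ok par f3 Box3.unit C9 :=
  Ok.run hw hf3 ⟨354,25,25,1,10⟩ 58
    (.part 746242391310187401609235636680155013210961540089306593349701646743863827431322464304126 (.chk false 0) (.split 0 (.part 11692013095754823226801501684512648131120268836863 (.chk false 0) (.split 1 (.chk false 0) (.part 5 (.chk false 0) (.split 0 (.chk false 0) (.chk false 0))))) (.part 11692013057813292584445134457011516699760582844269 (.chk false 0) (.split 1 (.part 245759 (.chk false 0) (.split 0 (.split 1 (.chk false 0) (.chk false 0)) (.split 1 (.chk false 0) (.chk false 0)))) (.part 245759 (.chk false 0) (.split 0 (.chk false 0) (.chk false 0)))))))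
    (by decide +kernel)

theorem p9_4_0 : Ok par f4 (Box3.unit.l 1) (selB 0 C9 753723753539649362029319099686924820176812331137962501920541907102936349654203766800382) :=
  Ok.run hw hf4 ⟨458,25,25,1,10⟩ 58
    (.part 19845726254793822915753410564 (.chk false 0) (.split 0 (.chk false 0) (.part 311214581267246379025044899 (.chk false 0) (.split 1 (.part 1161928841300541440 (.chk false 0) (.split 0 (.chk false 0) (.part 576460477094029180 (.chk false 0) (.split 1 (.part 1377 (.chk false 0) (.split 0 (.chk false 0) (.part 302 (.chk false 0) (.split 1 (.part 3 (.chk false 0) (.split 0 (.chk false 0) (.chk false 0))) (.chk false 0))))) (.chk false 0))))) (.chk false 0)))))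
    (by decide +kernel)

theorem p9_4_1 : Ok par f4 (Box3.unit.r 1) (selB 0 C9 753723753539649362029319099686924820176812331137962501920541907102936349654203766800382) :=
  Ok.run hw hf4 ⟨406,25,25,1,10⟩ 58
    (.part 948261616653185038796380438461 (.chk false 0) (.split 1 (.chk false 0) (.part 1904 (.chk false 0) (.split 0 (.chk false 0) (.split 1 (.chk false 0) (.part 15 (.chk false 0) (.split 0 (.chk false 0) (.split 1 (.chk false 0) (.chk false 0)))))))))
    (by decide +kernel)

theorem p9_4_2 : Ok par f4 Box3.unit (selB 1 C9 753723753539649362029319099686924820176812331137962501920541907102936349654203766800382) :=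
  Ok.run hw hf4 ⟨220,25,25,1,10⟩ 58
    (.chk false 0)
    (by decide +kernel)

theorem p9_5_0 : Ok par f5 (Box3.unit.r 1) (selB 1 (selB 0 C9 746237648202287652571639237052570499664656251484201128399171665182434009127330022167296) 1007658346550813012458186420039040249314383517509232862832200548970695250) :=
  Ok.run hw hf5 ⟨259,25,25,1,10⟩ 58
    (.chk false 0)
    (by decide +kernel)

theorem p9_5_1 : Ok par f5 (Box3.unit.r 1) (selB 0 (selB 0 C9 746237648202287652571639237052570499664656251484201128399171665182434009127330022167296) 1007658346550813012458186420039040249314383517509232862832200548970695250) :=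
  Ok.run hw hf5 ⟨413,25,25,1,10⟩ 58
    (.split 1 (.part 50216813883093446110686315385661331168258365123745829355503 (.chk false 0) (.split 0 (.chk false 0) (.part 6 (.chk false 0) (.split 1 (.chk false 0) (.part 1 (.chk false 0) (.split 1 (.chk false 0) (.split 1 (.chk false 0) (.chk false 0)))))))) (.part 43861889336391110301181455272201903917464497348170870554110 (.chk false 0) (.split 1 (.part 1626670278655582328 (.chk false 0) (.split 0 (.part 7864319 (.chk false 0) (.split 1 (.split 0 (.chk false 0) (.split 1 (.chk false 0) (.chk false 0))) (.chk false 0))) (.part 7831544 (.chk false 0) (.split 1 (.chk false 0) (.chk false 0))))) (.part 2305842459449491455 (.chk false 0) (.split 0 (.chk false 0) (.chk false 0))))))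
    (by decide +kernel)

theorem p9_5_2 : Ok par f5 (Box3.unit.l 1) (selB 0 C9 746237648202287652571639237052570499664656251484201128399171665182434009127330022167296) :=
  Ok.run hw hf5 ⟨382,25,25,1,10⟩ 58
    (.part 224900185130528296442398221169413943884433110034074269779242805486966628095 (.chk false 0) (.split 1 (.part 14883154765685309 (.chk false 0) (.split 0 (.part 49183377791 (.chk false 0) (.split 1 (.part 6143 (.chk false 0) (.split 0 (.chk false 0) (.chk false 0))) (.part 8189 (.chk false 0) (.split 0 (.chk false 0) (.chk false 0))))) (.part 68702662584 (.chk false 0) (.split 1 (.part 125 (.chk false 0) (.split 1 (.chk false 0) (.chk false 0))) (.chk false 0))))) (.part 288230376151710719 (.chk false 0) (.split 0 (.chk false 0) (.chk false 0)))))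
    (by decide +kernel)

theorem p9_5_3 : Ok par f5 Box3.unit (selB 1 C9 746237648202287652571639237052570499664656251484201128399171665182434009127330022167296) :=
  Ok.run hw hf5 ⟨221,25,25,1,10⟩ 58
    (.chk false 0)
    (by decide +kernel)

theorem p9_6_0 : Ok par f6 Box3.unit C9 :=
  Ok.run hw hf6 ⟨354,25,25,1,10⟩ 58
    (.part 994646472819527344507723778269130288017775769321354196619824725049812308903982140489591 (.chk false 0) (.split 0 (.chk false 0) (.part 1833 (.chk false 0) (.split 1 (.part 222 (.chk false 0) (.split 0 (.chk false 0) (.part 1 (.chk false 0) (.split 1 (.chk false 0) (.chk false 0))))) (.chk false 0)))))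
    (by decide +kernel)

theorem p9_7_0 : Ok par f7 Box3.unit C9 :=
  Ok.run hw hf7 ⟨370,25,25,1,10⟩ 58
    (.part 751174952945159929141122505318202741768503879842764648072982084859363646999527733722994 (.chk false 0) (.split 0 (.part 1329227995784915573144215862500065262 (.chk false 0) (.split 1 (.chk false 0) (.split 0 (.chk false 0) (.part 30 (.chk false 0) (.split 1 (.chk false 0) (.split 0 (.chk false 0) (.chk false 0))))))) (.part 1329226411221665585311212180187643903 (.chk false 0) (.split 1 (.chk false 0) (.part 1 (.chk false 0) (.split 0 (.chk false 0) (.chk false 0)))))))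
    (by decide +kernel)

theorem p9_8_0 : Ok par f8 Box3.unit C9 :=
  Ok.run hw hf8 ⟨221,25,25,1,10⟩ 58
    (.chk false 0)
    (by decide +kernel)

theorem p9_9_0 : Ok par f9 Box3.unit C9 :=
  Ok.run hw hf9 ⟨221,25,25,1,10⟩ 58
    (.chk false 0)
    (by decide +kernel)


end Crest.Agent.R163.b4G
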